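import Mathlib

/-! The algorithm. Points are `0, …, D.length - 1`; `D` is the distance matrix. -/

namespace Vale.Agent.P334

open Finset

/-- Matrices. -/
abbrev Mx : Type := List (List ℚ)

/-- Entries. -/
def dd (D : Mx) (i j : ℕ) : ℚ := (D.getD i []).getD j 0

/-- Minimum of a list. -/
def lmin (l : List ℚ) : ℚ := l.foldl min (l.headD 0)

/-- A minimiser of `f` in a list. -/
def amin {β : Type} [Inhabited β] (f : β → ℚ) (l : List β) : β :=
  (l.filter fun b => decide (f b = lmin (l.map f))).headI

/-- Distance from `j` to the list `O`. -/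
def dS (D : Mx) (O : List ℕ) (j : ℕ) : ℚ := lmin (O.map (dd D j))

/-- The cost of a list of facilities. -/
def cost (D : Mx) (J O : List ℕ) : ℚ := (J.map (dS D O)).sum

/-! ### The nearest unit of mass -/

/-- Mass at values `≤ v`. -/
def mle (L : List (ℚ × ℚ)) (v : ℚ) : ℚ := ((L.filter fun p => decide (p.1 ≤ v)).map Prod.snd).sum

/-- Mass at values `< v`. -/
def mlt (L : List (ℚ × ℚ)) (v : ℚ) : ℚ := ((L.filter fun p => decide (p.1 < v)).map Prod.snd).sum

/-- The threshold value. -/
def lam (L : List (ℚ × ℚ)) : ℚ := lmin ((L.filter fun p => decide (1 ≤ mle L p.1)).map Prod.fst)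

/-- The fraction used at value `e`. -/
def bet (L : List (ℚ × ℚ)) (e : ℚ) : ℚ :=
  if e < lam L then 1
  else if e = lam L then (1 - mlt L (lam L)) / (mle L (lam L) - mlt L (lam L)) else 0

/-- The masses seen from the client `j`. -/
def cl (D : Mx) (y : List ℚ) (j : ℕ) : List (ℚ × ℚ) :=
  (List.range D.length).map fun i => (dd D j i, y.getD i 0)

/-- The fraction of the facility `i` used by the client `j`. -/
def xi (D : Mx) (y : List ℚ) (j i : ℕ) : ℚ := bet (cl D y j) (dd D j i)

/-- The value of the fractional solution `y`. -/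
def lpv (D : Mx) (J : List ℕ) (y : List ℚ) : ℚ :=
  (J.map fun j => ∑ i ∈ range D.length, xi D y j i * y.getD i 0 * dd D j i).sum

/-! ### Multiplicative weights -/

/-- The gain of the facility `i` for the radii `R`. -/
def gain (D : Mx) (R : List (ℕ × ℚ)) (i : ℕ) : ℚ := (R.map fun p => max (p.2 - dd D p.1 i) 0).sum

/-- The weights after the history `H`. -/
def wt (D : Mx) (F : List ℕ) (c : ℚ) (H : List (List (ℕ × ℚ))) (i : ℕ) : ℚ :=
  if i ∈ F then (H.map fun R => 1 + c * gain D R i).prod else 0

/-- The fractional solution after the history `H`. -/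
def yv (D : Mx) (F : List ℕ) (k : ℕ) (c : ℚ) (H : List (List (ℕ × ℚ))) : List ℚ :=
  (List.range D.length).map fun i => k * wt D F c H i / ∑ l ∈ range D.length, wt D F c H l

/-- One round. -/
def mwStep (D : Mx) (J F : List ℕ) (k : ℕ) (c : ℚ) (H : List (List (ℕ × ℚ))) :
    List (List (ℕ × ℚ)) :=
  (J.map fun j => (j, lam (cl D (yv D F k c H) j))) :: H

/-- A list whose length is the product of the lengths. -/
def ul (A B : List ℕ) : List ℕ := A.flatMap fun _ => B

/-- A list of length `c * D.length ^ e`. -/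
def un (D : Mx) (c : ℕ) : ℕ → List ℕ
  | 0 => List.range c
  | e + 1 => ul (List.range D.length) (un D c e)

/-- The step size. -/
def mwC (D : Mx) (r : ℚ) : ℚ := 1 / (300000 * (D.length : ℚ) ^ 5 * r)

/-- The full history. -/
def mwHist (D : Mx) (J F : List ℕ) (k : ℕ) (r : ℚ) : List (List (ℕ × ℚ)) :=
  (un D (10 ^ 10) 7).foldl (fun H _ => mwStep D J F k (mwC D r) H) []

/-- The best fractional solution found. -/
def mw (D : Mx) (J F : List ℕ) (k : ℕ) (r : ℚ) : List ℚ :=
  amin (lpv D J) ((List.range (mwHist D J F k r).length).map fun t =>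
    yv D F k (mwC D r) ((mwHist D J F k r).drop (t + 1)))

/-! ### Rounding -/

/-- States: the masses in units of `1 / M`, and the open facilities. -/
abbrev St : Type := List ℕ × List ℕ

/-- The mass of the facility `i`. -/
def yq (M : ℕ) (s : St) (i : ℕ) : ℚ := (s.1.getD i 0 : ℚ) / M

/-- The layered masses seen from the facility `i`. -/
def kl (D : Mx) (M : ℕ) (s : St) (i : ℕ) : List (ℚ × ℚ) :=
  ((List.range D.length).map fun l => (dd D i l, yq M s l / 2)) ++
    ((List.range D.length).map fun l => (11 / 10 * dd D i l, yq M s l / 2)) ++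
    [(2000 / 2001 * dS D s.2 i, 1)]

/-- The fraction of `i` removed when `l` opens. -/
def hk (D : Mx) (M : ℕ) (s : St) (i l : ℕ) : ℚ :=
  (bet (kl D M s i) (dd D i l) + bet (kl D M s i) (11 / 10 * dd D i l)) / 2

/-- The share of the open facilities. -/
def uk (D : Mx) (M : ℕ) (s : St) (i : ℕ) : ℚ := bet (kl D M s i) (2000 / 2001 * dS D s.2 i)

/-- The mass pointing to `l`. -/
def inn (D : Mx) (M : ℕ) (s : St) (l : ℕ) : ℚ := ∑ i ∈ range D.length, yq M s i * hk D M s i l

/-- The damping of heavy facilities. -/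
def qq (D : Mx) (M : ℕ) (s : St) (l : ℕ) : ℚ :=
  if inn D M s l ≤ 10 ^ 6 then 1 else 10 ^ 6 / inn D M s l

/-- Open `l`. -/
def opn (D : Mx) (M : ℕ) (s : St) (l : ℕ) : St :=
  ((List.range s.1.length).map fun i => if i = l then 0 else
    min (s.1.getD i 0) ⌊(s.1.getD i 0 : ℚ) * (1 - qq D M s l * hk D M s i l)⌋₊, l :: s.2)

/-- Remove one unit of mass at `l`. -/
def dec (s : St) (l : ℕ) : St :=
  ((List.range s.1.length).map fun i => if i = l then s.1.getD i 0 - 1 else s.1.getD i 0, s.2)

/-- The potential of a client with mass `m`, fractional cost `a`, and distance `t` to the open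
facilities. -/
def psi (m a t : ℚ) : ℚ := (399 / 200 - (1 - m) / 4) * a + (1 - m) * (1 + m / 50000) * t

/-- The shares of the client `j` within the radius `ρ`. -/
def xs (D : Mx) (y : List ℚ) (M : ℕ) (s : St) (j : ℕ) (ρ : ℚ) (i : ℕ) : ℚ :=
  if dd D j i ≤ ρ then xi D y j i * yq M s i else 0

/-- The potential of the client `j` for the radius `ρ`. -/
def psiR (D : Mx) (y : List ℚ) (M : ℕ) (s : St) (j : ℕ) (ρ : ℚ) : ℚ :=
  psi (∑ i ∈ range D.length, xs D y M s j ρ i)
    (∑ i ∈ range D.length, xs D y M s j ρ i * dd D j i) (dS D s.2 j)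

/-- The potential of the client `j`. -/
def psiC (D : Mx) (y : List ℚ) (M : ℕ) (s : St) (j : ℕ) : ℚ :=
  lmin ((-1 :: (List.range D.length).map (dd D j)).map (psiR D y M s j))

/-- The ledger; `U` has length `M` and `K` has length `k M`. -/
def led (U K : List ℕ) (s : St) : ℚ :=
  ((1 + 1 / (2 * 10 ^ 11 * (U.length : ℚ))) ^ U.length) ^ s.2.length *
    (1 - 1 / (2 * 10 ^ 11 * (U.length : ℚ))) ^ (K.drop s.1.sum).length

/-- The reserve for the rounding errors. -/
def res (M : ℕ) (s : St) : ℕ := M * (s.1.filter fun a => decide (0 < a)).length + s.1.sum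

/-- The potential. -/
def phi (D : Mx) (J : List ℕ) (y : List ℚ) (U K : List ℕ) (μ e : ℚ) (s : St) : ℚ :=
  (J.map (psiC D y U.length s)).sum + μ * led U K s + e * res U.length s

/-- The possible moves. -/
def moves (D : Mx) (M : ℕ) (s : St) : List St :=
  ((List.range D.length).filter fun l => decide (0 < s.1.getD l 0)).flatMap fun l =>
    [opn D M s l, dec s l]

/-- The best move. -/
def step (D : Mx) (J : List ℕ) (y : List ℚ) (U K : List ℕ) (μ e : ℚ) (s : St) : St :=
  if moves D U.length s = [] then s else amin (phi D J y U K μ e) (moves D U.length s)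

/-- Rounding of `y`, starting with the open facility `o`. -/
def rnd (D : Mx) (J : List ℕ) (y : List ℚ) (U K : List ℕ) (μ e : ℚ) (o : ℕ) : St :=
  K.foldl (fun s _ => step D J y U K μ e s)
    ((List.range D.length).map fun i => ⌊(U.length : ℚ) * y.getD i 0⌋₊, [o])

/-- The pseudo-approximation. -/
def pseudo (D : Mx) (J F : List ℕ) (k : ℕ) (r : ℚ) : List ℕ :=
  (rnd D J (mw D J F k r) (un D (10 ^ 6) 4) (ul ((List.range D.length).take k) (un D (10 ^ 6) 4))
    ((lpv D J (mw D J F k r) + r) / 10000) (6 * r / (10 ^ 12 * (D.length : ℚ) ^ 5)) F.headI).2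

/-! ### From `k + O(1)` facilities to `k` facilities -/

/-- The number of additional facilities. -/
def cc : ℕ := 10 ^ 17

/-- The number of guessed facilities. -/
def tt : ℕ := 10 ^ 23

/-- Truncated distances. -/
def trunc (D : Mx) (B : ℚ) : Mx := D.map fun row => row.map fun a => min a B

/-- One step of recentering. -/
def lloyd (D : Mx) (J F W : List ℕ) : List ℕ :=
  W.map fun i => amin (fun f =>
    ((J.filter fun j => decide (amin (dd D j) W = i)).map fun j => dd D j f).sum) F

/-- All lists of length `t` over `F`. -/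
def lists (F : List ℕ) : ℕ → List (List ℕ)
  | 0 => [[]]
  | t + 1 => (lists F t).flatMap fun l => F.map fun a => a :: l

/-- The solutions obtained from `T` by guessing. -/
def guess (D : Mx) (J F T : List ℕ) (t : ℕ) : List (List ℕ) :=
  (lists F t).flatMap fun R => (lists F t).map fun V =>
    lloyd D J F ((T.filter fun i => decide (i ∉ R)) ++ V).dedup

/-- The candidates for the scale `r`. -/
def cands (D : Mx) (J F : List ℕ) (k : ℕ) (r : ℚ) : List (List ℕ) :=
  pseudo (trunc D (3 * D.length * r)) J F (k - cc) r ::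
    guess (trunc D (3 * D.length * r)) J F (pseudo (trunc D (3 * D.length * r)) J F k r) tt

/-- The algorithm. -/
def alg (D : Mx) (J F : List ℕ) (k : ℕ) : List ℕ :=
  amin (cost D J) (([F.headI] :: (D.flatten.filter fun r => decide (0 < r)).flatMap
    (cands D J F k)).filter fun S => decide (S ≠ [] ∧ S.length ≤ k ∧ ∀ i ∈ S, i ∈ F))

/-- Decoding of the input and the algorithm. -/
def full (l : List ℕ) : List ℕ :=
  alg (((List.range l.length).take (l.getD 0 0)).map fun i =>
      ((List.range l.length).take (l.getD 0 0)).map fun j =>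
        (l.getD (2 + 2 * l.getD 0 0 + 2 * (i * l.getD 0 0 + j)) 0 : ℚ) /
          (l.getD (2 + 2 * l.getD 0 0 + 2 * (i * l.getD 0 0 + j) + 1) 0 : ℚ))
    (((List.range l.length).take (l.getD 0 0)).filter fun j => decide (l.getD (2 + j) 0 = 1))
    (((List.range l.length).take (l.getD 0 0)).filter fun j =>
      decide (l.getD (2 + l.getD 0 0 + j) 0 = 1))
    (l.getD 1 0)

/-! ### Valid data -/

/-- `D` is a pseudometric, the clients and the facilities are points. -/
structure Ok (D : Mx) (J F : List ℕ) : Prop where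
  refl : ∀ i < D.length, dd D i i = 0
  symm : ∀ i < D.length, ∀ j < D.length, dd D i j = dd D j i
  tri : ∀ i < D.length, ∀ j < D.length, ∀ l < D.length, dd D i l ≤ dd D i j + dd D j l
  hJ : ∀ j ∈ J, j < D.length
  lenJ : J.length ≤ D.length
  hF : ∀ i ∈ F, i < D.length
  neF : F ≠ []

end Vale.Agent.P334
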