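import Vale.Agent.P334.Stmts

/-! The algorithm with the accuracy parameter `E`. -/

namespace Vale.Agent.P334

open Finset

/-! ### Multiplicative weights -/

/-- The step size. -/
def mwC2 (E : ℕ) (D : Mx) (r : ℚ) : ℚ := 1 / (30 * E * (D.length : ℚ) ^ 5 * r)

/-- The full history. -/
def mwHist2 (E : ℕ) (D : Mx) (J F : List ℕ) (k : ℕ) (r : ℚ) : List (List (ℕ × ℚ)) :=
  (un D (100 * E ^ 2) 7).foldl (fun H _ => mwStep D J F k (mwC2 E D r) H) []

/-- The best fractional solution found. -/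
def mw2 (E : ℕ) (D : Mx) (J F : List ℕ) (k : ℕ) (r : ℚ) : List ℚ :=
  amin (lpv D J) ((List.range (mwHist2 E D J F k r).length).map fun t =>
    yv D F k (mwC2 E D r) ((mwHist2 E D J F k r).drop (t + 1)))

/-! ### Rounding -/

/-- The stretch of the layer `t`. -/
def lay (E t : ℕ) : ℚ := 1 / (1 - 5 * ((t : ℚ) + 1) / (13 * E))

/-- The layered masses seen from the facility `i`. -/
def kl2 (E : ℕ) (D : Mx) (M : ℕ) (s : St) (i : ℕ) : List (ℚ × ℚ) :=
  ((List.range E).flatMap fun t =>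
    (List.range D.length).map fun l => (lay E t * dd D i l, yq M s l / E)) ++
    [(E / (E + 1) * dS D s.2 i, 1)]

/-- The fraction of `i` removed when `l` opens. -/
def hk2 (E : ℕ) (D : Mx) (M : ℕ) (s : St) (i l : ℕ) : ℚ :=
  ((List.range E).map fun t => bet (kl2 E D M s i) (lay E t * dd D i l)).sum / E

/-- The share of the open facilities. -/
def uk2 (E : ℕ) (D : Mx) (M : ℕ) (s : St) (i : ℕ) : ℚ :=
  bet (kl2 E D M s i) (E / (E + 1) * dS D s.2 i)

/-- The mass pointing to `l`. -/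
def inn2 (E : ℕ) (D : Mx) (M : ℕ) (s : St) (l : ℕ) : ℚ :=
  ∑ i ∈ range D.length, yq M s i * hk2 E D M s i l

/-- The damping of heavy facilities. -/
def qq2 (E : ℕ) (D : Mx) (M : ℕ) (s : St) (l : ℕ) : ℚ :=
  if inn2 E D M s l ≤ 10 * (E : ℚ) ^ 2 then 1 else 10 * (E : ℚ) ^ 2 / inn2 E D M s l

/-- Open `l`. -/
def opn2 (E : ℕ) (D : Mx) (M : ℕ) (s : St) (l : ℕ) : St :=
  ((List.range s.1.length).map fun i => if i = l then 0 else
    min (s.1.getD i 0) ⌊(s.1.getD i 0 : ℚ) * (1 - qq2 E D M s l * hk2 E D M s i l)⌋₊, l :: s.2)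

/-- The price of the fractional cost at mass `m`. -/
def cN (E : ℕ) (m : ℚ) : ℚ := 3 - 2 / E * ∑ t ∈ range E, ((1 + m / E)⁻¹) ^ (t + 1)

/-- The lower kink. -/
def nm (t d : ℚ) : ℚ := max (3 * d - t) 0

/-- The upper kink. -/
def np (t d : ℚ) : ℚ := min (max (t - 3 * d) 0) (3 * d)

/-- The potential of a client with mass `m`, fractional cost `a`, distance `t` to the open
facilities, and kink sums `u`, `v`. -/
def psi2 (E : ℕ) (m a t u v : ℚ) : ℚ :=
  (cN E m + 100 / E) * a + (1 - m) * (1 + 2 * m / (E : ℚ) ^ 2) * t + (1 - m) / 22 * u -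
    m * (1 - m) / 10 * v

/-- The potential of the client `j` for the radius `ρ`. -/
def psiR2 (E : ℕ) (D : Mx) (y : List ℚ) (M : ℕ) (s : St) (j : ℕ) (ρ : ℚ) : ℚ :=
  psi2 E (∑ i ∈ range D.length, xs D y M s j ρ i)
    (∑ i ∈ range D.length, xs D y M s j ρ i * dd D j i) (dS D s.2 j)
    (∑ i ∈ range D.length, xs D y M s j ρ i * nm (dS D s.2 j) (dd D j i))
    (∑ i ∈ range D.length, xs D y M s j ρ i * np (dS D s.2 j) (dd D j i))

/-- The potential of the client `j`. -/
def psiC2 (E : ℕ) (D : Mx) (y : List ℚ) (M : ℕ) (s : St) (j : ℕ) : ℚ :=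
  lmin ((-1 :: (List.range D.length).map (dd D j)).map (psiR2 E D y M s j))

/-- The ledger; `U` has length `M` and `K` has length `k M`. -/
def led2 (E : ℕ) (U K : List ℕ) (s : St) : ℚ :=
  ((1 + 1 / (20 * (E : ℚ) ^ 4 * (U.length : ℚ))) ^ U.length) ^ s.2.length *
    (1 - 1 / (20 * (E : ℚ) ^ 4 * (U.length : ℚ))) ^ (K.drop s.1.sum).length

/-- The potential. -/
def phi2 (E : ℕ) (D : Mx) (J : List ℕ) (y : List ℚ) (U K : List ℕ) (μ e : ℚ) (s : St) : ℚ :=
  (J.map (psiC2 E D y U.length s)).sum + μ * led2 E U K s + e * res U.length s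

/-- The possible moves. -/
def moves2 (E : ℕ) (D : Mx) (M : ℕ) (s : St) : List St :=
  ((List.range D.length).filter fun l => decide (0 < s.1.getD l 0)).flatMap fun l =>
    [opn2 E D M s l, dec s l]

/-- The best move. -/
def step2 (E : ℕ) (D : Mx) (J : List ℕ) (y : List ℚ) (U K : List ℕ) (μ e : ℚ) (s : St) : St :=
  if moves2 E D U.length s = [] then s else amin (phi2 E D J y U K μ e) (moves2 E D U.length s)

/-- Rounding of `y`, starting with the open facility `o`. -/
def rnd2 (E : ℕ) (D : Mx) (J : List ℕ) (y : List ℚ) (U K : List ℕ) (μ e : ℚ) (o : ℕ) : St :=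
  K.foldl (fun s _ => step2 E D J y U K μ e s)
    ((List.range D.length).map fun i => ⌊(U.length : ℚ) * y.getD i 0⌋₊, [o])

/-- The pseudo-approximation. -/
def pseudo2 (E : ℕ) (D : Mx) (J F : List ℕ) (k : ℕ) (r : ℚ) : List ℕ :=
  (rnd2 E D J (mw2 E D J F k r) (un D (100 * E) 4)
    (ul ((List.range D.length).take k) (un D (100 * E) 4))
    ((lpv D J (mw2 E D J F k r) + r) / E) (6 * r / (10000 * (E : ℚ) ^ 2 * (D.length : ℚ) ^ 5))
    F.headI).2

/-! ### From `k + O(1)` facilities to `k` facilities -/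

/-- The number of additional facilities. -/
def cc2 (E : ℕ) : ℕ := 100 * E ^ 5

/-- The number of guessed facilities. -/
def tt2 (E : ℕ) : ℕ := 10000 * E ^ 6

/-- The candidates for the scale `r`. -/
def cands2 (E : ℕ) (D : Mx) (J F : List ℕ) (k : ℕ) (r : ℚ) : List (List ℕ) :=
  pseudo2 E (trunc D (3 * D.length * r)) J F (k - cc2 E) r ::
    guess (trunc D (3 * D.length * r)) J F (pseudo2 E (trunc D (3 * D.length * r)) J F k r) (tt2 E)

/-- The algorithm. -/
def alg2 (E : ℕ) (D : Mx) (J F : List ℕ) (k : ℕ) : List ℕ :=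
  amin (cost D J) (([F.headI] :: (D.flatten.filter fun r => decide (0 < r)).flatMap
    (cands2 E D J F k)).filter fun S => decide (S ≠ [] ∧ S.length ≤ k ∧ ∀ i ∈ S, i ∈ F))

/-- Decoding of the input and the algorithm. -/
def full2 (E : ℕ) (l : List ℕ) : List ℕ :=
  alg2 E (((List.range l.length).take (l.getD 0 0)).map fun i =>
      ((List.range l.length).take (l.getD 0 0)).map fun j =>
        (l.getD (2 + 2 * l.getD 0 0 + 2 * (i * l.getD 0 0 + j)) 0 : ℚ) /
          (l.getD (2 + 2 * l.getD 0 0 + 2 * (i * l.getD 0 0 + j) + 1) 0 : ℚ))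
    (((List.range l.length).take (l.getD 0 0)).filter fun j => decide (l.getD (2 + j) 0 = 1))
    (((List.range l.length).take (l.getD 0 0)).filter fun j =>
      decide (l.getD (2 + l.getD 0 0 + j) 0 = 1))
    (l.getD 1 0)

end Vale.Agent.P334
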