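import Vale.Agent.P334.RatPT

/-! The algorithm runs in polynomial time. -/

namespace Vale.Agent.P334

open Vale.Agent.Lib.PolyTime

variable {α β : Type} [Enc α] [Enc β]

@[fun_prop] theorem pt_range' [Inhabited β] {l : α → List β} (hl : PT l) :
    PT (fun a => List.range (l a).length) := pt_range hl

@[fun_prop] theorem pt_fsum' [Inhabited β] {l : α → List β} {f : α → ℕ → ℚ}
    (hf : PT (fun p : α × ℕ => f p.1 p.2)) (hl : PT l) :
    PT (fun a => ∑ i ∈ Finset.range (l a).length, f a i) := pt_fsum hf hl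

@[fun_prop] theorem pt_dd {D : α → Mx} {i j : α → ℕ} (hD : PT D) (hi : PT i) (hj : PT j) :
    PT fun a => dd (D a) (i a) (j a) := by
  unfold dd; fun_prop

@[fun_prop] theorem pt_dS {D : α → Mx} {O : α → List ℕ} {j : α → ℕ} (hD : PT D) (hO : PT O)
    (hj : PT j) : PT fun a => dS (D a) (O a) (j a) := by
  unfold dS; fun_prop

@[fun_prop] theorem pt_cost {D : α → Mx} {J O : α → List ℕ} (hD : PT D) (hJ : PT J)
    (hO : PT O) : PT fun a => cost (D a) (J a) (O a) := by
  unfold cost; fun_prop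

@[fun_prop] theorem pt_mle {L : α → List (ℚ × ℚ)} {v : α → ℚ} (hL : PT L) (hv : PT v) :
    PT fun a => mle (L a) (v a) := by
  unfold mle; fun_prop

@[fun_prop] theorem pt_mlt {L : α → List (ℚ × ℚ)} {v : α → ℚ} (hL : PT L) (hv : PT v) :
    PT fun a => mlt (L a) (v a) := by
  unfold mlt; fun_prop

@[fun_prop] theorem pt_lam {L : α → List (ℚ × ℚ)} (hL : PT L) : PT fun a => lam (L a) := by
  unfold lam; fun_prop

@[fun_prop] theorem pt_bet {L : α → List (ℚ × ℚ)} {v : α → ℚ} (hL : PT L) (hv : PT v) :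
    PT fun a => bet (L a) (v a) := by
  unfold bet; fun_prop

@[fun_prop] theorem pt_cl {D : α → Mx} {y : α → List ℚ} {j : α → ℕ} (hD : PT D) (hy : PT y)
    (hj : PT j) : PT fun a => cl (D a) (y a) (j a) := by
  unfold cl; fun_prop

@[fun_prop] theorem pt_xi {D : α → Mx} {y : α → List ℚ} {j i : α → ℕ} (hD : PT D) (hy : PT y)
    (hj : PT j) (hi : PT i) : PT fun a => xi (D a) (y a) (j a) (i a) := by
  unfold xi; fun_prop

@[fun_prop] theorem pt_lpv {D : α → Mx} {J : α → List ℕ} {y : α → List ℚ} (hD : PT D)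
    (hJ : PT J) (hy : PT y) : PT fun a => lpv (D a) (J a) (y a) := by
  unfold lpv; fun_prop

@[fun_prop] theorem pt_gain {D : α → Mx} {R : α → List (ℕ × ℚ)} {i : α → ℕ} (hD : PT D)
    (hR : PT R) (hi : PT i) : PT fun a => gain (D a) (R a) (i a) := by
  unfold gain; fun_prop

@[fun_prop] theorem pt_wt {D : α → Mx} {F : α → List ℕ} {c : α → ℚ}
    {H : α → List (List (ℕ × ℚ))} {i : α → ℕ} (hD : PT D) (hF : PT F) (hc : PT c) (hH : PT H)
    (hi : PT i) : PT fun a => wt (D a) (F a) (c a) (H a) (i a) := by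
  unfold wt; fun_prop

@[fun_prop] theorem pt_yv {D : α → Mx} {F : α → List ℕ} {k : α → ℕ} {c : α → ℚ}
    {H : α → List (List (ℕ × ℚ))} (hD : PT D) (hF : PT F) (hk : PT k) (hc : PT c) (hH : PT H) :
    PT fun a => yv (D a) (F a) (k a) (c a) (H a) := by
  unfold yv; fun_prop

@[fun_prop] theorem pt_mwStep {D : α → Mx} {J F : α → List ℕ} {k : α → ℕ} {c : α → ℚ}
    {H : α → List (List (ℕ × ℚ))} (hD : PT D) (hJ : PT J) (hF : PT F) (hk : PT k) (hc : PT c)
    (hH : PT H) : PT fun a => mwStep (D a) (J a) (F a) (k a) (c a) (H a) := by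
  unfold mwStep; fun_prop

@[fun_prop] theorem pt_ul {A B : α → List ℕ} (hA : PT A) (hB : PT B) :
    PT fun a => ul (A a) (B a) := by
  unfold ul; fun_prop

theorem pt_un {D : α → Mx} (hD : PT D) (c e : ℕ) : PT fun a => un (D a) c e := by
  induction e with
  | zero => exact PT.const (List.range c)
  | succ e ih => exact pt_ul (pt_range hD) ih

@[fun_prop] theorem pt_mwC {D : α → Mx} {r : α → ℚ} (hD : PT D) (hr : PT r) :
    PT fun a => mwC (D a) (r a) := by
  have h : PT fun a => ((D a).length : ℚ) ^ 5 := pt_powc (by fun_prop) 5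
  unfold mwC; fun_prop

theorem sz_zero_rat : sz (0 : ℚ) ≤ 10 := by
  rw [sz_rat]
  have : ht 0 ≤ 1 := by simp [ht]
  omega

theorem sz_dd (D : Mx) (i j : ℕ) : sz (dd D i j) ≤ sz D + 10 := by
  unfold dd
  have h1 : sz (D.getD i []) ≤ sz D := by
    rcases lt_or_ge i D.length with h | h
    · rw [List.getD_eq_getElem _ _ h]; exact sz_mem (List.getElem_mem h)
    · rw [List.getD_eq_default _ _ h]; simp
  rcases lt_or_ge j (D.getD i []).length with h | h
  · rw [List.getD_eq_getElem _ _ h]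
    have := sz_mem (List.getElem_mem h)
    omega
  · rw [List.getD_eq_default _ _ h]
    have := sz_zero_rat
    omega

theorem sz_lam_cl (D : Mx) (y : List ℚ) (j : ℕ) : sz (lam (cl D y j)) ≤ sz D + 10 := by
  unfold lam
  generalize hL : ((cl D y j).filter fun p => decide (1 ≤ mle (cl D y j) p.1)).map Prod.fst = L
  by_cases h : L = []
  · have : lmin L = 0 := by rw [h]; rfl
    rw [this]
    have := sz_zero_rat
    omega
  · have h1 := lmin_mem h
    generalize lmin L = v at h1
    rw [← hL] at h1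
    obtain ⟨p, hp, rfl⟩ := List.mem_map.1 h1
    obtain ⟨i, -, rfl⟩ := List.mem_map.1 (List.mem_filter.1 hp).1
    exact sz_dd D j i

theorem sz_mwStep (D : Mx) (J F : List ℕ) (k : ℕ) (c : ℚ) (H : List (List (ℕ × ℚ))) :
    sz (mwStep D J F k c H) ≤ sz H + (2 * (sz J * (2 * (2 * sz J + sz D + 11) + 2)) + 2) := by
  unfold mwStep
  rw [sz_cons]
  have h1 := sz_le_of_forall (l := J.map fun j => (j, lam (cl D (yv D F k c H) j)))
    (b := 2 * sz J + sz D + 11) (fun p hp => by
      obtain ⟨j, hj, rfl⟩ := List.mem_map.1 hp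
      have h2 := sz_mem hj
      have h3 := sz_lam_cl D (yv D F k c H) j
      rw [sz_pair]; omega)
  rw [List.length_map] at h1
  have h2 := Nat.mul_le_mul_right (2 * (2 * sz J + sz D + 11) + 2) (length_le_sz J)
  omega

@[fun_prop] theorem pt_mwHist {D : α → Mx} {J F : α → List ℕ} {k : α → ℕ} {r : α → ℚ}
    (hD : PT D) (hJ : PT J) (hF : PT F) (hk : PT k) (hr : PT r) :
    PT fun a => mwHist (D a) (J a) (F a) (k a) (r a) :=
  PT.foldl_add (f := fun a (H : List (List (ℕ × ℚ))) (_ : ℕ) =>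
      mwStep (D a) (J a) (F a) (k a) (mwC (D a) (r a)) H) (i := fun _ => [])
    (by fun_prop) (pt_un hD _ _) (PT.const _)
    ((hJ.szb.mul ((((hJ.szb.lin 2 0).add hD.szb).add (PB.const 11)).lin 2 2)).lin 2 2)
    (fun a s _ _ => sz_mwStep _ _ _ _ _ _)

@[fun_prop] theorem pt_mw {D : α → Mx} {J F : α → List ℕ} {k : α → ℕ} {r : α → ℚ}
    (hD : PT D) (hJ : PT J) (hF : PT F) (hk : PT k) (hr : PT r) :
    PT fun a => mw (D a) (J a) (F a) (k a) (r a) := by
  unfold mw; fun_prop

@[fun_prop] theorem pt_yq {M : α → ℕ} {s : α → St} {i : α → ℕ} (hM : PT M) (hs : PT s)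
    (hi : PT i) : PT fun a => yq (M a) (s a) (i a) := by
  unfold yq; fun_prop

@[fun_prop] theorem pt_kl {D : α → Mx} {M : α → ℕ} {s : α → St} {i : α → ℕ} (hD : PT D)
    (hM : PT M) (hs : PT s) (hi : PT i) : PT fun a => kl (D a) (M a) (s a) (i a) := by
  unfold kl; fun_prop

@[fun_prop] theorem pt_hk {D : α → Mx} {M : α → ℕ} {s : α → St} {i l : α → ℕ} (hD : PT D)
    (hM : PT M) (hs : PT s) (hi : PT i) (hl : PT l) :
    PT fun a => hk (D a) (M a) (s a) (i a) (l a) := by
  unfold hk; fun_prop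

@[fun_prop] theorem pt_inn {D : α → Mx} {M : α → ℕ} {s : α → St} {l : α → ℕ} (hD : PT D)
    (hM : PT M) (hs : PT s) (hl : PT l) : PT fun a => inn (D a) (M a) (s a) (l a) := by
  unfold inn; fun_prop

@[fun_prop] theorem pt_qq {D : α → Mx} {M : α → ℕ} {s : α → St} {l : α → ℕ} (hD : PT D)
    (hM : PT M) (hs : PT s) (hl : PT l) : PT fun a => qq (D a) (M a) (s a) (l a) := by
  unfold qq; fun_prop

@[fun_prop] theorem pt_opn {D : α → Mx} {M : α → ℕ} {s : α → St} {l : α → ℕ} (hD : PT D)
    (hM : PT M) (hs : PT s) (hl : PT l) : PT fun a => opn (D a) (M a) (s a) (l a) := by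
  unfold opn; fun_prop

@[fun_prop] theorem pt_dec {s : α → St} {l : α → ℕ} (hs : PT s) (hl : PT l) :
    PT fun a => dec (s a) (l a) := by
  unfold dec; fun_prop

@[fun_prop] theorem pt_psi {m b t : α → ℚ} (hm : PT m) (hb : PT b) (ht : PT t) :
    PT fun a => psi (m a) (b a) (t a) := by
  unfold psi; fun_prop

@[fun_prop] theorem pt_xs {D : α → Mx} {y : α → List ℚ} {M : α → ℕ} {s : α → St} {j : α → ℕ}
    {ρ : α → ℚ} {i : α → ℕ} (hD : PT D) (hy : PT y) (hM : PT M) (hs : PT s) (hj : PT j)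
    (hρ : PT ρ) (hi : PT i) : PT fun a => xs (D a) (y a) (M a) (s a) (j a) (ρ a) (i a) := by
  unfold xs; fun_prop

@[fun_prop] theorem pt_psiR {D : α → Mx} {y : α → List ℚ} {M : α → ℕ} {s : α → St} {j : α → ℕ}
    {ρ : α → ℚ} (hD : PT D) (hy : PT y) (hM : PT M) (hs : PT s) (hj : PT j)
    (hρ : PT ρ) : PT fun a => psiR (D a) (y a) (M a) (s a) (j a) (ρ a) := by
  unfold psiR; fun_prop

@[fun_prop] theorem pt_psiC {D : α → Mx} {y : α → List ℚ} {M : α → ℕ} {s : α → St} {j : α → ℕ}
    (hD : PT D) (hy : PT y) (hM : PT M) (hs : PT s) (hj : PT j) :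
    PT fun a => psiC (D a) (y a) (M a) (s a) (j a) := by
  unfold psiC; fun_prop

@[fun_prop] theorem pt_led {U K : α → List ℕ} {s : α → St} (hU : PT U) (hK : PT K) (hs : PT s) :
    PT fun a => led (U a) (K a) (s a) := by
  unfold led
  refine pt_mul (pt_powl (pt_powl ?_ hU) hs.snd) (pt_powl ?_ ?_) <;> fun_prop

@[fun_prop] theorem pt_res {M : α → ℕ} {s : α → St} (hM : PT M) (hs : PT s) :
    PT fun a => res (M a) (s a) := by
  unfold res; fun_prop

@[fun_prop] theorem pt_phi {D : α → Mx} {J : α → List ℕ} {y : α → List ℚ} {U K : α → List ℕ}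
    {μ e : α → ℚ} {s : α → St} (hD : PT D) (hJ : PT J) (hy : PT y) (hU : PT U) (hK : PT K)
    (hμ : PT μ) (he : PT e) (hs : PT s) :
    PT fun a => phi (D a) (J a) (y a) (U a) (K a) (μ a) (e a) (s a) := by
  unfold phi; fun_prop

@[fun_prop] theorem pt_moves {D : α → Mx} {M : α → ℕ} {s : α → St} (hD : PT D)
    (hM : PT M) (hs : PT s) : PT fun a => moves (D a) (M a) (s a) := by
  unfold moves; fun_prop

@[fun_prop] theorem pt_step {D : α → Mx} {J : α → List ℕ} {y : α → List ℚ} {U K : α → List ℕ}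
    {μ e : α → ℚ} {s : α → St} (hD : PT D) (hJ : PT J) (hy : PT y) (hU : PT U) (hK : PT K)
    (hμ : PT μ) (he : PT e) (hs : PT s) :
    PT fun a => step (D a) (J a) (y a) (U a) (K a) (μ a) (e a) (s a) := by
  unfold step; fun_prop

theorem sz_map_range_le (l : List ℕ) (g : ℕ → ℕ) (h : ∀ i, g i ≤ l.getD i 0) :
    sz ((List.range l.length).map g) ≤ sz l := by
  induction l generalizing g with
  | nil => simp
  | cons x l ih =>
    rw [List.length_cons, List.range_succ_eq_map, List.map_cons, List.map_map, sz_cons, sz_cons]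
    have h1 : sz (g 0) ≤ sz x := sz_nat_mono (by simpa using h 0)
    have h2 := ih (g ∘ Nat.succ) (fun i => by simpa using h (i + 1))
    omega

theorem sz_step (D : Mx) (J : List ℕ) (y : List ℚ) (U K : List ℕ) (μ e : ℚ) (s : St) :
    sz (step D J y U K μ e s) ≤ sz s + (2 * sz D + 2) := by
  unfold step
  split_ifs with h
  · omega
  · have h1 := amin_mem (phi D J y U K μ e) h
    generalize amin (phi D J y U K μ e) (moves D U.length s) = s' at h1
    unfold moves at h1
    obtain ⟨l, hl, h2⟩ := List.mem_flatMap.1 h1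
    have h3 : l < D.length := List.mem_range.1 (List.mem_filter.1 hl).1
    have h4 := length_le_sz D
    have h5 := sz_nat_le l
    rw [sz_prod s]
    rcases List.mem_cons.1 h2 with rfl | h2
    · unfold opn
      rw [sz_pair, sz_cons]
      have := sz_map_range_le s.1 (fun i => if i = l then 0 else min (s.1.getD i 0)
        ⌊(s.1.getD i 0 : ℚ) * (1 - qq D U.length s l * hk D U.length s i l)⌋₊) (fun i => by
          split_ifs
          · exact Nat.zero_le _
          · exact min_le_left _ _)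
      omega
    · rw [List.mem_singleton.1 h2]
      unfold dec
      rw [sz_pair]
      have := sz_map_range_le s.1 (fun i => if i = l then s.1.getD i 0 - 1 else s.1.getD i 0)
        (fun i => by split_ifs <;> omega)
      omega

@[fun_prop] theorem pt_rnd {D : α → Mx} {J : α → List ℕ} {y : α → List ℚ} {U K : α → List ℕ}
    {μ e : α → ℚ} {o : α → ℕ} (hD : PT D) (hJ : PT J) (hy : PT y) (hU : PT U) (hK : PT K)
    (hμ : PT μ) (he : PT e) (ho : PT o) :
    PT fun a => rnd (D a) (J a) (y a) (U a) (K a) (μ a) (e a) (o a) :=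
  PT.foldl_add (f := fun a (s : St) (_ : ℕ) =>
      step (D a) (J a) (y a) (U a) (K a) (μ a) (e a) s)
    (i := fun a => ((List.range (D a).length).map fun i =>
      ⌊((U a).length : ℚ) * (y a).getD i 0⌋₊, [o a]))
    (by fun_prop) hK (by fun_prop) (hD.szb.lin 2 2) (fun a s _ _ => sz_step _ _ _ _ _ _ _ _)

@[fun_prop] theorem pt_pseudo {D : α → Mx} {J F : α → List ℕ} {k : α → ℕ} {r : α → ℚ}
    (hD : PT D) (hJ : PT J) (hF : PT F) (hk : PT k) (hr : PT r) :
    PT fun a => pseudo (D a) (J a) (F a) (k a) (r a) := by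
  have h1 : PT fun a => ((D a).length : ℚ) ^ 5 := pt_powc (by fun_prop) 5
  have h2 : PT fun a => un (D a) (10 ^ 6) 4 := pt_un hD _ _
  unfold pseudo; fun_prop

@[fun_prop] theorem pt_trunc {D : α → Mx} {B : α → ℚ} (hD : PT D) (hB : PT B) :
    PT fun a => trunc (D a) (B a) := by
  unfold trunc; fun_prop

@[fun_prop] theorem pt_lloyd {D : α → Mx} {J F W : α → List ℕ} (hD : PT D) (hJ : PT J)
    (hF : PT F) (hW : PT W) : PT fun a => lloyd (D a) (J a) (F a) (W a) := by
  unfold lloyd; fun_prop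

@[fun_prop] theorem pt_lists {F : α → List ℕ} (t : ℕ) (hF : PT F) : PT fun a => lists (F a) t := by
  induction t with
  | zero => exact PT.const [[]]
  | succ t ih =>
    have h : PT fun a => (lists (F a) t).flatMap fun l => (F a).map fun x => x :: l := by
      fun_prop
    exact h

theorem pt_guess {D : α → Mx} {J F T : α → List ℕ} (hD : PT D) (hJ : PT J)
    (hF : PT F) (hT : PT T) (t : ℕ) : PT fun a => guess (D a) (J a) (F a) (T a) t := by
  unfold guess; fun_prop

@[fun_prop] theorem pt_cands {D : α → Mx} {J F : α → List ℕ} {k : α → ℕ} {r : α → ℚ}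
    (hD : PT D) (hJ : PT J) (hF : PT F) (hk : PT k) (hr : PT r) :
    PT fun a => cands (D a) (J a) (F a) (k a) (r a) := by
  unfold cands
  generalize cc = c
  generalize tt = t
  refine PT.cons (by fun_prop) (pt_guess ?_ hJ hF ?_ t) <;> fun_prop

@[fun_prop] theorem pt_sub_list {S F : α → List ℕ} (hS : PT S) (hF : PT F) :
    PT fun a => ∀ i ∈ S a, i ∈ F a := by
  have h : PT fun a => (S a).all (fun i => decide (i ∈ F a)) = true := by fun_prop
  exact h.congr (fun a => by simp)

theorem pt_alg {D : α → Mx} {J F : α → List ℕ} {k : α → ℕ}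
    (hD : PT D) (hJ : PT J) (hF : PT F) (hk : PT k) :
    PT fun a => alg (D a) (J a) (F a) (k a) := by
  unfold alg
  refine pt_amin (by fun_prop) (PT.filter (PT.decide (PT.and (by fun_prop) (PT.and (by fun_prop)
    (pt_sub_list (S := fun q : α × List ℕ => q.2) (F := fun q => F q.1) (by fun_prop)
      (by fun_prop))))) (by fun_prop))

theorem pt_full : PT full := by
  unfold full
  refine pt_alg ?_ ?_ ?_ ?_ <;> fun_prop

end Vale.Agent.P334
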