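import Vale.Agent.P334.AlgoPT
import Vale.Agent.P334.Algo2

/-! The algorithm with the accuracy parameter runs in polynomial time. -/

namespace Vale.Agent.P334

open Vale.Agent.Lib.PolyTime

variable {α β : Type} [Enc α] [Enc β]

@[fun_prop] theorem pt_mwC2 (E : ℕ) {D : α → Mx} {r : α → ℚ} (hD : PT D) (hr : PT r) :
    PT fun a => mwC2 E (D a) (r a) := by
  have h : PT fun a => ((D a).length : ℚ) ^ 5 := pt_powc (by fun_prop) 5
  unfold mwC2; fun_prop

@[fun_prop] theorem pt_mwHist2 (E : ℕ) {D : α → Mx} {J F : α → List ℕ} {k : α → ℕ} {r : α → ℚ}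
    (hD : PT D) (hJ : PT J) (hF : PT F) (hk : PT k) (hr : PT r) :
    PT fun a => mwHist2 E (D a) (J a) (F a) (k a) (r a) :=
  PT.foldl_add (f := fun a (H : List (List (ℕ × ℚ))) (_ : ℕ) =>
      mwStep (D a) (J a) (F a) (k a) (mwC2 E (D a) (r a)) H) (i := fun _ => [])
    (by fun_prop) (pt_un hD _ _) (PT.const _)
    ((hJ.szb.mul ((((hJ.szb.lin 2 0).add hD.szb).add (PB.const 11)).lin 2 2)).lin 2 2)
    (fun a s _ _ => sz_mwStep _ _ _ _ _ _)

@[fun_prop] theorem pt_mw2 (E : ℕ) {D : α → Mx} {J F : α → List ℕ} {k : α → ℕ} {r : α → ℚ}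
    (hD : PT D) (hJ : PT J) (hF : PT F) (hk : PT k) (hr : PT r) :
    PT fun a => mw2 E (D a) (J a) (F a) (k a) (r a) := by
  unfold mw2; fun_prop

@[fun_prop] theorem pt_lay (E : ℕ) {t : α → ℕ} (ht : PT t) : PT fun a => lay E (t a) := by
  unfold lay; fun_prop

@[fun_prop] theorem pt_kl2 (E : ℕ) {D : α → Mx} {M : α → ℕ} {s : α → St} {i : α → ℕ} (hD : PT D)
    (hM : PT M) (hs : PT s) (hi : PT i) : PT fun a => kl2 E (D a) (M a) (s a) (i a) := by
  unfold kl2; fun_prop

@[fun_prop] theorem pt_hk2 (E : ℕ) {D : α → Mx} {M : α → ℕ} {s : α → St} {i l : α → ℕ} (hD : PT D)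
    (hM : PT M) (hs : PT s) (hi : PT i) (hl : PT l) :
    PT fun a => hk2 E (D a) (M a) (s a) (i a) (l a) := by
  unfold hk2; fun_prop

@[fun_prop] theorem pt_inn2 (E : ℕ) {D : α → Mx} {M : α → ℕ} {s : α → St} {l : α → ℕ} (hD : PT D)
    (hM : PT M) (hs : PT s) (hl : PT l) : PT fun a => inn2 E (D a) (M a) (s a) (l a) := by
  unfold inn2; fun_prop

@[fun_prop] theorem pt_qq2 (E : ℕ) {D : α → Mx} {M : α → ℕ} {s : α → St} {l : α → ℕ} (hD : PT D)
    (hM : PT M) (hs : PT s) (hl : PT l) : PT fun a => qq2 E (D a) (M a) (s a) (l a) := by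
  unfold qq2; fun_prop

@[fun_prop] theorem pt_opn2 (E : ℕ) {D : α → Mx} {M : α → ℕ} {s : α → St} {l : α → ℕ} (hD : PT D)
    (hM : PT M) (hs : PT s) (hl : PT l) : PT fun a => opn2 E (D a) (M a) (s a) (l a) := by
  unfold opn2; fun_prop

@[fun_prop] theorem pt_cN (E : ℕ) {m : α → ℚ} (hm : PT m) : PT fun a => cN E (m a) := by
  have h : ∀ n : ℕ, PT fun a => ∑ t ∈ Finset.range n, ((1 + m a / E)⁻¹) ^ (t + 1) := fun n => by
    induction n with
    | zero => exact PT.const (0 : ℚ)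
    | succ n ih =>
      have h1 : PT fun a => ((1 + m a / E)⁻¹) ^ (n + 1) := pt_powc (rp_inv (by fun_prop)) _
      simp only [Finset.sum_range_succ]
      exact pt_add ih h1
  unfold cN
  exact pt_sub (PT.const _) (pt_mul (PT.const _) (h E))

@[fun_prop] theorem pt_nm {t d : α → ℚ} (ht : PT t) (hd : PT d) :
    PT fun a => nm (t a) (d a) := by
  unfold nm; fun_prop

@[fun_prop] theorem pt_np {t d : α → ℚ} (ht : PT t) (hd : PT d) :
    PT fun a => np (t a) (d a) := by
  unfold np; fun_prop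

@[fun_prop] theorem pt_psi2 (E : ℕ) {m b t u v : α → ℚ} (hm : PT m) (hb : PT b) (ht : PT t)
    (hu : PT u) (hv : PT v) : PT fun a => psi2 E (m a) (b a) (t a) (u a) (v a) := by
  unfold psi2; fun_prop

@[fun_prop] theorem pt_psiR2 (E : ℕ) {D : α → Mx} {y : α → List ℚ} {M : α → ℕ} {s : α → St} {j : α → ℕ}
    {ρ : α → ℚ} (hD : PT D) (hy : PT y) (hM : PT M) (hs : PT s) (hj : PT j)
    (hρ : PT ρ) : PT fun a => psiR2 E (D a) (y a) (M a) (s a) (j a) (ρ a) := by
  unfold psiR2; fun_prop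

@[fun_prop] theorem pt_psiC2 (E : ℕ) {D : α → Mx} {y : α → List ℚ} {M : α → ℕ} {s : α → St} {j : α → ℕ}
    (hD : PT D) (hy : PT y) (hM : PT M) (hs : PT s) (hj : PT j) :
    PT fun a => psiC2 E (D a) (y a) (M a) (s a) (j a) := by
  unfold psiC2; fun_prop

@[fun_prop] theorem pt_led2 (E : ℕ) {U K : α → List ℕ} {s : α → St} (hU : PT U) (hK : PT K) (hs : PT s) :
    PT fun a => led2 E (U a) (K a) (s a) := by
  unfold led2
  refine pt_mul (pt_powl (pt_powl ?_ hU) hs.snd) (pt_powl ?_ ?_) <;> fun_prop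

@[fun_prop] theorem pt_phi2 (E : ℕ) {D : α → Mx} {J : α → List ℕ} {y : α → List ℚ} {U K : α → List ℕ}
    {μ e : α → ℚ} {s : α → St} (hD : PT D) (hJ : PT J) (hy : PT y) (hU : PT U) (hK : PT K)
    (hμ : PT μ) (he : PT e) (hs : PT s) :
    PT fun a => phi2 E (D a) (J a) (y a) (U a) (K a) (μ a) (e a) (s a) := by
  unfold phi2; fun_prop

@[fun_prop] theorem pt_moves2 (E : ℕ) {D : α → Mx} {M : α → ℕ} {s : α → St} (hD : PT D)
    (hM : PT M) (hs : PT s) : PT fun a => moves2 E (D a) (M a) (s a) := by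
  unfold moves2; fun_prop

@[fun_prop] theorem pt_step2 (E : ℕ) {D : α → Mx} {J : α → List ℕ} {y : α → List ℚ} {U K : α → List ℕ}
    {μ e : α → ℚ} {s : α → St} (hD : PT D) (hJ : PT J) (hy : PT y) (hU : PT U) (hK : PT K)
    (hμ : PT μ) (he : PT e) (hs : PT s) :
    PT fun a => step2 E (D a) (J a) (y a) (U a) (K a) (μ a) (e a) (s a) := by
  unfold step2; fun_prop

theorem sz_step2 (E : ℕ) (D : Mx) (J : List ℕ) (y : List ℚ) (U K : List ℕ) (μ e : ℚ) (s : St) :
    sz (step2 E D J y U K μ e s) ≤ sz s + (2 * sz D + 2) := by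
  unfold step2
  split_ifs with h
  · omega
  · have h1 := amin_mem (phi2 E D J y U K μ e) h
    generalize amin (phi2 E D J y U K μ e) (moves2 E D U.length s) = s' at h1
    unfold moves2 at h1
    obtain ⟨l, hl, h2⟩ := List.mem_flatMap.1 h1
    have h3 : l < D.length := List.mem_range.1 (List.mem_filter.1 hl).1
    have h4 := length_le_sz D
    have h5 := sz_nat_le l
    rw [sz_prod s]
    rcases List.mem_cons.1 h2 with rfl | h2
    · unfold opn2
      rw [sz_pair, sz_cons]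
      have := sz_map_range_le s.1 (fun i => if i = l then 0 else min (s.1.getD i 0)
        ⌊(s.1.getD i 0 : ℚ) * (1 - qq2 E D U.length s l * hk2 E D U.length s i l)⌋₊) (fun i => by
          split_ifs
          · exact Nat.zero_le _
          · exact min_le_left _ _)
      omega
    · rw [List.mem_singleton.1 h2]
      unfold dec
      rw [sz_pair]
      have := sz_map_range_le s.1 (fun i => if i = l then s.1.getD i 0 - 1 else s.1.getD i 0)
        (fun i => by split_ifs <;> omega)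
      omega

@[fun_prop] theorem pt_rnd2 (E : ℕ) {D : α → Mx} {J : α → List ℕ} {y : α → List ℚ} {U K : α → List ℕ}
    {μ e : α → ℚ} {o : α → ℕ} (hD : PT D) (hJ : PT J) (hy : PT y) (hU : PT U) (hK : PT K)
    (hμ : PT μ) (he : PT e) (ho : PT o) :
    PT fun a => rnd2 E (D a) (J a) (y a) (U a) (K a) (μ a) (e a) (o a) :=
  PT.foldl_add (f := fun a (s : St) (_ : ℕ) =>
      step2 E (D a) (J a) (y a) (U a) (K a) (μ a) (e a) s)
    (i := fun a => ((List.range (D a).length).map fun i =>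
      ⌊((U a).length : ℚ) * (y a).getD i 0⌋₊, [o a]))
    (by fun_prop) hK (by fun_prop) (hD.szb.lin 2 2) (fun a s _ _ => sz_step2 E _ _ _ _ _ _ _ _)

@[fun_prop] theorem pt_pseudo2 (E : ℕ) {D : α → Mx} {J F : α → List ℕ} {k : α → ℕ} {r : α → ℚ}
    (hD : PT D) (hJ : PT J) (hF : PT F) (hk : PT k) (hr : PT r) :
    PT fun a => pseudo2 E (D a) (J a) (F a) (k a) (r a) := by
  have h1 : PT fun a => ((D a).length : ℚ) ^ 5 := pt_powc (by fun_prop) 5
  have h2 : PT fun a => un (D a) (100 * E) 4 := pt_un hD _ _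
  unfold pseudo2; fun_prop

@[fun_prop] theorem pt_cands2 (E : ℕ) {D : α → Mx} {J F : α → List ℕ} {k : α → ℕ} {r : α → ℚ}
    (hD : PT D) (hJ : PT J) (hF : PT F) (hk : PT k) (hr : PT r) :
    PT fun a => cands2 E (D a) (J a) (F a) (k a) (r a) := by
  unfold cands2
  generalize cc2 E = c
  generalize tt2 E = t
  refine PT.cons (by fun_prop) (pt_guess ?_ hJ hF ?_ t) <;> fun_prop

theorem pt_alg2 (E : ℕ) {D : α → Mx} {J F : α → List ℕ} {k : α → ℕ}
    (hD : PT D) (hJ : PT J) (hF : PT F) (hk : PT k) :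
    PT fun a => alg2 E (D a) (J a) (F a) (k a) := by
  unfold alg2
  refine pt_amin (by fun_prop) (PT.filter (PT.decide (PT.and (by fun_prop) (PT.and (by fun_prop)
    (pt_sub_list (S := fun q : α × List ℕ => q.2) (F := fun q => F q.1) (by fun_prop)
      (by fun_prop))))) (by fun_prop))

theorem pt_full2 (E : ℕ) : PT (full2 E) := by
  unfold full2
  refine pt_alg2 E ?_ ?_ ?_ ?_ <;> fun_prop

end Vale.Agent.P334
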