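import Vale.Agent.P334.Stmts2

/-! The envelope of the price: polynomial inequalities by Bernstein coefficients. -/

namespace Vale.Agent.P334

namespace CN2Aux

/-- A polynomial with nonnegative Bernstein coefficients. -/
lemma bern (u v b0 b1 b2 b3 b4 b5 b6 b7 b8 : ℚ) (hu : 0 ≤ u) (hv : 0 ≤ v) (h0 : 0 ≤ b0)
    (h1 : 0 ≤ b1) (h2 : 0 ≤ b2) (h3 : 0 ≤ b3) (h4 : 0 ≤ b4) (h5 : 0 ≤ b5) (h6 : 0 ≤ b6)
    (h7 : 0 ≤ b7) (h8 : 0 ≤ b8) :
    0 ≤ b0 * v ^ 8 + b1 * u * v ^ 7 + b2 * u ^ 2 * v ^ 6 + b3 * u ^ 3 * v ^ 5 +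
      b4 * u ^ 4 * v ^ 4 + b5 * u ^ 5 * v ^ 3 + b6 * u ^ 6 * v ^ 2 + b7 * u ^ 7 * v +
      b8 * u ^ 8 := by positivity

lemma lo0 (m : ℚ) (h0 : 0 ≤ 32 * m) (h1 : 32 * m ≤ 2) :
    10000 + 9791 * m ≤ 10000 *
      ((1 + m - m ^ 2 / 3 + m ^ 3 / 12 - m ^ 4 / 60 + m ^ 5 / 360 - m ^ 6 / 2520 + m ^ 7 / 20160) -
        m ^ 8 / 181440) := by
  have h := bern (32 * m - 0) (2 - 32 * m)
    (0) (209 / 4096) (941 / 3072) (603313 / 786432) (4307185 / 4194304) (938033405 / 1207959552)
    (42817279891 / 135291469824) (322887954047 / 5772436045824) (2363166203347 / 2493692371795968)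
    (by linarith) (by linarith) (by norm_num) (by norm_num) (by norm_num) (by norm_num)
    (by norm_num) (by norm_num) (by norm_num) (by norm_num) (by norm_num)
  refine sub_nonneg.1 (le_of_le_of_eq h ?_)
  ring

lemma hi0 (m : ℚ) (h0 : 0 ≤ 32 * m) (h1 : 32 * m ≤ 2) :
    10000 *
      ((1 + m - m ^ 2 / 3 + m ^ 3 / 12 - m ^ 4 / 60 + m ^ 5 / 360 - m ^ 6 / 2520 + m ^ 7 / 20160) +
        m / 5000) ≤ 10000 + 10030 * m := by
  have h := bern (32 * m - 0) (2 - 32 * m)
    (0) (7 / 1024) (1213 / 12288) (352271 / 786432) (4186895 / 4194304) (1508261635 / 1207959552)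
    (121573746797 / 135291469824) (2015117758849 / 5772436045824) (985591571971 / 17317308137472)
    (by linarith) (by linarith) (by norm_num) (by norm_num) (by norm_num) (by norm_num)
    (by norm_num) (by norm_num) (by norm_num) (by norm_num) (by norm_num)
  refine sub_nonneg.1 (le_of_le_of_eq h ?_)
  ring

lemma lo1 (m : ℚ) (h0 : 2 ≤ 32 * m) (h1 : 32 * m ≤ 4) :
    10023 + 9397 * m ≤ 10000 *
      ((1 + m - m ^ 2 / 3 + m ^ 3 / 12 - m ^ 4 / 60 + m ^ 5 / 360 - m ^ 6 / 2520 + m ^ 7 / 20160) -
        m ^ 8 / 181440) := by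
  have h := bern (32 * m - 2) (4 - 32 * m)
    (18192268172755 / 2493692371795968) (8275864214327 / 77927886618624)
    (76460853673663 / 155855773237248) (10935599498239 / 9740985827328)
    (113826503366045 / 77927886618624) (5452988736635 / 4870492913664)
    (4756363781299 / 9740985827328) (16093697737 / 152202903552) (71513049259 / 9740985827328)
    (by linarith) (by linarith) (by norm_num) (by norm_num) (by norm_num) (by norm_num)
    (by norm_num) (by norm_num) (by norm_num) (by norm_num) (by norm_num)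
  refine sub_nonneg.1 (le_of_le_of_eq h ?_)
  ring

lemma hi1 (m : ℚ) (h0 : 2 ≤ 32 * m) (h1 : 32 * m ≤ 4) :
    10000 *
      ((1 + m - m ^ 2 / 3 + m ^ 3 / 12 - m ^ 4 / 60 + m ^ 5 / 360 - m ^ 6 / 2520 + m ^ 7 / 20160) +
        m / 5000) ≤ 10031 + 9397 * m := by
  have h := bern (32 * m - 2) (4 - 32 * m)
    (406374966787 / 17317308137472) (2414144646061 / 17317308137472)
    (3180522060883 / 8658654068736) (2553283316753 / 4329327034368)
    (1462372844155 / 2164663517184) (211404470989 / 360777252864) (65443298531 / 180388626432)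
    (12350969353 / 90194313216) (443214437 / 19327352832)
    (by linarith) (by linarith) (by norm_num) (by norm_num) (by norm_num) (by norm_num)
    (by norm_num) (by norm_num) (by norm_num) (by norm_num) (by norm_num)
  refine sub_nonneg.1 (le_of_le_of_eq h ?_)
  ring

lemma lo2 (m : ℚ) (h0 : 4 ≤ 32 * m) (h1 : 32 * m ≤ 6) :
    10071 + 9018 * m ≤ 10000 *
      ((1 + m - m ^ 2 / 3 + m ^ 3 / 12 - m ^ 4 / 60 + m ^ 5 / 360 - m ^ 6 / 2520 + m ^ 7 / 20160) -
        m ^ 8 / 181440) := by
  have h := bern (32 * m - 4) (6 - 32 * m)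
    (47731345579 / 9740985827328) (17193439021 / 202937204736) (147750755897 / 360777252864)
    (515810971615 / 541165879296) (3593371100135 / 2886218022912) (171072626821 / 180388626432)
    (2340401996189 / 5772436045824) (11472187761 / 137438953472) (148031625955 / 30786325577728)
    (by linarith) (by linarith) (by norm_num) (by norm_num) (by norm_num) (by norm_num)
    (by norm_num) (by norm_num) (by norm_num) (by norm_num) (by norm_num)
  refine sub_nonneg.1 (le_of_le_of_eq h ?_)
  ring

lemma hi2 (m : ℚ) (h0 : 4 ≤ 32 * m) (h1 : 32 * m ≤ 6) :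
    10000 *
      ((1 + m - m ^ 2 / 3 + m ^ 3 / 12 - m ^ 4 / 60 + m ^ 5 / 360 - m ^ 6 / 2520 + m ^ 7 / 20160) +
        m / 5000) ≤ 10079 + 9018 * m := by
  have h := bern (32 * m - 4) (6 - 32 * m)
    (490400357 / 19327352832) (42475099717 / 270582939648) (235246817525 / 541165879296)
    (792170485249 / 1082331758592) (618401434165 / 721554505728) (1053277216021 / 1443109011456)
    (1246724727053 / 2886218022912) (298816650915 / 1924145348608) (48058992601 / 1924145348608)
    (by linarith) (by linarith) (by norm_num) (by norm_num) (by norm_num) (by norm_num)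
    (by norm_num) (by norm_num) (by norm_num) (by norm_num) (by norm_num)
  refine sub_nonneg.1 (le_of_le_of_eq h ?_)
  ring

lemma lo3 (m : ℚ) (h0 : 6 ≤ 32 * m) (h1 : 32 * m ≤ 8) :
    10139 + 8655 * m ≤ 10000 *
      ((1 + m - m ^ 2 / 3 + m ^ 3 / 12 - m ^ 4 / 60 + m ^ 5 / 360 - m ^ 6 / 2520 + m ^ 7 / 20160) -
        m ^ 8 / 181440) := by
  have h := bern (32 * m - 6) (8 - 32 * m)
    (155547818723 / 30786325577728) (161702717109 / 1924145348608) (145242240107 / 360777252864)
    (337074147199 / 360777252864) (220155164365 / 180388626432) (63046659727 / 67645734912)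
    (376712953 / 939524096) (1063153253 / 12683575296) (195105943 / 38050725888)
    (by linarith) (by linarith) (by norm_num) (by norm_num) (by norm_num) (by norm_num)
    (by norm_num) (by norm_num) (by norm_num) (by norm_num) (by norm_num)
  refine sub_nonneg.1 (le_of_le_of_eq h ?_)
  ring

lemma hi3 (m : ℚ) (h0 : 6 ≤ 32 * m) (h1 : 32 * m ≤ 8) :
    10000 *
      ((1 + m - m ^ 2 / 3 + m ^ 3 / 12 - m ^ 4 / 60 + m ^ 5 / 360 - m ^ 6 / 2520 + m ^ 7 / 20160) +
        m / 5000) ≤ 10147 + 8655 * m := by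
  have h := bern (32 * m - 6) (8 - 32 * m)
    (47589230553 / 1924145348608) (295845510893 / 1924145348608) (617628881419 / 1443109011456)
    (260991644411 / 360777252864) (76432624375 / 90194313216) (48628251887 / 67645734912)
    (7149629203 / 16911433728) (212861401 / 1409286144) (25546147 / 1056964608)
    (by linarith) (by linarith) (by norm_num) (by norm_num) (by norm_num) (by norm_num)
    (by norm_num) (by norm_num) (by norm_num) (by norm_num) (by norm_num)
  refine sub_nonneg.1 (le_of_le_of_eq h ?_)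
  ring

lemma lo4 (m : ℚ) (h0 : 8 ≤ 32 * m) (h1 : 32 * m ≤ 10) :
    10225 + 8309 * m ≤ 10000 *
      ((1 + m - m ^ 2 / 3 + m ^ 3 / 12 - m ^ 4 / 60 + m ^ 5 / 360 - m ^ 6 / 2520 + m ^ 7 / 20160) -
        m ^ 8 / 181440) := by
  have h := bern (32 * m - 8) (10 - 32 * m)
    (269423767 / 38050725888) (3741023809 / 38050725888) (34073847749 / 76101451776)
    (620360856985 / 608811614208) (6449250842735 / 4870492913664) (9908206470667 / 9740985827328)
    (4350073166779 / 9740985827328) (15315926160187 / 155855773237248)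
    (17901520401715 / 2493692371795968)
    (by linarith) (by linarith) (by norm_num) (by norm_num) (by norm_num) (by norm_num)
    (by norm_num) (by norm_num) (by norm_num) (by norm_num) (by norm_num)
  refine sub_nonneg.1 (le_of_le_of_eq h ?_)
  ring

lemma hi4 (m : ℚ) (h0 : 8 ≤ 32 * m) (h1 : 32 * m ≤ 10) :
    10000 *
      ((1 + m - m ^ 2 / 3 + m ^ 3 / 12 - m ^ 4 / 60 + m ^ 5 / 360 - m ^ 6 / 2520 + m ^ 7 / 20160) +
        m / 5000) ≤ 10233 + 8309 * m := by
  have h := bern (32 * m - 8) (10 - 32 * m)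
    (23481763 / 1056964608) (573170485 / 4227858432) (6242889131 / 16911433728)
    (41358642401 / 67645734912) (191990333645 / 270582939648) (218763741029 / 360777252864)
    (524547066115 / 1443109011456) (255309148131 / 1924145348608) (374570841991 / 17317308137472)
    (by linarith) (by linarith) (by norm_num) (by norm_num) (by norm_num) (by norm_num)
    (by norm_num) (by norm_num) (by norm_num) (by norm_num) (by norm_num)
  refine sub_nonneg.1 (le_of_le_of_eq h ?_)
  ring

lemma lo5 (m : ℚ) (h0 : 10 ≤ 32 * m) (h1 : 32 * m ≤ 12) :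
    10328 + 7979 * m ≤ 10000 *
      ((1 + m - m ^ 2 / 3 + m ^ 3 / 12 - m ^ 4 / 60 + m ^ 5 / 360 - m ^ 6 / 2520 + m ^ 7 / 20160) -
        m ^ 8 / 181440) := by
  have h := bern (32 * m - 10) (12 - 32 * m)
    (19119143630131 / 2493692371795968) (656297724949 / 6493990551552)
    (2611735729217 / 5772436045824) (2213065694257 / 2164663517184) (1275267411525 / 962072674304)
    (91973496917 / 90194313216) (162501308933 / 360777252864) (1512625173 / 15032385536)
    (925369259 / 120259084288)
    (by linarith) (by linarith) (by norm_num) (by norm_num) (by norm_num) (by norm_num)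
    (by norm_num) (by norm_num) (by norm_num) (by norm_num) (by norm_num)
  refine sub_nonneg.1 (le_of_le_of_eq h ?_)
  ring

lemma hi5 (m : ℚ) (h0 : 10 ≤ 32 * m) (h1 : 32 * m ≤ 12) :
    10000 *
      ((1 + m - m ^ 2 / 3 + m ^ 3 / 12 - m ^ 4 / 60 + m ^ 5 / 360 - m ^ 6 / 2520 + m ^ 7 / 20160) +
        m / 5000) ≤ 10336 + 7979 * m := by
  have h := bern (32 * m - 10) (12 - 32 * m)
    (366115125127 / 17317308137472) (2232512121205 / 17317308137472)
    (3037216690877 / 8658654068736) (2513890024489 / 4329327034368) (162101360165 / 240518168576)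
    (207974578549 / 360777252864) (62408156525 / 180388626432) (3800962539 / 30064771072)
    (310049433 / 15032385536)
    (by linarith) (by linarith) (by norm_num) (by norm_num) (by norm_num) (by norm_num)
    (by norm_num) (by norm_num) (by norm_num) (by norm_num) (by norm_num)
  refine sub_nonneg.1 (le_of_le_of_eq h ?_)
  ring

lemma lo6 (m : ℚ) (h0 : 12 ≤ 32 * m) (h1 : 32 * m ≤ 14) :
    10447 + 7664 * m ≤ 10000 *
      ((1 + m - m ^ 2 / 3 + m ^ 3 / 12 - m ^ 4 / 60 + m ^ 5 / 360 - m ^ 6 / 2520 + m ^ 7 / 20160) -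
        m ^ 8 / 181440) := by
  have h := bern (32 * m - 12) (14 - 32 * m)
    (514327467 / 120259084288) (1083126593 / 15032385536) (124873058021 / 360777252864)
    (5177899535 / 6442450944) (432606792665 / 412316860416) (247321627343 / 309237645312)
    (94217294397 / 274877906944) (131778238273 / 1855425871872) (1496619999925 / 356241767399424)
    (by linarith) (by linarith) (by norm_num) (by norm_num) (by norm_num) (by norm_num)
    (by norm_num) (by norm_num) (by norm_num) (by norm_num) (by norm_num)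
  refine sub_nonneg.1 (le_of_le_of_eq h ?_)
  ring

lemma hi6 (m : ℚ) (h0 : 12 ≤ 32 * m) (h1 : 32 * m ≤ 14) :
    10000 *
      ((1 + m - m ^ 2 / 3 + m ^ 3 / 12 - m ^ 4 / 60 + m ^ 5 / 360 - m ^ 6 / 2520 + m ^ 7 / 20160) +
        m / 5000) ≤ 10454 + 7664 * m := by
  have h := bern (32 * m - 12) (14 - 32 * m)
    (302709401 / 15032385536) (3691068725 / 30064771072) (60258867089 / 180388626432)
    (28512242741 / 51539607552) (66246336685 / 103079215104) (340352483009 / 618475290624)
    (408902933255 / 1236950581248) (99672961399 / 824633720832) (48796108723 / 2473901162496)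
    (by linarith) (by linarith) (by norm_num) (by norm_num) (by norm_num) (by norm_num)
    (by norm_num) (by norm_num) (by norm_num) (by norm_num) (by norm_num)
  refine sub_nonneg.1 (le_of_le_of_eq h ?_)
  ring

lemma lo7 (m : ℚ) (h0 : 14 ≤ 32 * m) (h1 : 32 * m ≤ 16) :
    10579 + 7362 * m ≤ 10000 *
      ((1 + m - m ^ 2 / 3 + m ^ 3 / 12 - m ^ 4 / 60 + m ^ 5 / 360 - m ^ 6 / 2520 + m ^ 7 / 20160) -
        m ^ 8 / 181440) := by
  have h := bern (32 * m - 14) (16 - 32 * m)
    (1670566175413 / 356241767399424) (1643871259561 / 22265110462464)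
    (970615230131 / 2783138807808) (280120594885 / 347892350976) (2855392565 / 2717908992)
    (4369689643 / 5435817984) (1655076539 / 4756340736) (43931089 / 594542592)
    (712045 / 148635648)
    (by linarith) (by linarith) (by norm_num) (by norm_num) (by norm_num) (by norm_num)
    (by norm_num) (by norm_num) (by norm_num) (by norm_num) (by norm_num)
  refine sub_nonneg.1 (le_of_le_of_eq h ?_)
  ring

lemma hi7 (m : ℚ) (h0 : 14 ≤ 32 * m) (h1 : 32 * m ≤ 16) :
    10000 *
      ((1 + m - m ^ 2 / 3 + m ^ 3 / 12 - m ^ 4 / 60 + m ^ 5 / 360 - m ^ 6 / 2520 + m ^ 7 / 20160) +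
        m / 5000) ≤ 10586 + 7362 * m := by
  have h := bern (32 * m - 14) (16 - 32 * m)
    (47588149171 / 2473901162496) (289653286603 / 2473901162496) (98258693851 / 309237645312)
    (20269459799 / 38654705664) (2933389735 / 4831838208) (34819609 / 67108864)
    (54905309 / 176160768) (2512313 / 22020096) (153971 / 8257536)
    (by linarith) (by linarith) (by norm_num) (by norm_num) (by norm_num) (by norm_num)
    (by norm_num) (by norm_num) (by norm_num) (by norm_num) (by norm_num)
  refine sub_nonneg.1 (le_of_le_of_eq h ?_)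
  ring

lemma lo8 (m : ℚ) (h0 : 16 ≤ 32 * m) (h1 : 32 * m ≤ 18) :
    10722 + 7075 * m ≤ 10000 *
      ((1 + m - m ^ 2 / 3 + m ^ 3 / 12 - m ^ 4 / 60 + m ^ 5 / 360 - m ^ 6 / 2520 + m ^ 7 / 20160) -
        m ^ 8 / 181440) := by
  have h := bern (32 * m - 16) (18 - 32 * m)
    (1002349 / 148635648) (1947709 / 22020096) (208862131 / 528482304) (3771110171 / 4227858432)
    (407073635 / 352321536) (80093869223 / 90194313216) (282690905167 / 721554505728)
    (168081083057 / 1924145348608) (204656213539 / 30786325577728)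
    (by linarith) (by linarith) (by norm_num) (by norm_num) (by norm_num) (by norm_num)
    (by norm_num) (by norm_num) (by norm_num) (by norm_num) (by norm_num)
  refine sub_nonneg.1 (le_of_le_of_eq h ?_)
  ring

lemma hi8 (m : ℚ) (h0 : 16 ≤ 32 * m) (h1 : 32 * m ≤ 18) :
    10000 *
      ((1 + m - m ^ 2 / 3 + m ^ 3 / 12 - m ^ 4 / 60 + m ^ 5 / 360 - m ^ 6 / 2520 + m ^ 7 / 20160) +
        m / 5000) ≤ 10729 + 7075 * m := by
  have h := bern (32 * m - 16) (18 - 32 * m)
    (137843 / 8257536) (6510421 / 66060288) (136132295 / 528482304) (1734318457 / 4227858432)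
    (5276785355 / 11274289152) (36737105653 / 90194313216) (183396041711 / 721554505728)
    (186089976635 / 1924145348608) (4480352469 / 274877906944)
    (by linarith) (by linarith) (by norm_num) (by norm_num) (by norm_num) (by norm_num)
    (by norm_num) (by norm_num) (by norm_num) (by norm_num) (by norm_num)
  refine sub_nonneg.1 (le_of_le_of_eq h ?_)
  ring

lemma lo9 (m : ℚ) (h0 : 18 ≤ 32 * m) (h1 : 32 * m ≤ 20) :
    10877 + 6800 * m ≤ 10000 *
      ((1 + m - m ^ 2 / 3 + m ^ 3 / 12 - m ^ 4 / 60 + m ^ 5 / 360 - m ^ 6 / 2520 + m ^ 7 / 20160) -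
        m ^ 8 / 181440) := by
  have h := bern (32 * m - 18) (20 - 32 * m)
    (167075249699 / 30786325577728) (73484605881 / 962072674304) (2015478004301 / 5772436045824)
    (143469863561 / 180388626432) (993646112365 / 962072674304) (428365659233 / 541165879296)
    (374351737883 / 1082331758592) (727968899 / 9663676416) (51963469099 / 9740985827328)
    (by linarith) (by linarith) (by norm_num) (by norm_num) (by norm_num) (by norm_num)
    (by norm_num) (by norm_num) (by norm_num) (by norm_num) (by norm_num)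
  refine sub_nonneg.1 (le_of_le_of_eq h ?_)
  ring

lemma hi9 (m : ℚ) (h0 : 18 ≤ 32 * m) (h1 : 32 * m ≤ 20) :
    10000 *
      ((1 + m - m ^ 2 / 3 + m ^ 3 / 12 - m ^ 4 / 60 + m ^ 5 / 360 - m ^ 6 / 2520 + m ^ 7 / 20160) +
        m / 5000) ≤ 10884 + 6800 * m := by
  have h := bern (32 * m - 18) (20 - 32 * m)
    (4815896789 / 274877906944) (205315418613 / 1924145348608) (836801277533 / 2886218022912)
    (691824949379 / 1443109011456) (133801967375 / 240518168576) (515515740647 / 1082331758592)
    (154954899461 / 541165879296) (9453199249 / 90194313216) (2316380231 / 135291469824)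
    (by linarith) (by linarith) (by norm_num) (by norm_num) (by norm_num) (by norm_num)
    (by norm_num) (by norm_num) (by norm_num) (by norm_num) (by norm_num)
  refine sub_nonneg.1 (le_of_le_of_eq h ?_)
  ring

lemma lo10 (m : ℚ) (h0 : 20 ≤ 32 * m) (h1 : 32 * m ≤ 22) :
    11041 + 6537 * m ≤ 10000 *
      ((1 + m - m ^ 2 / 3 + m ^ 3 / 12 - m ^ 4 / 60 + m ^ 5 / 360 - m ^ 6 / 2520 + m ^ 7 / 20160) -
        m ^ 8 / 181440) := by
  have h := bern (32 * m - 20) (22 - 32 * m)
    (66232491307 / 9740985827328) (26163557495 / 304405807104) (3693721346659 / 9740985827328)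
    (4147078775753 / 4870492913664) (85854558493565 / 77927886618624)
    (8265966372007 / 9740985827328) (58722182969935 / 155855773237248)
    (6643331008277 / 77927886618624) (16861197850771 / 2493692371795968)
    (by linarith) (by linarith) (by norm_num) (by norm_num) (by norm_num) (by norm_num)
    (by norm_num) (by norm_num) (by norm_num) (by norm_num) (by norm_num)
  refine sub_nonneg.1 (le_of_le_of_eq h ?_)
  ring

lemma hi10 (m : ℚ) (h0 : 20 ≤ 32 * m) (h1 : 32 * m ≤ 22) :
    10000 *
      ((1 + m - m ^ 2 / 3 + m ^ 3 / 12 - m ^ 4 / 60 + m ^ 5 / 360 - m ^ 6 / 2520 + m ^ 7 / 20160) +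
        m / 5000) ≤ 11048 + 6537 * m := by
  have h := bern (32 * m - 20) (22 - 32 * m)
    (2118199367 / 135291469824) (25219820077 / 270582939648) (133194268849 / 541165879296)
    (428294841761 / 1082331758592) (980471374315 / 2164663517184) (565258029613 / 1443109011456)
    (697400065433 / 2886218022912) (524954910841 / 5772436045824) (263229531721 / 17317308137472)
    (by linarith) (by linarith) (by norm_num) (by norm_num) (by norm_num) (by norm_num)
    (by norm_num) (by norm_num) (by norm_num) (by norm_num) (by norm_num)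
  refine sub_nonneg.1 (le_of_le_of_eq h ?_)
  ring

lemma lo11 (m : ℚ) (h0 : 22 ≤ 32 * m) (h1 : 32 * m ≤ 24) :
    11214 + 6286 * m ≤ 10000 *
      ((1 + m - m ^ 2 / 3 + m ^ 3 / 12 - m ^ 4 / 60 + m ^ 5 / 360 - m ^ 6 / 2520 + m ^ 7 / 20160) -
        m ^ 8 / 181440) := by
  have h := bern (32 * m - 22) (24 - 32 * m)
    (12599516551315 / 2493692371795968) (3664809127459 / 51951924412416)
    (232104087059 / 721554505728) (792320525873 / 1082331758592) (171452235905 / 180388626432)
    (16432347305 / 22548578304) (449317301 / 1409286144) (32716219 / 469762048)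
    (2338447 / 469762048)
    (by linarith) (by linarith) (by norm_num) (by norm_num) (by norm_num) (by norm_num)
    (by norm_num) (by norm_num) (by norm_num) (by norm_num) (by norm_num)
  refine sub_nonneg.1 (le_of_le_of_eq h ?_)
  ring

lemma hi11 (m : ℚ) (h0 : 22 ≤ 32 * m) (h1 : 32 * m ≤ 24) :
    10000 *
      ((1 + m - m ^ 2 / 3 + m ^ 3 / 12 - m ^ 4 / 60 + m ^ 5 / 360 - m ^ 6 / 2520 + m ^ 7 / 20160) +
        m / 5000) ≤ 11221 + 6286 * m := by
  have h := bern (32 * m - 22) (24 - 32 * m)
    (292824540745 / 17317308137472) (1812375380773 / 17317308137472)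
    (1254578669419 / 4329327034368) (527511234073 / 1082331758592) (51362998565 / 90194313216)
    (10906658725 / 22548578304) (1610234539 / 5637144576) (48179259 / 469762048)
    (1935993 / 117440512)
    (by linarith) (by linarith) (by norm_num) (by norm_num) (by norm_num) (by norm_num)
    (by norm_num) (by norm_num) (by norm_num) (by norm_num) (by norm_num)
  refine sub_nonneg.1 (le_of_le_of_eq h ?_)
  ring

lemma lo12 (m : ℚ) (h0 : 24 ≤ 32 * m) (h1 : 32 * m ≤ 26) :
    11394 + 6046 * m ≤ 10000 *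
      ((1 + m - m ^ 2 / 3 + m ^ 3 / 12 - m ^ 4 / 60 + m ^ 5 / 360 - m ^ 6 / 2520 + m ^ 7 / 20160) -
        m ^ 8 / 181440) := by
  have h := bern (32 * m - 24) (26 - 32 * m)
    (2338447 / 469762048) (32224053 / 469762048) (438981815 / 1409286144)
    (15956064727 / 22548578304) (165630354865 / 180388626432) (762146336383 / 1082331758592)
    (222571654063 / 721554505728) (3512153623805 / 51951924412416)
    (12179180070259 / 2493692371795968)
    (by linarith) (by linarith) (by norm_num) (by norm_num) (by norm_num) (by norm_num)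
    (by norm_num) (by norm_num) (by norm_num) (by norm_num) (by norm_num)
  refine sub_nonneg.1 (le_of_le_of_eq h ?_)
  ring

lemma hi12 (m : ℚ) (h0 : 24 ≤ 32 * m) (h1 : 32 * m ≤ 26) :
    10000 *
      ((1 + m - m ^ 2 / 3 + m ^ 3 / 12 - m ^ 4 / 60 + m ^ 5 / 360 - m ^ 6 / 2520 + m ^ 7 / 20160) +
        m / 5000) ≤ 11401 + 6046 * m := by
  have h := bern (32 * m - 24) (26 - 32 * m)
    (1935993 / 117440512) (48199173 / 469762048) (1611907315 / 5637144576)
    (10906879787 / 22548578304) (51099775645 / 90194313216) (519587891783 / 1082331758592)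
    (1220314898323 / 4329327034368) (580425133465 / 5772436045824) (278310086191 / 17317308137472)
    (by linarith) (by linarith) (by norm_num) (by norm_num) (by norm_num) (by norm_num)
    (by norm_num) (by norm_num) (by norm_num) (by norm_num) (by norm_num)
  refine sub_nonneg.1 (le_of_le_of_eq h ?_)
  ring

lemma lo13 (m : ℚ) (h0 : 26 ≤ 32 * m) (h1 : 32 * m ≤ 28) :
    11581 + 5816 * m ≤ 10000 *
      ((1 + m - m ^ 2 / 3 + m ^ 3 / 12 - m ^ 4 / 60 + m ^ 5 / 360 - m ^ 6 / 2520 + m ^ 7 / 20160) -
        m ^ 8 / 181440) := by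
  have h := bern (32 * m - 26) (28 - 32 * m)
    (10961556841843 / 2493692371795968) (2446393634719 / 38963943309312)
    (44950113599563 / 155855773237248) (1832755507145 / 2783138807808)
    (9532667254595 / 11132555231232) (114239846273 / 173946175488) (399449805073 / 1391569403904)
    (10870883993 / 173946175488) (6144344845 / 1391569403904)
    (by linarith) (by linarith) (by norm_num) (by norm_num) (by norm_num) (by norm_num)
    (by norm_num) (by norm_num) (by norm_num) (by norm_num) (by norm_num)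
  refine sub_nonneg.1 (le_of_le_of_eq h ?_)
  ring

lemma hi13 (m : ℚ) (h0 : 26 ≤ 32 * m) (h1 : 32 * m ≤ 28) :
    10000 *
      ((1 + m - m ^ 2 / 3 + m ^ 3 / 12 - m ^ 4 / 60 + m ^ 5 / 360 - m ^ 6 / 2520 + m ^ 7 / 20160) +
        m / 5000) ≤ 11587 + 5816 * m := by
  have h := bern (32 * m - 26) (28 - 32 * m)
    (219120068143 / 17317308137472) (1265758394917 / 17317308137472)
    (1604980530145 / 8658654068736) (176510592647 / 618475290624) (98665939615 / 309237645312)
    (14424418883 / 51539607552) (4623769271 / 25769803776) (301745365 / 4294967296)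
    (234096371 / 19327352832)
    (by linarith) (by linarith) (by norm_num) (by norm_num) (by norm_num) (by norm_num)
    (by norm_num) (by norm_num) (by norm_num) (by norm_num) (by norm_num)
  refine sub_nonneg.1 (le_of_le_of_eq h ?_)
  ring

lemma lo14 (m : ℚ) (h0 : 28 ≤ 32 * m) (h1 : 32 * m ≤ 30) :
    11772 + 5597 * m ≤ 10000 *
      ((1 + m - m ^ 2 / 3 + m ^ 3 / 12 - m ^ 4 / 60 + m ^ 5 / 360 - m ^ 6 / 2520 + m ^ 7 / 20160) -
        m ^ 8 / 181440) := by
  have h := bern (32 * m - 28) (30 - 32 * m)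
    (9541731085 / 1391569403904) (4705178923 / 57982058496) (6000290689 / 17179869184)
    (29989524977 / 38654705664) (137499622835 / 137438953472) (79626915655 / 103079215104)
    (1999015438577 / 5772436045824) (9639797173 / 120259084288) (208011676099 / 30786325577728)
    (by linarith) (by linarith) (by norm_num) (by norm_num) (by norm_num) (by norm_num)
    (by norm_num) (by norm_num) (by norm_num) (by norm_num) (by norm_num)
  refine sub_nonneg.1 (le_of_le_of_eq h ?_)
  ring

lemma hi14 (m : ℚ) (h0 : 28 ≤ 32 * m) (h1 : 32 * m ≤ 30) :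
    10000 *
      ((1 + m - m ^ 2 / 3 + m ^ 3 / 12 - m ^ 4 / 60 + m ^ 5 / 360 - m ^ 6 / 2520 + m ^ 7 / 20160) +
        m / 5000) ≤ 11779 + 5597 * m := by
  have h := bern (32 * m - 28) (30 - 32 * m)
    (262407923 / 19327352832) (3161617123 / 38654705664) (16943137721 / 77309411328)
    (55238679199 / 154618822656) (14128434115 / 34359738368) (72777166147 / 206158430208)
    (619173831719 / 2886218022912) (153020969691 / 1924145348608) (25272565797 / 1924145348608)
    (by linarith) (by linarith) (by norm_num) (by norm_num) (by norm_num) (by norm_num)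
    (by norm_num) (by norm_num) (by norm_num) (by norm_num) (by norm_num)
  refine sub_nonneg.1 (le_of_le_of_eq h ?_)
  ring

lemma lo15 (m : ℚ) (h0 : 30 ≤ 32 * m) (h1 : 32 * m ≤ 31) :
    11921 + 5438 * m ≤ 10000 *
      ((1 + m - m ^ 2 / 3 + m ^ 3 / 12 - m ^ 4 / 60 + m ^ 5 / 360 - m ^ 6 / 2520 + m ^ 7 / 20160) -
        m ^ 8 / 181440) := by
  have h := bern (32 * m - 30) (31 - 32 * m)
    (215527868867 / 120259084288) (479978235561 / 30064771072) (21622250354171 / 360777252864)
    (44992053540185 / 360777252864) (151883979238385 / 962072674304)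
    (539619164435327 / 4329327034368) (115214892200529 / 1924145348608)
    (828647109177119 / 51951924412416) (4468133980744675 / 2493692371795968)
    (by linarith) (by linarith) (by norm_num) (by norm_num) (by norm_num) (by norm_num)
    (by norm_num) (by norm_num) (by norm_num) (by norm_num) (by norm_num)
  refine sub_nonneg.1 (le_of_le_of_eq h ?_)
  ring

lemma hi15 (m : ℚ) (h0 : 30 ≤ 32 * m) (h1 : 32 * m ≤ 31) :
    10000 *
      ((1 + m - m ^ 2 / 3 + m ^ 3 / 12 - m ^ 4 / 60 + m ^ 5 / 360 - m ^ 6 / 2520 + m ^ 7 / 20160) +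
        m / 5000) ≤ 11927 + 5438 * m := by
  have h := bern (32 * m - 30) (31 - 32 * m)
    (17286610981 / 7516192768) (35864738107 / 2147483648) (4883734540717 / 90194313216)
    (18570416918195 / 180388626432) (15160589844685 / 120259084288)
    (220795518722063 / 2164663517184) (230267987530237 / 4329327034368)
    (20139096325781 / 1236950581248) (19291249652765 / 8658654068736)
    (by linarith) (by linarith) (by norm_num) (by norm_num) (by norm_num) (by norm_num)
    (by norm_num) (by norm_num) (by norm_num) (by norm_num) (by norm_num)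
  refine sub_nonneg.1 (le_of_le_of_eq h ?_)
  ring

lemma lo16 (m : ℚ) (h0 : 31 ≤ 32 * m) (h1 : 32 * m ≤ 32) :
    12021 + 5335 * m ≤ 10000 *
      ((1 + m - m ^ 2 / 3 + m ^ 3 / 12 - m ^ 4 / 60 + m ^ 5 / 360 - m ^ 6 / 2520 + m ^ 7 / 20160) -
        m ^ 8 / 181440) := by
  have h := bern (32 * m - 31) (32 - 32 * m)
    (3922638774414307 / 2493692371795968) (157936130011109 / 11132555231232)
    (130674598870159 / 2435246456832) (8533646580839 / 76101451776) (338196928465 / 2378170368)
    (8340469481 / 74317824) (124861669 / 2322432) (1033457 / 72576) (898 / 567)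
    (by linarith) (by linarith) (by norm_num) (by norm_num) (by norm_num) (by norm_num)
    (by norm_num) (by norm_num) (by norm_num) (by norm_num) (by norm_num)
  refine sub_nonneg.1 (le_of_le_of_eq h ?_)
  ring

lemma hi16 (m : ℚ) (h0 : 31 ≤ 32 * m) (h1 : 32 * m ≤ 32) :
    10000 *
      ((1 + m - m ^ 2 / 3 + m ^ 3 / 12 - m ^ 4 / 60 + m ^ 5 / 360 - m ^ 6 / 2520 + m ^ 7 / 20160) +
        m / 5000) ≤ 12026 + 5335 * m := by
  have h := bern (32 * m - 31) (32 - 32 * m)
    (12526676161565 / 8658654068736) (28566563150143 / 2886218022912)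
    (2739855614623 / 90194313216) (156202414307 / 2818572288) (17593365305 / 264241152)
    (448214455 / 8257536) (7541687 / 258048) (75767 / 8064) (49 / 36)
    (by linarith) (by linarith) (by norm_num) (by norm_num) (by norm_num) (by norm_num)
    (by norm_num) (by norm_num) (by norm_num) (by norm_num) (by norm_num)
  refine sub_nonneg.1 (le_of_le_of_eq h ?_)
  ring

lemma btl (m : ℚ) (h0 : 0 ≤ 32 * m) (h1 : 32 * m ≤ 32) :
    m / 2 ≤ 1 + 3 * m - (1 + m) *
      ((1 + m - m ^ 2 / 3 + m ^ 3 / 12 - m ^ 4 / 60 + m ^ 5 / 360 - m ^ 6 / 2520 + m ^ 7 / 20160) +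
        m / 5000) := by
  have h := bern (32 * m - 0) (32 - 32 * m)
    (0) (2499 / 5497558138880000) (10619 / 4123168604160000) (33723 / 5497558138880000)
    (1301 / 164926744166400) (28813 / 4947802324992000) (92123 / 38482906972160000)
    (1305323 / 2770769301995520000) (5053 / 197912092999680000)
    (by linarith) (by linarith) (by norm_num) (by norm_num) (by norm_num) (by norm_num)
    (by norm_num) (by norm_num) (by norm_num) (by norm_num) (by norm_num)
  refine sub_nonneg.1 (le_of_le_of_eq h ?_)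
  ring

lemma btu (m : ℚ) (h0 : 0 ≤ 32 * m) (h1 : 32 * m ≤ 32) :
    1 + 3 * m - (1 + m) *
      ((1 + m - m ^ 2 / 3 + m ^ 3 / 12 - m ^ 4 / 60 + m ^ 5 / 360 - m ^ 6 / 2520 + m ^ 7 / 20160) -
        m / 181440) ≤ 21 / 20 * m := by
  have h := bern (32 * m - 0) (32 - 32 * m)
    (0) (9071 / 199495389743677440) (23057 / 24936923717959680) (6451 / 1477743627730944)
    (958583 / 99747694871838720) (2328929 / 199495389743677440) (44909 / 5541538603991040)
    (151019 / 49873847435919360) (2957 / 6234230929489920)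
    (by linarith) (by linarith) (by norm_num) (by norm_num) (by norm_num) (by norm_num)
    (by norm_num) (by norm_num) (by norm_num) (by norm_num) (by norm_num)
  refine sub_nonneg.1 (le_of_le_of_eq h ?_)
  ring

lemma envI (p q a b a' b' : ℕ) (m c : ℚ) (hI : (p, q, a, b, a', b') ∈ ivs)
    (h0 : (p : ℚ) ≤ 32 * m) (h1 : 32 * m ≤ q) (h2 : (a : ℚ) + b * m ≤ 10000 * c)
    (h3 : 10000 * c ≤ a' + b' * m) : Env m c :=
  ⟨(p, q, a, b, a', b'), hI, h0, h1, h2, h3⟩

end CN2Aux

open CN2Aux in
theorem env_poly (m c : ℚ) (h0 : 0 ≤ m) (h1 : m ≤ 1)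
    (hl : 1 + m - m ^ 2 / 3 + m ^ 3 / 12 - m ^ 4 / 60 + m ^ 5 / 360 - m ^ 6 / 2520 +
      m ^ 7 / 20160 - m ^ 8 / 181440 ≤ c)
    (hu : c ≤ 1 + m - m ^ 2 / 3 + m ^ 3 / 12 - m ^ 4 / 60 + m ^ 5 / 360 - m ^ 6 / 2520 +
      m ^ 7 / 20160 + m / 5000) :
    Env m c ∧ m / 2 ≤ bt m c ∧ bt m c ≤ 21 / 20 * m := by
  refine ⟨?_, ?_, ?_⟩
  · have g0 : (0 : ℚ) ≤ 32 * m := by linarith
    rcases le_total (32 * m) 2 with f0 | g1
    · refine envI 0 2 10000 9791 10000 10030 m c (by simp [ivs]) ?_ ?_ ?_ ?_ <;> push_cast <;>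
        linarith [lo0 m g0 f0, hi0 m g0 f0]
    rcases le_total (32 * m) 4 with f1 | g2
    · refine envI 2 4 10023 9397 10031 9397 m c (by simp [ivs]) ?_ ?_ ?_ ?_ <;> push_cast <;>
        linarith [lo1 m g1 f1, hi1 m g1 f1]
    rcases le_total (32 * m) 6 with f2 | g3
    · refine envI 4 6 10071 9018 10079 9018 m c (by simp [ivs]) ?_ ?_ ?_ ?_ <;> push_cast <;>
        linarith [lo2 m g2 f2, hi2 m g2 f2]
    rcases le_total (32 * m) 8 with f3 | g4
    · refine envI 6 8 10139 8655 10147 8655 m c (by simp [ivs]) ?_ ?_ ?_ ?_ <;> push_cast <;>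
        linarith [lo3 m g3 f3, hi3 m g3 f3]
    rcases le_total (32 * m) 10 with f4 | g5
    · refine envI 8 10 10225 8309 10233 8309 m c (by simp [ivs]) ?_ ?_ ?_ ?_ <;> push_cast <;>
        linarith [lo4 m g4 f4, hi4 m g4 f4]
    rcases le_total (32 * m) 12 with f5 | g6
    · refine envI 10 12 10328 7979 10336 7979 m c (by simp [ivs]) ?_ ?_ ?_ ?_ <;> push_cast <;>
        linarith [lo5 m g5 f5, hi5 m g5 f5]
    rcases le_total (32 * m) 14 with f6 | g7
    · refine envI 12 14 10447 7664 10454 7664 m c (by simp [ivs]) ?_ ?_ ?_ ?_ <;> push_cast <;>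
        linarith [lo6 m g6 f6, hi6 m g6 f6]
    rcases le_total (32 * m) 16 with f7 | g8
    · refine envI 14 16 10579 7362 10586 7362 m c (by simp [ivs]) ?_ ?_ ?_ ?_ <;> push_cast <;>
        linarith [lo7 m g7 f7, hi7 m g7 f7]
    rcases le_total (32 * m) 18 with f8 | g9
    · refine envI 16 18 10722 7075 10729 7075 m c (by simp [ivs]) ?_ ?_ ?_ ?_ <;> push_cast <;>
        linarith [lo8 m g8 f8, hi8 m g8 f8]
    rcases le_total (32 * m) 20 with f9 | g10
    · refine envI 18 20 10877 6800 10884 6800 m c (by simp [ivs]) ?_ ?_ ?_ ?_ <;> push_cast <;>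
        linarith [lo9 m g9 f9, hi9 m g9 f9]
    rcases le_total (32 * m) 22 with f10 | g11
    · refine envI 20 22 11041 6537 11048 6537 m c (by simp [ivs]) ?_ ?_ ?_ ?_ <;> push_cast <;>
        linarith [lo10 m g10 f10, hi10 m g10 f10]
    rcases le_total (32 * m) 24 with f11 | g12
    · refine envI 22 24 11214 6286 11221 6286 m c (by simp [ivs]) ?_ ?_ ?_ ?_ <;> push_cast <;>
        linarith [lo11 m g11 f11, hi11 m g11 f11]
    rcases le_total (32 * m) 26 with f12 | g13
    · refine envI 24 26 11394 6046 11401 6046 m c (by simp [ivs]) ?_ ?_ ?_ ?_ <;> push_cast <;>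
        linarith [lo12 m g12 f12, hi12 m g12 f12]
    rcases le_total (32 * m) 28 with f13 | g14
    · refine envI 26 28 11581 5816 11587 5816 m c (by simp [ivs]) ?_ ?_ ?_ ?_ <;> push_cast <;>
        linarith [lo13 m g13 f13, hi13 m g13 f13]
    rcases le_total (32 * m) 30 with f14 | g15
    · refine envI 28 30 11772 5597 11779 5597 m c (by simp [ivs]) ?_ ?_ ?_ ?_ <;> push_cast <;>
        linarith [lo14 m g14 f14, hi14 m g14 f14]
    rcases le_total (32 * m) 31 with f15 | g16
    · refine envI 30 31 11921 5438 11927 5438 m c (by simp [ivs]) ?_ ?_ ?_ ?_ <;> push_cast <;>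
        linarith [lo15 m g15 f15, hi15 m g15 f15]
    have f16 : 32 * m ≤ 32 := by linarith
    refine envI 31 32 12021 5335 12026 5335 m c (by simp [ivs]) ?_ ?_ ?_ ?_ <;> push_cast <;>
      linarith [lo16 m g16 f16, hi16 m g16 f16]
  · have h := btl m (by linarith) (by linarith)
    have h2 := mul_le_mul_of_nonneg_left hu (by linarith : 0 ≤ 1 + m)
    unfold bt
    linarith
  · have h := btu m (by linarith) (by linarith)
    have h3 : m ^ 8 ≤ m := pow_le_of_le_one h0 h1 (by norm_num)
    have h2 := mul_le_mul_of_nonneg_left (le_trans (by linarith) hl : 1 + m - m ^ 2 / 3 +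
      m ^ 3 / 12 - m ^ 4 / 60 + m ^ 5 / 360 - m ^ 6 / 2520 + m ^ 7 / 20160 - m / 181440 ≤ c)
      (by linarith : 0 ≤ 1 + m)
    unfold bt
    linarith

end Vale.Agent.P334
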