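import Vale.Agent.P334.CN1
import Vale.Agent.P334.CN2

/-! The properties of the price function. -/

namespace Vale.Agent.P334

theorem cn_stmt {E : ℕ} (hE : 10000 ≤ E) : CNStmt E := by
  have h : ∀ m : ℚ, 0 ≤ m → m ≤ 1 →
      Env m (cN E m) ∧ m / 2 ≤ bt m (cN E m) ∧ bt m (cN E m) ≤ 21 / 20 * m := fun m h0 h1 =>
    env_poly m _ h0 h1 (cn_core hE m h0 h1).1 (cn_core hE m h0 h1).2
  have h1 := cn_core hE 1 zero_le_one le_rfl
  norm_num [P7] at h1
  exact ⟨cn_slope hE, cn_mono hE, cn_zero hE, by linarith [h1.1], by linarith [h1.2],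
    fun m a b => (h m a b).2.1, fun m a b => (h m a b).2.2, fun m a b => (h m a b).1, cn_top hE⟩

end Vale.Agent.P334
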