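import Vale.Agent.P334.Key
import Vale.Agent.P334.Cert14
import Vale.Agent.P334.Cert22
import Vale.Agent.P334.Cert26
import Vale.Agent.P334.Cert31

/-! The inequality for pairs of points holds in the envelope. -/

namespace Vale.Agent.P334

theorem cert_stmt : CertStmt := by
  rintro m c ⟨I, hI, h⟩
  simp only [ivs, List.mem_cons, List.not_mem_nil, or_false] at hI
  rcases hI with rfl | rfl | rfl | rfl | rfl | rfl | rfl | rfl | rfl | rfl | rfl | rfl | rfl | rfl | rfl | rfl | rfl
  · exact cert_of_ctl (S := 48898202664960000) (C := C0.cs) rfl (by decide +kernel)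
      C0.root0 C0.root1 h
  · exact cert_of_ctl (S := 97796405329920000) (C := C2.cs) rfl (by decide +kernel)
      C2.root0 C2.root1 h
  · exact cert_of_ctl (S := 97796405329920000) (C := C4.cs) rfl (by decide +kernel)
      C4.root0 C4.root1 h
  · exact cert_of_ctl (S := 48898202664960000) (C := C6.cs) rfl (by decide +kernel)
      C6.root0 C6.root1 h
  · exact cert_of_ctl (S := 97796405329920000) (C := C8.cs) rfl (by decide +kernel)
      C8.root0 C8.root1 h
  · exact cert_of_ctl (S := 97796405329920000) (C := C10.cs) rfl (by decide +kernel)
      C10.root0 C10.root1 h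
  · exact cert_of_ctl (S := 97796405329920000) (C := C12.cs) rfl (by decide +kernel)
      C12.root0 C12.root1 h
  · exact cert_of_ctl (S := 97796405329920000) (C := C14.cs) rfl (by decide +kernel)
      C14.root0 C14.root1 h
  · exact cert_of_ctl (S := 97796405329920000) (C := C16.cs) rfl (by decide +kernel)
      C16.root0 C16.root1 h
  · exact cert_of_ctl (S := 97796405329920000) (C := C18.cs) rfl (by decide +kernel)
      C18.root0 C18.root1 h
  · exact cert_of_ctl (S := 97796405329920000) (C := C20.cs) rfl (by decide +kernel)
      C20.root0 C20.root1 h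
  · exact cert_of_ctl (S := 97796405329920000) (C := C22.cs) rfl (by decide +kernel)
      C22.root0 C22.root1 h
  · exact cert_of_ctl (S := 97796405329920000) (C := C24.cs) rfl (by decide +kernel)
      C24.root0 C24.root1 h
  · exact cert_of_ctl (S := 97796405329920000) (C := C26.cs) rfl (by decide +kernel)
      C26.root0 C26.root1 h
  · exact cert_of_ctl (S := 48898202664960000) (C := C28.cs) rfl (by decide +kernel)
      C28.root0 C28.root1 h
  · exact cert_of_ctl (S := 48898202664960000) (C := C30.cs) rfl (by decide +kernel)
      C30.root0 C30.root1 h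
  · exact cert_of_ctl (S := 97796405329920000) (C := C31.cs) rfl (by decide +kernel)
      C31.root0 C31.root1 h

end Vale.Agent.P334
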