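import Vale.Agent.P334.Stmts3

/-! The potential of a client does not increase on average. -/

namespace Vale.Agent.P334

open Finset

namespace Client2Aux

lemma nm_nonneg (t d : ℚ) : 0 ≤ nm t d := le_max_right _ _

lemma nm_sub (τ t d : ℚ) (h : τ ≤ t) : nm τ d - nm t d ≤ t - τ := by
  unfold nm
  have h1 := le_max_left (3 * d - t) 0
  have h2 := le_max_right (3 * d - t) 0
  rcases le_total (3 * d - τ) 0 with h3 | h3
  · rw [max_eq_right h3]; linarith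
  · rw [max_eq_left h3]; linarith

lemma np_sub (τ t d : ℚ) (h : τ ≤ t) : np t d - np τ d ≤ t - τ := by
  unfold np
  have h1 := min_le_left (max (t - 3 * d) 0) (3 * d)
  have h2 := min_le_right (max (t - 3 * d) 0) (3 * d)
  have h3 : max (t - 3 * d) 0 ≤ max (τ - 3 * d) 0 + (t - τ) := by
    apply max_le
    · linarith [le_max_left (τ - 3 * d) 0]
    · linarith [le_max_right (τ - 3 * d) 0]
  rcases le_total (max (τ - 3 * d) 0) (3 * d) with h4 | h4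
  · rw [min_eq_left h4]; linarith
  · rw [min_eq_right h4]; linarith

/-- The error terms for one point. -/
lemma step3 (γ m π d a t τ ε n p : ℚ) (hγ0 : 0 < γ) (hγ1 : γ ≤ 1 / 10000) (hm0 : 0 ≤ m)
    (hm1 : m ≤ 1) (hπ0 : 0 ≤ π) (hπ1 : π ≤ m) (hd : 0 ≤ d) (ha : 0 ≤ a) (hτ0 : 0 ≤ τ)
    (hτ : τ ≤ t) (hn : n ≤ t - τ) (hp : p ≤ t - τ)
    (e1 : ε ≤ (2 * τ + 2 * d + 2 * a) * γ ^ 2) (e2 : ε ≤ (2 * (t - τ) + 7 * d + a) * γ) :
    -((1 - m) * (1 + 2 * m * γ ^ 2) * t) + (1 - m) * τ + m * (1 - m) / 22 * n +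
      m * m * (1 - m) / 10 * p + (1 - m + π) * ((-2 * γ ^ 2 + 4 * m * γ ^ 2) * τ + ε +
        (3 * a + 2 * (1 - m) * t) * γ ^ 2) ≤ 8 * γ * d + 2 * γ * a + 4 * γ ^ 2 * (π * τ) := by
  obtain ⟨D, rfl⟩ : ∃ D, t = τ + D := ⟨t - τ, by ring⟩
  obtain ⟨k, rfl⟩ : ∃ k, m = 1 - k := ⟨1 - m, by ring⟩
  have hD : 0 ≤ D := by linarith
  have hk0 : 0 ≤ k := by linarith
  have hk1 : k ≤ 1 := by linarith
  have hδ0 : 0 ≤ γ ^ 2 := by positivity
  have hδ : γ ^ 2 ≤ γ / 10000 := by nlinarith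
  generalize γ ^ 2 = δ at *
  have hkD : 0 ≤ k * D := mul_nonneg hk0 hD
  have a1 : (1 - k) * k * n ≤ k * D := by
    have h1 : (1 - k) * k * n ≤ (1 - k) * k * D :=
      mul_le_mul_of_nonneg_left (by linarith) (mul_nonneg hm0 hk0)
    have h2 : 0 ≤ k * (k * D) := mul_nonneg hk0 hkD
    linarith
  have a2 : (1 - k) * (1 - k) * k * p ≤ k * D := by
    have h1 : (1 - k) * (1 - k) * k * p ≤ (1 - k) * (1 - k) * k * D :=
      mul_le_mul_of_nonneg_left (by linarith) (mul_nonneg (mul_nonneg hm0 hm0) hk0)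
    have h2 : (1 - k) * (1 - k) ≤ 1 := by nlinarith
    have h3 := mul_le_mul_of_nonneg_right h2 hkD
    linarith
  have a3 : k * ε ≤ k * ((2 * D + 7 * d + a) * γ) :=
    mul_le_mul_of_nonneg_left (by linarith) hk0
  have a4 : π * ε ≤ π * ((2 * τ + 2 * d + 2 * a) * δ) := mul_le_mul_of_nonneg_left e1 hπ0
  have hπ2 : π ≤ 1 := by linarith
  have hγd : 0 ≤ γ * d := by positivity
  have hγa : 0 ≤ γ * a := by positivity
  have hδd := mul_le_mul_of_nonneg_right hδ hd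
  have hδa := mul_le_mul_of_nonneg_right hδ ha
  have hδd0 : 0 ≤ δ * d := by positivity
  have hδa0 : 0 ≤ δ * a := by positivity
  have b1 := mul_le_of_le_one_left hγd hk1
  have b2 := mul_le_of_le_one_left hγa hk1
  have b3 := mul_le_of_le_one_left hδd0 hπ2
  have b4 := mul_le_of_le_one_left hδa0 hπ2
  have b5 := mul_le_of_le_one_left hδa0 hk1
  have b6 := mul_le_mul_of_nonneg_right hγ1 hkD
  have hδ1 : δ ≤ 1 / 10000 := by linarith
  have hδk0 : 0 ≤ δ * (k * D) := by positivity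
  have b7 := mul_le_mul_of_nonneg_right hδ1 hkD
  have b8 := mul_le_of_le_one_left hδk0 hk1
  have b9 := mul_le_of_le_one_left hδk0 hπ2
  have b10 : 0 ≤ k * (δ * (π * τ)) := by positivity
  have b11 : 0 ≤ (1 - k) * (δ * (k * D)) := by positivity
  linarith

lemma swap (s : Finset ℕ) (x : ℕ → ℚ) (F : ℕ → ℕ → ℚ) :
    ∑ l ∈ s, x l * ∑ i ∈ s, x i * F i l = ∑ i ∈ s, x i * ∑ l ∈ s, x l * F i l := by
  simp only [mul_sum]
  rw [sum_comm]
  exact sum_congr rfl fun i _ => sum_congr rfl fun l _ => by ring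

lemma sum7 (s : Finset ℕ) (k1 k2 k3 k4 k5 k6 k7 : ℚ) (f1 f2 f3 f4 f5 f6 f7 : ℕ → ℚ) :
    ∑ l ∈ s, (k1 * f1 l + k2 * f2 l + k3 * f3 l + k4 * f4 l + k5 * f5 l + k6 * f6 l + k7 * f7 l) =
      k1 * ∑ l ∈ s, f1 l + k2 * ∑ l ∈ s, f2 l + k3 * ∑ l ∈ s, f3 l + k4 * ∑ l ∈ s, f4 l +
        k5 * ∑ l ∈ s, f5 l + k6 * ∑ l ∈ s, f6 l + k7 * ∑ l ∈ s, f7 l := by
  simp only [sum_add_distrib, mul_sum]

/-- The sum of the left sides for one point. -/
lemma lam_ge (s : Finset ℕ) (x d w f : ℕ → ℚ) (m c A e τ g σ g₀ : ℚ) (hx : ∀ l ∈ s, 0 ≤ x l)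
    (hw0 : ∀ l ∈ s, 0 ≤ w l) (hw1 : ∀ l ∈ s, w l ≤ 1) (hm : ∑ l ∈ s, x l = m)
    (hA : ∑ l ∈ s, x l * d l = m * A) (hm0 : 0 ≤ m) (hg : 0 ≤ g) :
    m * (e - (1 - m) * τ - m * c * e - m * (1 - m) / 22 * nm τ e + m * m * (1 - m) / 10 * np τ e +
      (1 - m + ∑ l ∈ s, x l * w l) * (cA m c A e τ + g * cH m c A e τ +
        (∑ l ∈ s, x l * nm τ (d l)) / 22 + (1 - 2 * m) / 10 * (∑ l ∈ s, x l * np τ (d l)) +
        g * (3 * m / 20 * (∑ l ∈ s, x l * np τ (d l)) - (∑ l ∈ s, x l * nm τ (d l)) / 44)) -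
      ∑ l ∈ s, x l * (w l * max (d l - (22 * c + 3) / 23 * e) 0) +
      (∑ l ∈ s, x l * (f l * (1 - w l))) * (((22 * c + 3) / 23 - c + 3 * m * (1 - m) / 10) * e)) ≤
    ∑ l ∈ s, x l * lhs m c A e τ g (d l) (w l) (f l) σ g₀ := by
  have key : ∑ l ∈ s, x l * lhs m c A e τ g (d l) (w l) (f l) σ g₀ =
      ∑ l ∈ s, ((cA m c A e τ - τ + e + m * bt m c * A + (1 - m) * g * cH m c A e τ) * x l +
        ((1 - m) * (m / 22 - g * (m / 44))) * (x l * nm τ (d l)) +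
        ((1 - m) * (m * (1 - 2 * m) / 10 + g * (3 * m ^ 2 / 20))) * (x l * np τ (d l)) +
        1 * (x l * max (m * (cG m τ (d l) + g * (3 * m ^ 2 / 20 * np τ (d l))) -
          σ * (d l - A) - g₀) 0) +
        (m * (cA m c A e τ + g * cH m c A e τ) + g₀) * (x l * w l) +
        (-m) * (x l * (w l * max (d l - (22 * c + 3) / 23 * e) 0)) +
        (m * ((22 * c + 3) / 23 - c + 3 * m * (1 - m) / 10) * e) * (x l * (f l * (1 - w l)))) := by
    refine sum_congr rfl fun l _ => ?_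
    unfold lhs
    generalize max (m * (cG m τ (d l) + g * (3 * m ^ 2 / 20 * np τ (d l))) -
      σ * (d l - A) - g₀) 0 = z
    unfold cG
    ring
  rw [key, sum7, hm]
  have hP0 : 0 ≤ ∑ l ∈ s, x l * max (m * (cG m τ (d l) + g * (3 * m ^ 2 / 20 * np τ (d l))) -
      σ * (d l - A) - g₀) 0 := sum_nonneg fun l hl => mul_nonneg (hx l hl) (le_max_right _ _)
  have hP1 : m * (m / 22 * (∑ l ∈ s, x l * nm τ (d l)) +
      (m * (1 - 2 * m) / 10 + g * (3 * m ^ 2 / 20)) * (∑ l ∈ s, x l * np τ (d l)) - g₀) ≤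
      ∑ l ∈ s, x l * max (m * (cG m τ (d l) + g * (3 * m ^ 2 / 20 * np τ (d l))) -
        σ * (d l - A) - g₀) 0 := by
    refine le_trans (le_of_eq ?_)
      (sum_le_sum fun l hl => mul_le_mul_of_nonneg_left (le_max_left _ _) (hx l hl))
    have : ∑ l ∈ s, x l * (m * (cG m τ (d l) + g * (3 * m ^ 2 / 20 * np τ (d l))) -
        σ * (d l - A) - g₀) = ∑ l ∈ s, ((σ * A - g₀) * x l + (m * (m / 22)) * (x l * nm τ (d l)) +
        (m * (m * (1 - 2 * m) / 10 + g * (3 * m ^ 2 / 20))) * (x l * np τ (d l)) +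
        (-σ) * (x l * d l) + 0 * x l + 0 * x l + 0 * x l) :=
      sum_congr rfl fun l _ => by unfold cG; ring
    rw [this, sum7, hm, hA]
    ring
  have hN : 0 ≤ ∑ l ∈ s, x l * nm τ (d l) :=
    sum_nonneg fun l hl => mul_nonneg (hx l hl) (nm_nonneg _ _)
  have hπ0 : 0 ≤ ∑ l ∈ s, x l * w l := sum_nonneg fun l hl => mul_nonneg (hx l hl) (hw0 l hl)
  have hπ1 : ∑ l ∈ s, x l * w l ≤ m := by
    rw [← hm]
    exact sum_le_sum fun l hl => mul_le_of_le_one_right (hx l hl) (hw1 l hl)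
  generalize ∑ l ∈ s, x l * max (m * (cG m τ (d l) + g * (3 * m ^ 2 / 20 * np τ (d l))) -
    σ * (d l - A) - g₀) 0 = P at *
  generalize ∑ l ∈ s, x l * nm τ (d l) = N at *
  generalize ∑ l ∈ s, x l * np τ (d l) = Q at *
  generalize ∑ l ∈ s, x l * w l = π at *
  generalize ∑ l ∈ s, x l * (w l * max (d l - (22 * c + 3) / 23 * e) 0) = W at *
  generalize ∑ l ∈ s, x l * (f l * (1 - w l)) = F at *
  have hP2 : π * (m / 22 * N + (m * (1 - 2 * m) / 10 + g * (3 * m ^ 2 / 20)) * Q - g₀) ≤ P := by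
    rcases le_total 0 (m / 22 * N + (m * (1 - 2 * m) / 10 + g * (3 * m ^ 2 / 20)) * Q - g₀)
      with h | h
    · exact (mul_le_mul_of_nonneg_right hπ1 h).trans hP1
    · exact (mul_nonpos_of_nonneg_of_nonpos hπ0 h).trans hP0
  have hP3 : 0 ≤ π * (g * (m * N)) := by positivity
  have hcA : cA m c A e τ = τ - c * e - (1 - m) / 22 * nm τ e + m * (1 - m) / 10 * np τ e -
    bt m c * A := rfl
  generalize cH m c A e τ = H at *
  rw [hcA]
  nlinarith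

/-- The unit cost in terms of the quantities of the certificate. -/
lemma un2_eq (E : ℕ) (s : Finset ℕ) (x d : ℕ → ℚ) (m A τ e g : ℚ) (hm : ∑ l ∈ s, x l = m)
    (hA : ∑ l ∈ s, x l * d l = m * A) (hm0 : m ≠ 0) :
    un2 E s x d τ e g = cA m (cN E m) A e τ + g * cH m (cN E m) A e τ +
        (∑ l ∈ s, x l * nm τ (d l)) / 22 + (1 - 2 * m) / 10 * (∑ l ∈ s, x l * np τ (d l)) +
        g * (3 * m / 20 * (∑ l ∈ s, x l * np τ (d l)) - (∑ l ∈ s, x l * nm τ (d l)) / 44) +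
      (-(2 / (E : ℚ) ^ 2) + 4 * m / (E : ℚ) ^ 2) * τ - 100 / E * e := by
  have h1 : ∑ j ∈ s, x j * kk2 E m τ (d j) = ∑ j ∈ s, (bt m (cN E m) / m * (x j * d j) +
      (-1 / 22) * (x j * nm τ (d j)) + m / 10 * (x j * np τ (d j)) + 0 * x j + 0 * x j + 0 * x j +
      0 * x j) := sum_congr rfl fun l _ => by unfold kk2; ring
  rw [sum7, hA] at h1
  unfold un2 dcy2 hc2
  rw [hm, h1, hA]
  unfold cA cH kk2
  generalize (2 : ℚ) / (E : ℚ) ^ 2 = k1
  generalize 4 * m / (E : ℚ) ^ 2 = k2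
  generalize (100 : ℚ) / E = k3
  field_simp
  ring

/-- The sum of the values after the openings. -/
lemma rb_sum (E : ℕ) (s : Finset ℕ) (x d f : ℕ → ℚ) (h : ℕ → ℕ → ℚ) (m : ℚ)
    (hm : ∑ l ∈ s, x l = m) :
    ∑ l ∈ s, x l * rb2 E s x d h (f l) l = ∑ i ∈ s, x i * (d i -
      ∑ l ∈ s, x l * ((1 - h i l) * max (d l - (22 * cN E m + 3) / 23 * d i) 0) +
      100 / E * ((∑ l ∈ s, x l * (1 - h i l)) * d i) +
      (∑ l ∈ s, x l * (f l * (1 - (1 - h i l)))) *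
        (((22 * cN E m + 3) / 23 - cN E m + 3 * m * (1 - m) / 10) * d i) +
      4 * m / (E : ℚ) ^ 2 * d i) := by
  have h1 : ∑ l ∈ s, x l * rb2 E s x d h (f l) l = ∑ l ∈ s, (1 * (x l * d l) +
      (-1) * (x l * ∑ i ∈ s, x i * ((1 - h i l) * max (d l - (22 * cN E m + 3) / 23 * d i) 0)) +
      100 / E * (x l * ∑ i ∈ s, x i * ((1 - h i l) * d i)) +
      1 * (x l * ∑ i ∈ s, x i * (f l * (1 - (1 - h i l)) *
        (((22 * cN E m + 3) / 23 - cN E m + 3 * m * (1 - m) / 10) * d i))) +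
      4 * m / (E : ℚ) ^ 2 * (x l * d l) + 0 * x l + 0 * x l) := by
    refine sum_congr rfl fun l _ => ?_
    unfold rb2
    rw [hm]
    have e1 : ∑ i ∈ s, x i * (f l * (1 - (1 - h i l)) *
        (((22 * cN E m + 3) / 23 - cN E m + 3 * m * (1 - m) / 10) * d i)) =
        f l * ∑ i ∈ s, x i * h i l *
          (((22 * cN E m + 3) / 23 - cN E m + 3 * m * (1 - m) / 10) * d i) := by
      rw [mul_sum]; exact sum_congr rfl fun i _ => by ring
    rw [e1]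
    simp only [mul_assoc (x _)]
    ring
  rw [h1, sum7,
    swap s x fun i l => (1 - h i l) * max (d l - (22 * cN E m + 3) / 23 * d i) 0,
    swap s x fun i l => (1 - h i l) * d i,
    swap s x fun i l => f l * (1 - (1 - h i l)) *
      (((22 * cN E m + 3) / 23 - cN E m + 3 * m * (1 - m) / 10) * d i)]
  have h2 : ∀ i, ∑ l ∈ s, x l * ((1 - h i l) * d i) = (∑ l ∈ s, x l * (1 - h i l)) * d i := by
    intro i; rw [sum_mul]; exact sum_congr rfl fun l _ => by ring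
  have h3 : ∀ i k, ∑ l ∈ s, x l * (f l * (1 - (1 - h i l)) * k) =
      (∑ l ∈ s, x l * (f l * (1 - (1 - h i l)))) * k := by
    intro i k; rw [sum_mul]; exact sum_congr rfl fun l _ => by ring
  simp only [h2, h3]
  rw [← sum7]
  exact sum_congr rfl fun i _ => by ring

/-- The potential times the mass. -/
lemma psi_sum (E : ℕ) (s : Finset ℕ) (x d : ℕ → ℚ) (m t : ℚ) (hm : ∑ l ∈ s, x l = m) :
    m * psiV2 E s x d t = ∑ i ∈ s, x i * (m * (cN E m + 100 / E) * d i +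
      (1 - m) * (1 + 2 * m / (E : ℚ) ^ 2) * t + m * (1 - m) / 22 * nm t (d i) -
      m * m * (1 - m) / 10 * np t (d i)) := by
  have h1 : ∑ i ∈ s, x i * (m * (cN E m + 100 / E) * d i +
      (1 - m) * (1 + 2 * m / (E : ℚ) ^ 2) * t + m * (1 - m) / 22 * nm t (d i) -
      m * m * (1 - m) / 10 * np t (d i)) = ∑ i ∈ s, (m * (cN E m + 100 / E) * (x i * d i) +
      (1 - m) * (1 + 2 * m / (E : ℚ) ^ 2) * t * x i + m * (1 - m) / 22 * (x i * nm t (d i)) +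
      -(m * m * (1 - m) / 10) * (x i * np t (d i)) + 0 * x i + 0 * x i + 0 * x i) :=
    sum_congr rfl fun i _ => by ring
  rw [h1, sum7]
  unfold psiV2 psi2
  rw [hm]
  ring

/-- The pairs: the certificate summed with the weights. -/
lemma pair_sum (s : Finset ℕ) (x d : ℕ → ℚ) (m A k : ℚ) (χ : ℚ → ℚ) (ν : ℕ → ℚ) (L : ℕ → ℕ → ℚ)
    (hx : ∀ l ∈ s, 0 ≤ x l) (hm : ∑ l ∈ s, x l = m) (hA : ∑ l ∈ s, x l * d l = m * A)
    (hL : ∀ i ∈ s, ∀ l ∈ s, L i l ≤ χ (d i) - χ (d l) + ν i * (d l - A) + k * (d i + d l)) :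
    ∑ i ∈ s, x i * ∑ l ∈ s, x l * L i l ≤ 2 * k * m * (m * A) := by
  have h1 : ∀ i ∈ s, ∑ l ∈ s, x l * L i l ≤
      m * χ (d i) - ∑ l ∈ s, x l * χ (d l) + k * m * d i + k * (m * A) := by
    intro i hi
    refine (sum_le_sum fun l hl => mul_le_mul_of_nonneg_left (hL i hi l hl) (hx l hl)).trans
      (le_of_eq ?_)
    have : ∑ l ∈ s, x l * (χ (d i) - χ (d l) + ν i * (d l - A) + k * (d i + d l)) =
        ∑ l ∈ s, ((χ (d i) - ν i * A + k * d i) * x l + (-1) * (x l * χ (d l)) +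
          (ν i + k) * (x l * d l) + 0 * x l + 0 * x l + 0 * x l + 0 * x l) :=
      sum_congr rfl fun l _ => by ring
    rw [this, sum7, hm, hA]
    ring
  refine (sum_le_sum fun i hi => mul_le_mul_of_nonneg_left (h1 i hi) (hx i hi)).trans
    (le_of_eq ?_)
  generalize hX : ∑ l ∈ s, x l * χ (d l) = X
  have : ∑ i ∈ s, x i * (m * χ (d i) - X + k * m * d i + k * (m * A)) =
      ∑ i ∈ s, (m * (x i * χ (d i)) + (k * (m * A) - X) * x i +
        (k * m) * (x i * d i) + 0 * x i + 0 * x i + 0 * x i + 0 * x i) :=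
    sum_congr rfl fun l _ => by ring
  rw [this, sum7, hm, hA, hX]
  ring

/-- The final count. -/
lemma final (s : Finset ℕ) (x d T Λ : ℕ → ℚ) (m A γ : ℚ) (hx : ∀ l ∈ s, 0 ≤ x l)
    (hm : ∑ l ∈ s, x l = m) (hA : ∑ l ∈ s, x l * d l = m * A) (hm0 : 0 < m) (hm1 : m ≤ 1)
    (hA0 : 0 ≤ A) (hγ0 : 0 < γ) (hγ1 : γ ≤ 1 / 10000)
    (hΛ : ∑ i ∈ s, x i * Λ i ≤ 2 * (25 * γ) * m * (m * A))
    (hT : ∀ i ∈ s, m * T i ≤ Λ i + m * ((-92 * γ + 16 * γ ^ 2) * d i +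
      (2 * γ + 8 * γ ^ 2) * (m * A))) :
    ∑ i ∈ s, x i * T i + 4 * (m * A) * γ ^ 2 ≤ 0 := by
  have h1 : m * ∑ i ∈ s, x i * T i ≤ ∑ i ∈ s, (1 * (x i * Λ i) +
      m * (-92 * γ + 16 * γ ^ 2) * (x i * d i) + m * ((2 * γ + 8 * γ ^ 2) * (m * A)) * x i +
      0 * x i + 0 * x i + 0 * x i + 0 * x i) := by
    rw [mul_sum]
    refine sum_le_sum fun i hi => ?_
    have := mul_le_mul_of_nonneg_left (hT i hi) (hx i hi)
    linarith
  rw [sum7, hm, hA] at h1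
  generalize ∑ i ∈ s, x i * T i = R at *
  generalize ∑ i ∈ s, x i * Λ i = S at *
  have ha : 0 ≤ m * A := by positivity
  generalize m * A = a at *
  have h2 : m * R ≤ m * ((-42 * γ + 16 * γ ^ 2) * a + (2 * γ + 8 * γ ^ 2) * a * m) := by linarith
  have h3 := le_of_mul_le_mul_left h2 hm0
  have h4 : (2 * γ + 8 * γ ^ 2) * a * m ≤ (2 * γ + 8 * γ ^ 2) * a :=
    mul_le_of_le_one_right (by positivity) hm1
  have h5 : γ ^ 2 ≤ γ := by nlinarith
  have h6 := mul_le_mul_of_nonneg_right h5 ha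
  have h7 : 0 ≤ γ * a := by positivity
  linarith

end Client2Aux

open Client2Aux in
theorem client_stmt2 {E : ℕ} (hE : 10000 ≤ E) (hn : CNStmt E) (hs : SplitStmt E)
    (hc : CertStmt) : ClientStmt2 E := by
  intro s x y d lm u q om V h t H
  obtain ⟨f, τ, g, ε, hf, hτ, hR⟩ := hs s x y d lm u q om V h t H
  refine hR.trans ?_
  have hm0 : 0 ≤ ∑ l ∈ s, x l := sum_nonneg H.x0
  have hm1 := H.m1
  rcases hm0.eq_or_lt with hz | hpos
  · have hx : ∀ i ∈ s, x i = 0 := (sum_eq_zero_iff_of_nonneg H.x0).1 hz.symm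
    have e0 : ∀ F : ℕ → ℚ, ∑ l ∈ s, x l * F l = 0 := fun F =>
      sum_eq_zero fun l hl => by rw [hx l hl, zero_mul]
    rw [e0, e0, e0, ← hz]
    simp
  have hE' : (10000 : ℚ) ≤ E := by exact_mod_cast hE
  obtain ⟨γ, hγ⟩ : ∃ γ : ℚ, γ = (E : ℚ)⁻¹ := ⟨_, rfl⟩
  have hγ0 : 0 < γ := by rw [hγ]; positivity
  have hγ1 : γ ≤ 1 / 10000 := by
    rw [hγ, ← one_div]; exact one_div_le_one_div_of_le (by norm_num) hE'
  have e1 : ∀ z : ℚ, z / E = z * γ := fun z => by rw [hγ, div_eq_mul_inv]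
  have e2 : ∀ z : ℚ, z / (E : ℚ) ^ 2 = z * γ ^ 2 := fun z => by rw [hγ, div_eq_mul_inv, inv_pow]
  obtain ⟨m, hm⟩ : ∃ m, ∑ l ∈ s, x l = m := ⟨_, rfl⟩
  obtain ⟨A, hA⟩ : ∃ A, ∑ l ∈ s, x l * d l = m * A :=
    ⟨(∑ l ∈ s, x l * d l) / m, by rw [mul_div_cancel₀ _ (by rw [← hm]; exact hpos.ne')]⟩
  rw [hm] at hpos hm0 hm1
  have ha : 0 ≤ m * A := by
    rw [← hA]; exact sum_nonneg fun l hl => mul_nonneg (H.x0 l hl) (H.d0 l hl)
  have hA0 : 0 ≤ A := nonneg_of_mul_nonneg_right ha hpos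
  rw [hm, hA] at hf
  rw [hA] at hτ
  obtain ⟨χ, hχ⟩ := hc m (cN E m) (hn.env m hm0 hm1) A hA0
  have hχ' : ∀ i, ∃ σ g₀ ν : ℚ, i ∈ s → ∀ l ∈ s,
      lhs m (cN E m) A (d i) (τ i) (g i) (d l) (1 - h i l) (f l) σ g₀ ≤
        χ (d i) - χ (d l) + ν * (d l - A) + 25 * γ * (d i + d l) := by
    intro i
    by_cases hi : i ∈ s
    swap
    · exact ⟨0, 0, 0, fun h => absurd h hi⟩
    obtain ⟨t0, t1, t2, g0, g1, g2, -⟩ := hτ i hi
    obtain ⟨σ, g₀, ν, hh⟩ := hχ (d i) (lm i) (τ i) (H.d0 i hi) (H.lm0 i hi) t0 t2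
    refine ⟨σ, g₀, ν, fun _ l hl => ?_⟩
    have hz0 : 0 ≤ 25 * γ * (d i + d l) := by
      have := H.d0 i hi
      have := H.d0 l hl
      positivity
    refine hh (g i) (d l) (1 - h i l) _ (f l) g0 g1 g2 (H.d0 l hl) (by linarith [H.h1 i hi l hl])
      (by linarith [H.h0 i hi l hl]) hz0 ?_ (hf l hl).2.1 fun hf0 => ?_
    · rcases (H.h1 i hi l hl).eq_or_lt with h1 | h1
      · rw [h1]
        linarith [le_max_right (13 * (d i + d l) - 8 * lm i) 0]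
      · have k3 := H.k3 i hi l hl h1
        rw [e1] at k3
        linarith [le_max_left (13 * (d i + d l) - 8 * lm i) 0]
    · have k := (hf l hl).2.2 hf0
      have k' := mul_le_mul_of_nonneg_left t1 (by linarith : 0 ≤ 1 - m)
      linarith
  choose σ g₀ ν hL using hχ'
  have hΛ := pair_sum s x d m A (25 * γ) χ ν _ H.x0 hm hA hL
  rw [rb_sum E s x d f h m hm, hm, psi_sum E s x d m t hm, hA, e2 (4 * (m * A))]
  refine le_trans (le_of_eq ?_) (final s x d (fun i => (d i -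
      ∑ l ∈ s, x l * ((1 - h i l) * max (d l - (22 * cN E m + 3) / 23 * d i) 0) +
      100 / E * ((∑ l ∈ s, x l * (1 - h i l)) * d i) +
      (∑ l ∈ s, x l * (f l * (1 - (1 - h i l)))) *
        (((22 * cN E m + 3) / 23 - cN E m + 3 * m * (1 - m) / 10) * d i) +
      4 * m / (E : ℚ) ^ 2 * d i) - (m * (cN E m + 100 / E) * d i +
      (1 - m) * (1 + 2 * m / (E : ℚ) ^ 2) * t + m * (1 - m) / 22 * nm t (d i) -
      m * m * (1 - m) / 10 * np t (d i)) + (1 - m + ∑ l ∈ s, x l * (1 - h i l)) *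
        (un2 E s x d (τ i) (d i) (g i) + ε i + (3 * (m * A) + 2 * (1 - m) * t) / (E : ℚ) ^ 2))
    _ m A γ H.x0 hm hA hpos hm1 hA0 hγ0 hγ1 hΛ ?_)
  · simp only [mul_add (x _), mul_sub (x _), sum_add_distrib, sum_sub_distrib]
    ring
  · intro i hi
    obtain ⟨t0, t1, t2, g0, g1, g2, ε0, ε1, ε2⟩ := hτ i hi
    have hw0 : ∀ l ∈ s, 0 ≤ 1 - h i l := fun l hl => by linarith [H.h1 i hi l hl]
    have hw1 : ∀ l ∈ s, 1 - h i l ≤ 1 := fun l hl => by linarith [H.h0 i hi l hl]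
    have L1 := lam_ge s x d (fun l => 1 - h i l) f m (cN E m) A (d i) (τ i) (g i) (σ i) (g₀ i)
      H.x0 hw0 hw1 hm hA hm0 g0
    have hπ0 : 0 ≤ ∑ l ∈ s, x l * (1 - h i l) :=
      sum_nonneg fun l hl => mul_nonneg (H.x0 l hl) (hw0 l hl)
    have hπ1 : ∑ l ∈ s, x l * (1 - h i l) ≤ m := by
      rw [← hm]
      exact sum_le_sum fun l hl => mul_le_of_le_one_right (H.x0 l hl) (hw1 l hl)
    have hπτ : (∑ l ∈ s, x l * (1 - h i l)) * τ i ≤ 3 * d i + 2 * (m * A) := by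
      have di := H.d0 i hi
      have k1 : (∑ l ∈ s, x l * (1 - h i l)) * τ i ≤ ∑ l ∈ s, (3 * d i * x l + 2 * (x l * d l)) := by
        rw [sum_mul]
        refine sum_le_sum fun l hl => ?_
        have dl := H.d0 l hl
        have k2 : (1 - h i l) * τ i ≤ 3 * d i + 2 * d l := by
          rcases (H.h1 i hi l hl).eq_or_lt with h1 | h1
          · rw [h1]; linarith
          · have k3 := H.k3 i hi l hl h1
            rw [e1] at k3
            have k4 := mul_nonneg (hw0 l hl) (H.lm0 i hi)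
            have k5 := mul_le_mul_of_nonneg_right hγ1 (add_nonneg di dl)
            have k6 := mul_le_of_le_one_left t0 (hw1 l hl)
            linarith
        have := mul_le_mul_of_nonneg_left k2 (H.x0 l hl)
        linarith
      rw [sum_add_distrib, ← mul_sum, ← mul_sum, hm, hA] at k1
      have := mul_le_of_le_one_right di hm1
      linarith
    rw [e2] at ε1
    rw [e1] at ε2
    have L2 := step3 γ m _ (d i) (m * A) t (τ i) (ε i) _ _ hγ0 hγ1 hm0 hm1 hπ0 hπ1 (H.d0 i hi) ha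
      t0 t1 (nm_sub (τ i) t (d i) t1) (np_sub (τ i) t (d i) t1) ε1 ε2
    have L3 := mul_le_mul_of_nonneg_left hπτ (by positivity : 0 ≤ 4 * γ ^ 2)
    have L4 : m * (γ ^ 2 * d i) ≤ γ ^ 2 * d i :=
      mul_le_of_le_one_left (by have := H.d0 i hi; positivity) hm1
    rw [un2_eq E s x d m A (τ i) (d i) (g i) hm hA hpos.ne']
    simp only [e1, e2]
    refine le_trans ?_ (add_le_add L1 le_rfl)
    rw [← mul_add]
    refine mul_le_mul_of_nonneg_left ?_ hm0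
    linarith

end Vale.Agent.P334
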