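import Vale.Agent.P334.Stmts3

/-! The openings of the own share. -/

namespace Vale.Agent.P334

open Finset

namespace Inside2Aux

theorem nm0 (t e : ℚ) : 0 ≤ nm t e := le_max_right _ _

theorem np0 (t : ℚ) {e : ℚ} (he : 0 ≤ e) : 0 ≤ np t e :=
  le_min (le_max_right _ _) (by linarith)

theorem np3 (t e : ℚ) : np t e ≤ 3 * e := min_le_right _ _

theorem c_bd {E : ℕ} (hn : CNStmt E) {m : ℚ} (m0 : 0 ≤ m) (m1 : m ≤ 1) :
    1 ≤ cN E m ∧ cN E m ≤ 7 / 4 :=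
  ⟨hn.zero ▸ hn.mono 0 m le_rfl m0, (hn.mono m 1 m0 m1).trans hn.up⟩

theorem del_bd {E : ℕ} (hE : 10000 ≤ E) :
    0 < 1 / (E : ℚ) ^ 2 ∧ 1 / (E : ℚ) ^ 2 ≤ 1 / 10000 := by
  have h : (10000 : ℚ) ≤ E := by exact_mod_cast hE
  exact ⟨by positivity, one_div_le_one_div_of_le (by norm_num) (by nlinarith)⟩

/-- An upper bound for the potential. -/
theorem psi_up {E : ℕ} (hE : 10000 ≤ E) (hn : CNStmt E) {s : Finset ℕ} {x d : ℕ → ℚ} {m t : ℚ}
    (x0 : ∀ i ∈ s, 0 ≤ x i) (hm : ∑ i ∈ s, x i ≤ m) (m1 : m ≤ 1) (d0 : ∀ i ∈ s, 0 ≤ d i)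
    (ht : 0 ≤ t) : psiV2 E s x d t ≤ t + 2 * m * (1 / (E : ℚ) ^ 2) * t -
      ∑ i ∈ s, x i * (t - (cN E m + 100 / E) * d i - nm t (d i) / 22) := by
  have m0 : 0 ≤ ∑ i ∈ s, x i := sum_nonneg x0
  obtain ⟨δ0, -⟩ := del_bd hE
  have hc := hn.mono _ _ m0 hm
  have a0 : 0 ≤ ∑ j ∈ s, x j * d j := sum_nonneg fun j hj => mul_nonneg (x0 j hj) (d0 j hj)
  have U0 : 0 ≤ ∑ j ∈ s, x j * nm t (d j) :=
    sum_nonneg fun j hj => mul_nonneg (x0 j hj) (nm0 _ _)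
  have W0 : 0 ≤ ∑ j ∈ s, x j * np t (d j) :=
    sum_nonneg fun j hj => mul_nonneg (x0 j hj) (np0 _ (d0 j hj))
  have e : ∑ i ∈ s, x i * (t - (cN E m + 100 / E) * d i - nm t (d i) / 22) =
      (∑ i ∈ s, x i) * t - (cN E m + 100 / E) * ∑ i ∈ s, x i * d i -
        (∑ i ∈ s, x i * nm t (d i)) / 22 := by
    rw [sum_mul, mul_sum, sum_div, ← sum_sub_distrib, ← sum_sub_distrib]
    exact sum_congr rfl fun i _ => by ring
  rw [e]
  unfold psiV2 psi2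
  have e1 : 2 * (∑ i ∈ s, x i) / (E : ℚ) ^ 2 = 2 * (∑ i ∈ s, x i) * (1 / (E : ℚ) ^ 2) := by ring
  rw [e1]
  generalize ∑ i ∈ s, x i = m' at *
  generalize ∑ i ∈ s, x i * d i = a at *
  generalize ∑ i ∈ s, x i * nm t (d i) = U at *
  generalize ∑ i ∈ s, x i * np t (d i) = W at *
  generalize 1 / (E : ℚ) ^ 2 = δ at *
  generalize (100 : ℚ) / E = η at *
  have h1 := mul_le_mul_of_nonneg_right hc a0
  have h2 : 0 ≤ m' * U := mul_nonneg m0 U0
  have h3 : 0 ≤ m' * (1 - m') * W := mul_nonneg (mul_nonneg m0 (by linarith)) W0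
  have h4 : (1 - m') * m' * (δ * t) ≤ m * (δ * t) :=
    mul_le_mul_of_nonneg_right (by nlinarith) (mul_nonneg δ0.le ht)
  nlinarith

/-- A lower bound for the potential. -/
theorem psi_low {E : ℕ} {s : Finset ℕ} {x d : ℕ → ℚ} {t : ℚ}
    (x0 : ∀ i ∈ s, 0 ≤ x i) (m1 : ∑ i ∈ s, x i ≤ 1) :
    (cN E (∑ i ∈ s, x i) + 100 / E - 3 * (∑ i ∈ s, x i) * (1 - ∑ i ∈ s, x i) / 10) *
      ∑ i ∈ s, x i * d i +
      (1 - ∑ i ∈ s, x i) * (1 + 2 * (∑ i ∈ s, x i) * (1 / (E : ℚ) ^ 2)) * t ≤ psiV2 E s x d t := by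
  have m0 : 0 ≤ ∑ i ∈ s, x i := sum_nonneg x0
  have U0 : 0 ≤ ∑ j ∈ s, x j * nm t (d j) :=
    sum_nonneg fun j hj => mul_nonneg (x0 j hj) (nm0 _ _)
  have W3 : ∑ j ∈ s, x j * np t (d j) ≤ 3 * ∑ j ∈ s, x j * d j := by
    rw [mul_sum]
    refine sum_le_sum fun j hj => ?_
    have := mul_le_mul_of_nonneg_left (np3 t (d j)) (x0 j hj)
    linarith
  unfold psiV2 psi2
  have e1 : 2 * (∑ i ∈ s, x i) / (E : ℚ) ^ 2 = 2 * (∑ i ∈ s, x i) * (1 / (E : ℚ) ^ 2) := by ring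
  rw [e1]
  generalize ∑ i ∈ s, x i = m at *
  generalize ∑ i ∈ s, x i * d i = a at *
  generalize ∑ i ∈ s, x i * nm t (d i) = U at *
  generalize ∑ i ∈ s, x i * np t (d i) = W at *
  have h2 : 0 ≤ (1 - m) * U := mul_nonneg (by linarith) U0
  have h3 := mul_le_mul_of_nonneg_left W3 (mul_nonneg m0 (sub_nonneg.2 m1))
  nlinarith

variable {E : ℕ} {s : Finset ℕ} {x y d lm u q om V : ℕ → ℚ} {h : ℕ → ℕ → ℚ} {t : ℚ}

/-- The gain at distance `e`. -/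
def gnv (E : ℕ) (m τ e : ℚ) : ℚ := max (τ - (22 * cN E m + 3) / 23 * e) 0 - 100 / E * e

/-- The bound from discarding the far points. -/
theorem va_bd (hE : 10000 ≤ E) (hn : CNStmt E) (H : Local2 E s x y d lm u q om V h t) {l : ℕ}
    (hl : l ∈ s) (hy : 0 < y l) :
    V l ≤ min t (d l) + 2 * (∑ i ∈ s, x i) * (1 / (E : ℚ) ^ 2) * min t (d l) -
      ∑ i ∈ s, x i * gnv E (∑ i ∈ s, x i) (min t (d l)) (d i) +
      q l * ∑ i ∈ s, x i * h i l * gnv E (∑ i ∈ s, x i) (min t (d l)) (d i) := by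
  have m0 : 0 ≤ ∑ i ∈ s, x i := sum_nonneg H.x0
  obtain ⟨c0, c1⟩ := c_bd hn m0 H.m1
  have hτ : 0 ≤ min t (d l) := le_min H.t0 (H.d0 l hl)
  have hη : (0 : ℚ) ≤ 100 / E := by positivity
  have hva := H.va l hl hy (min t (d l) / ((22 * cN E (∑ i ∈ s, x i) + 3) / 23))
  generalize min t (d l) = τ at hτ hva ⊢
  have hc' : 0 < (22 * cN E (∑ i ∈ s, x i) + 3) / 23 := by linarith
  have hw : ∀ i ∈ s, 0 ≤ 1 - q l * h i l := fun i hi => by
    have := mul_le_one₀ (H.q1 l hl) (H.h0 i hi l hl) (H.h1 i hi l hl)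
    linarith
  have hw' : ∀ i ∈ s, x i * (1 - q l * h i l) ≤ x i := fun i hi => by
    have := mul_nonneg (H.x0 i hi) (mul_nonneg (H.q0 l hl).le (H.h0 i hi l hl))
    linarith
  have h1 := psi_up hE hn (m := ∑ i ∈ s, x i) (d := d) (t := τ)
    (x := fun i => if d i ≤ τ / ((22 * cN E (∑ i ∈ s, x i) + 3) / 23) then
      x i * (1 - q l * h i l) else 0)
    (fun i hi => by
      split_ifs
      · exact mul_nonneg (H.x0 i hi) (hw i hi)
      · exact le_rfl)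
    (sum_le_sum fun i hi => by
      split_ifs
      · exact hw' i hi
      · exact H.x0 i hi) H.m1 H.d0 hτ
  refine hva.trans (h1.trans ?_)
  have h2 : ∑ i ∈ s, x i * gnv E (∑ i ∈ s, x i) τ (d i) -
      q l * ∑ i ∈ s, x i * h i l * gnv E (∑ i ∈ s, x i) τ (d i) ≤
      ∑ i ∈ s, (if d i ≤ τ / ((22 * cN E (∑ i ∈ s, x i) + 3) / 23) then
        x i * (1 - q l * h i l) else 0) *
        (τ - (cN E (∑ i ∈ s, x i) + 100 / E) * d i - nm τ (d i) / 22) := by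
    rw [mul_sum, ← sum_sub_distrib]
    refine sum_le_sum fun i hi => ?_
    have hd := H.d0 i hi
    have hx := mul_nonneg (H.x0 i hi) (hw i hi)
    have e : x i * gnv E (∑ i ∈ s, x i) τ (d i) -
        q l * (x i * h i l * gnv E (∑ i ∈ s, x i) τ (d i)) =
        x i * (1 - q l * h i l) * gnv E (∑ i ∈ s, x i) τ (d i) := by ring
    rw [e]
    unfold gnv
    split_ifs with hρ
    · rw [le_div_iff₀ hc'] at hρ
      refine mul_le_mul_of_nonneg_left ?_ hx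
      rw [max_eq_left (by linarith)]
      have h3 : nm τ (d i) ≤ (3 - (22 * cN E (∑ i ∈ s, x i) + 3) / 23) * d i :=
        max_le (by linarith) (mul_nonneg (by linarith) hd)
      linarith
    · rw [le_div_iff₀ hc', not_le] at hρ
      rw [max_eq_right (by linarith), zero_mul]
      refine mul_nonpos_of_nonneg_of_nonpos hx ?_
      have := mul_nonneg hη hd
      linarith
  linarith

/-- The bound from keeping all points. -/
theorem vb_bd (hk : KillStmt E) (hd : DropStmt E) (H : Local2 E s x y d lm u q om V h t) {l : ℕ}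
    (hl : l ∈ s) (hy : 0 < y l) :
    V l ≤ psiV2 E s x d t +
      q l * (∑ i ∈ s, x i * h i l * gnv E (∑ i ∈ s, x i) (min t (d l)) (d i) +
      ∑ i ∈ s, x i * h i l * (((22 * cN E (∑ i ∈ s, x i) + 3) / 23 - cN E (∑ i ∈ s, x i) +
        3 * (∑ i ∈ s, x i) * (1 - ∑ i ∈ s, x i) / 10) * d i) +
      2 * (∑ i ∈ s, x i) * (1 / (E : ℚ) ^ 2) * min t (d l)) := by
  have m0 : 0 ≤ ∑ i ∈ s, x i := sum_nonneg H.x0
  have m1 := H.m1
  have hτ : 0 ≤ min t (d l) := le_min H.t0 (H.d0 l hl)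
  have hτt : min t (d l) ≤ t := min_le_left _ _
  have hvb := H.vb l hl hy
  generalize min t (d l) = τ at hτ hτt hvb ⊢
  have hw : ∀ i ∈ s, 0 ≤ 1 - q l * h i l := fun i hi => by
    have := mul_le_one₀ (H.q1 l hl) (H.h0 i hi l hl) (H.h1 i hi l hl)
    linarith
  have hw' : ∀ i ∈ s, x i * (1 - q l * h i l) ≤ x i := fun i hi => by
    have := mul_nonneg (H.x0 i hi) (mul_nonneg (H.q0 l hl).le (H.h0 i hi l hl))
    linarith
  have h1 := hd s x (fun i => x i * (1 - q l * h i l)) d τ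
    (fun i hi => mul_nonneg (H.x0 i hi) (hw i hi)) hw' m1 H.d0 hτ
  have h2 := (hk s x d τ H.x0 m1 H.d0 hτ).2.2 t hτt
  refine hvb.trans (h1.trans (add_le_add h2 ?_))
  have e1 : 2 * (∑ i ∈ s, x i) * (1 / (E : ℚ) ^ 2) * τ =
      ∑ i ∈ s, x i * (2 * (1 / (E : ℚ) ^ 2) * τ) := by
    rw [← sum_mul]
    ring
  have e2 : (2 : ℚ) / (E : ℚ) ^ 2 = 2 * (1 / (E : ℚ) ^ 2) := by ring
  have hδ : 0 ≤ 2 * (1 / (E : ℚ) ^ 2) * τ := by positivity
  rw [e1, e2, ← sum_add_distrib, ← sum_add_distrib, mul_sum]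
  refine sum_le_sum fun i hi => ?_
  have hx := H.x0 i hi
  have hh := H.h0 i hi l hl
  have hq := (H.q0 l hl).le
  have h3 : x i * h i l * (2 * (1 / (E : ℚ) ^ 2) * τ) ≤ x i * (2 * (1 / (E : ℚ) ^ 2) * τ) := by
    refine mul_le_mul_of_nonneg_right ?_ hδ
    have := mul_le_mul_of_nonneg_left (H.h1 i hi l hl) hx
    linarith
  have h4 : (1 + 2 * (1 / (E : ℚ) ^ 2)) * τ - (cN E (∑ i ∈ s, x i) + 100 / E) * d i +
      (∑ i ∈ s, x i) * (1 - ∑ i ∈ s, x i) / 10 * np τ (d i) ≤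
      gnv E (∑ i ∈ s, x i) τ (d i) +
      ((22 * cN E (∑ i ∈ s, x i) + 3) / 23 - cN E (∑ i ∈ s, x i) +
        3 * (∑ i ∈ s, x i) * (1 - ∑ i ∈ s, x i) / 10) * d i + 2 * (1 / (E : ℚ) ^ 2) * τ := by
    unfold gnv
    have h5 := le_max_left (τ - (22 * cN E (∑ i ∈ s, x i) + 3) / 23 * d i) 0
    have h6 := mul_le_mul_of_nonneg_left (np3 τ (d i)) (mul_nonneg m0 (sub_nonneg.2 m1))
    linarith
  have h7 := mul_le_mul_of_nonneg_left h4 (mul_nonneg hx hh)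
  have h8 := mul_le_mul_of_nonneg_left (h7.trans (le_of_eq (by ring :
    _ = x i * h i l * gnv E (∑ i ∈ s, x i) τ (d i) +
      x i * h i l * (((22 * cN E (∑ i ∈ s, x i) + 3) / 23 - cN E (∑ i ∈ s, x i) +
        3 * (∑ i ∈ s, x i) * (1 - ∑ i ∈ s, x i) / 10) * d i) +
      x i * h i l * (2 * (1 / (E : ℚ) ^ 2) * τ)))) hq
  have h9 := mul_le_mul_of_nonneg_left h3 hq
  linarith

/-- The comparison with the bound of the statement. -/
theorem rb_bd (H : Local2 E s x y d lm u q om V h t) {l : ℕ} (hl : l ∈ s) (f : ℚ) :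
    min t (d l) + 4 * (∑ i ∈ s, x i) * (1 / (E : ℚ) ^ 2) * min t (d l) -
      ∑ i ∈ s, x i * gnv E (∑ i ∈ s, x i) (min t (d l)) (d i) +
      ∑ i ∈ s, x i * h i l * gnv E (∑ i ∈ s, x i) (min t (d l)) (d i) +
      f * ∑ i ∈ s, x i * h i l * (((22 * cN E (∑ i ∈ s, x i) + 3) / 23 - cN E (∑ i ∈ s, x i) +
        3 * (∑ i ∈ s, x i) * (1 - ∑ i ∈ s, x i) / 10) * d i) ≤ rb2 E s x d h f l := by
  have m0 : 0 ≤ ∑ i ∈ s, x i := sum_nonneg H.x0
  have m1 := H.m1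
  have hτd : min t (d l) ≤ d l := min_le_right _ _
  generalize min t (d l) = τ at hτd ⊢
  unfold rb2
  have e1 : 4 * (∑ i ∈ s, x i) / (E : ℚ) ^ 2 = 4 * (∑ i ∈ s, x i) * (1 / (E : ℚ) ^ 2) := by ring
  have h1 : 4 * (∑ i ∈ s, x i) * (1 / (E : ℚ) ^ 2) * τ ≤
      4 * (∑ i ∈ s, x i) * (1 / (E : ℚ) ^ 2) * d l :=
    mul_le_mul_of_nonneg_left hτd (by positivity)
  have h2 : ∑ i ∈ s, x i * (1 - h i l) *
        max (d l - (22 * cN E (∑ i ∈ s, x i) + 3) / 23 * d i) 0 -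
      100 / E * ∑ i ∈ s, x i * (1 - h i l) * d i ≤
      ∑ i ∈ s, x i * gnv E (∑ i ∈ s, x i) τ (d i) -
      ∑ i ∈ s, x i * h i l * gnv E (∑ i ∈ s, x i) τ (d i) + (∑ i ∈ s, x i) * (d l - τ) := by
    rw [mul_sum, sum_mul s x (d l - τ), ← sum_sub_distrib, ← sum_sub_distrib,
      ← sum_add_distrib]
    refine sum_le_sum fun i hi => ?_
    have hx := H.x0 i hi
    have hh := H.h0 i hi l hl
    have hw := mul_nonneg hx (sub_nonneg.2 (H.h1 i hi l hl))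
    unfold gnv
    have h3 : max (d l - (22 * cN E (∑ i ∈ s, x i) + 3) / 23 * d i) 0 ≤
        max (τ - (22 * cN E (∑ i ∈ s, x i) + 3) / 23 * d i) 0 + (d l - τ) := by
      have h4 := le_max_left (τ - (22 * cN E (∑ i ∈ s, x i) + 3) / 23 * d i) 0
      have h5 := le_max_right (τ - (22 * cN E (∑ i ∈ s, x i) + 3) / 23 * d i) 0
      exact max_le (by linarith) (by linarith)
    have h6 := mul_le_mul_of_nonneg_left h3 hw
    have h7 := mul_nonneg (mul_nonneg hx hh) (sub_nonneg.2 hτd)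
    linarith
  have h3 : (∑ i ∈ s, x i) * (d l - τ) ≤ 1 * (d l - τ) :=
    mul_le_mul_of_nonneg_right m1 (sub_nonneg.2 hτd)
  rw [e1]
  linarith

/-- The discarding bound without removal. -/
theorem gain_low (H : Local2 E s x y d lm u q om V h t) (τ : ℚ) :
    -(100 / E * ∑ i ∈ s, x i * d i) ≤ ∑ i ∈ s, x i * gnv E (∑ i ∈ s, x i) τ (d i) := by
  rw [mul_sum, ← sum_neg_distrib]
  refine sum_le_sum fun i hi => ?_
  unfold gnv
  have := mul_nonneg (H.x0 i hi)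
    (le_max_right (τ - (22 * cN E (∑ i ∈ s, x i) + 3) / 23 * d i) 0)
  linarith

theorem thr_aux {m c δ a t τ e : ℚ} (m0 : 0 ≤ m) (m1 : m ≤ 1) (c1 : c ≤ 7 / 4) (δ0 : 0 < δ)
    (δ1 : δ ≤ 1 / 10000) (a0 : 0 ≤ a) (hτ : τ ≤ e)
    (h : (c - 3 * m * (1 - m) / 10) * a + (1 - m) * (1 + 2 * m * δ) * t < τ + 2 * m * δ * τ) :
    (c - 3 * m * (1 - m) / 10 - m / 1000) * a + (1 - m) * t < e := by
  by_contra hc
  rw [not_lt] at hc
  have h0 : 0 ≤ m * δ := mul_nonneg m0 δ0.le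
  have h1 := mul_le_mul_of_nonneg_left (hτ.trans hc) (show 0 ≤ 1 + 2 * m * δ by linarith)
  have h2 : (1 + 2 * m * δ) * (c - 3 * m * (1 - m) / 10 - m / 1000) ≤
      c - 3 * m * (1 - m) / 10 := by
    have h3 : c - 3 * m * (1 - m) / 10 - m / 1000 ≤ 7 / 4 := by
      nlinarith [mul_nonneg m0 (sub_nonneg.2 m1)]
    have h4 := mul_le_mul_of_nonneg_left h3 h0
    have h5 := mul_le_mul_of_nonneg_left δ1 m0
    nlinarith
  have h3 := mul_le_mul_of_nonneg_right h2 a0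
  nlinarith

end Inside2Aux

open Inside2Aux in
/-- The openings of the own share. -/
theorem inside_stmt {E : ℕ} (hE : 10000 ≤ E) (hn : CNStmt E) (hk : KillStmt E)
    (hd : DropStmt E) : InsideStmt E := by
  intro s x y d lm u q om V h t H l hl hy
  have m0 : 0 ≤ ∑ i ∈ s, x i := sum_nonneg H.x0
  obtain ⟨c0, c1⟩ := c_bd hn m0 H.m1
  obtain ⟨δ0, δ1⟩ := del_bd hE
  have hq := H.q0 l hl
  have hq1 := H.q1 l hl
  have hτ : 0 ≤ min t (d l) := le_min H.t0 (H.d0 l hl)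
  have hδ : 0 ≤ (∑ i ∈ s, x i) * (1 / (E : ℚ) ^ 2) * min t (d l) := by positivity
  by_cases hc : min t (d l) + 2 * (∑ i ∈ s, x i) * (1 / (E : ℚ) ^ 2) * min t (d l) -
      ∑ i ∈ s, x i * gnv E (∑ i ∈ s, x i) (min t (d l)) (d i) ≤ psiV2 E s x d t
  · refine ⟨0, le_rfl, zero_le_one, fun h0 => absurd h0 (lt_irrefl _), ?_⟩
    have h1 := va_bd hE hn H hl hy
    have h2 := rb_bd H hl 0
    rw [zero_mul, add_zero] at h2
    rw [div_le_iff₀ hq]
    have h3 := mul_le_mul_of_nonneg_left h2 hq.le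
    have h4 := mul_nonneg (sub_nonneg.2 hq1) (sub_nonneg.2 hc)
    have h5 := mul_nonneg hq.le hδ
    linarith
  · rw [not_le] at hc
    refine ⟨1, zero_le_one, le_rfl, fun _ => ?_, ?_⟩
    · have h1 := psi_low (E := E) (d := d) (t := t) H.x0 H.m1
      have h2 := gain_low H (min t (d l))
      have a0 : 0 ≤ ∑ j ∈ s, x j * d j :=
        sum_nonneg fun j hj => mul_nonneg (H.x0 j hj) (H.d0 j hj)
      exact thr_aux m0 H.m1 c1 δ0 δ1 a0 (min_le_right t (d l)) (by linarith)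
    · have h1 := vb_bd hk hd H hl hy
      have h2 := rb_bd H hl 1
      rw [one_mul] at h2
      rw [div_le_iff₀ hq]
      have h3 := mul_le_mul_of_nonneg_left h2 hq.le
      have h4 := mul_le_mul_of_nonneg_left hc.le hq.le
      linarith

end Vale.Agent.P334
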