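import Vale.Agent.P334.Algo2

/-! The statements that connect the parts of the proof of the sharp bound. -/

namespace Vale.Agent.P334

open Finset

/-- The multiplicative weights method solves the relaxation up to an additive error. -/
def MWStmt2 (E : ℕ) : Prop := ∀ (D : Mx) (J F : List ℕ) (k : ℕ) (r : ℚ), Ok D J F → Bdd D r →
  1 ≤ k → k ≤ D.length →
    (∀ i, 0 ≤ (mw2 E D J F k r).getD i 0) ∧ (∀ i, i ∉ F → (mw2 E D J F k r).getD i 0 = 0) ∧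
    ∑ i ∈ range D.length, (mw2 E D J F k r).getD i 0 = k ∧
    ∀ S, Sol F S → S.length ≤ k → lpv D J (mw2 E D J F k r) ≤ cost D J S + r / E

/-- The pseudo-approximation. -/
def PseudoStmt2 (E : ℕ) : Prop := ∀ (D : Mx) (J F : List ℕ) (k : ℕ) (r : ℚ), Ok D J F →
  Bdd D r → 1 ≤ k → k ≤ D.length →
    Sol F (pseudo2 E D J F k r) ∧ (pseudo2 E D J F k r).length ≤ k + cc2 E ∧
    ∀ S, Sol F S → S.length ≤ k →
      cost D J (pseudo2 E D J F k r) ≤ (cN E 1 + 102 / E) * cost D J S + 6 * r / E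

/-- Either few facilities suffice, or guessing finds a good solution. -/
def ReduceStmt2 (E : ℕ) : Prop := ∀ (D : Mx) (J F S T : List ℕ) (k : ℕ) (r : ℚ), Ok D J F →
  0 < r → Sol F S → S.length ≤ k → Sol F T → T.length ≤ k + cc2 E →
  cost D J T ≤ 2 * (cost D J S + r) →
    (∃ S₁, Sol F S₁ ∧ S₁.length + cc2 E ≤ k ∧ cost D J S₁ ≤ cost D J S + (cost D J S + r) / E) ∨
    ∃ W ∈ guess D J F T (tt2 E), Sol F W ∧ W.length ≤ k ∧
      cost D J W ≤ 3 / 2 * (cost D J S + (cost D J S + r) / E)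

/-- The approximation guarantee. -/
def AlgStmt2 (E : ℕ) : Prop := ∀ (D : Mx) (J F : List ℕ) (k : ℕ), Ok D J F → 1 ≤ k →
  k ≤ D.length → Sol F (alg2 E D J F k) ∧ (alg2 E D J F k).length ≤ k ∧
    ∀ S, Sol F S → S.length ≤ k → cost D J (alg2 E D J F k) ≤ (cN E 1 + 120 / E) * cost D J S

/-- The intervals of masses (over `32`) with a lower and an upper line (over `10000`). -/
def ivs : List (ℕ × ℕ × ℕ × ℕ × ℕ × ℕ) :=
  [(0, 2, 10000, 9791, 10000, 10030), (2, 4, 10023, 9397, 10031, 9397),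
   (4, 6, 10071, 9018, 10079, 9018), (6, 8, 10139, 8655, 10147, 8655),
   (8, 10, 10225, 8309, 10233, 8309), (10, 12, 10328, 7979, 10336, 7979),
   (12, 14, 10447, 7664, 10454, 7664), (14, 16, 10579, 7362, 10586, 7362),
   (16, 18, 10722, 7075, 10729, 7075), (18, 20, 10877, 6800, 10884, 6800),
   (20, 22, 11041, 6537, 11048, 6537), (22, 24, 11214, 6286, 11221, 6286),
   (24, 26, 11394, 6046, 11401, 6046), (26, 28, 11581, 5816, 11587, 5816),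
   (28, 30, 11772, 5597, 11779, 5597), (30, 31, 11921, 5438, 11927, 5438),
   (31, 32, 12021, 5335, 12026, 5335)]

/-- The point `(m, c)` lies over the interval `I` between its two lines. -/
def EnvI (I : ℕ × ℕ × ℕ × ℕ × ℕ × ℕ) (m c : ℚ) : Prop :=
  (I.1 : ℚ) ≤ 32 * m ∧ 32 * m ≤ I.2.1 ∧ (I.2.2.1 : ℚ) + I.2.2.2.1 * m ≤ 10000 * c ∧
    10000 * c ≤ I.2.2.2.2.1 + I.2.2.2.2.2 * m

/-- The point `(m, c)` lies in the envelope. -/
def Env (m c : ℚ) : Prop := ∃ I ∈ ivs, EnvI I m c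

/-- The rate of decrease of the price, times `m`. -/
def bt (m c : ℚ) : ℚ := 1 + 3 * m - (1 + m) * c

/-- The properties of the price. -/
structure CNStmt (E : ℕ) : Prop where
  slope : ∀ m' m : ℚ, 0 ≤ m' → m' ≤ m → m ≤ 1 →
    bt m (cN E m) * (m - m') ≤ m * (cN E m - cN E m')
  mono : ∀ m' m : ℚ, 0 ≤ m' → m' ≤ m → cN E m' ≤ cN E m
  zero : cN E 0 = 1
  low : 3 / 2 ≤ cN E 1
  up : cN E 1 ≤ 7 / 4
  bt0 : ∀ m : ℚ, 0 ≤ m → m ≤ 1 → m / 2 ≤ bt m (cN E m)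
  bt1 : ∀ m : ℚ, 0 ≤ m → m ≤ 1 → bt m (cN E m) ≤ 21 / 20 * m
  env : ∀ m : ℚ, 0 ≤ m → m ≤ 1 → Env m (cN E m)
  top : (cN E 1 : ℝ) ≤ 1 + 2 / Real.exp 1 + 2 / E

/-- The potential of a client with shares `x`, distances `d`, and open distance `t`. -/
def psiV2 (E : ℕ) (s : Finset ℕ) (x d : ℕ → ℚ) (t : ℚ) : ℚ :=
  psi2 E (∑ i ∈ s, x i) (∑ i ∈ s, x i * d i) t (∑ i ∈ s, x i * nm t (d i))
    (∑ i ∈ s, x i * np t (d i))

/-- The first order change of the potential when a share at distance `e` decays. -/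
def dcy2 (E : ℕ) (s : Finset ℕ) (x d : ℕ → ℚ) (t e : ℚ) : ℚ :=
  (1 - 2 / (E : ℚ) ^ 2 + 4 * (∑ i ∈ s, x i) / (E : ℚ) ^ 2) * t -
    (cN E (∑ i ∈ s, x i) + 100 / E) * e - (1 - ∑ i ∈ s, x i) / 22 * nm t e +
    (∑ i ∈ s, x i) * (1 - ∑ i ∈ s, x i) / 10 * np t e -
    bt (∑ i ∈ s, x i) (cN E (∑ i ∈ s, x i)) / (∑ i ∈ s, x i) * ∑ i ∈ s, x i * d i +
    (∑ i ∈ s, x i * nm t (d i)) / 22 +
    (1 - 2 * ∑ i ∈ s, x i) / 10 * ∑ i ∈ s, x i * np t (d i)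

/-- The data seen by one client in one step. -/
structure Local2 (E : ℕ) (s : Finset ℕ) (x y d lm u q om V : ℕ → ℚ) (h : ℕ → ℕ → ℚ) (t : ℚ) :
    Prop where
  x0 : ∀ i ∈ s, 0 ≤ x i
  xy : ∀ i ∈ s, x i ≤ y i
  m1 : ∑ i ∈ s, x i ≤ 1
  d0 : ∀ i ∈ s, 0 ≤ d i
  t0 : 0 ≤ t
  lm0 : ∀ i ∈ s, 0 ≤ lm i
  h0 : ∀ i ∈ s, ∀ l ∈ s, 0 ≤ h i l
  h1 : ∀ i ∈ s, ∀ l ∈ s, h i l ≤ 1
  u0 : ∀ i ∈ s, 0 ≤ u i
  tot : ∀ i ∈ s, ∑ l ∈ s, y l * h i l + u i = 1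
  k1 : ∀ i ∈ s, ∀ l ∈ s, 0 < h i l → 5 * h i l * lm i ≤ 13 * (d i + lm i - d l)
  k2 : ∀ i ∈ s, ∀ l ∈ s, 0 < h i l → (1 + 1 / (E : ℚ)) * (d l - d i) ≤ lm i
  k3 : ∀ i ∈ s, ∀ l ∈ s, h i l < 1 →
    5 * (1 - h i l) * lm i ≤ 13 * (d i + d l) - 8 * lm i + 25 / E * (d i + d l)
  k5 : ∀ i ∈ s, lm i ≤ d i + t
  k6 : ∀ i ∈ s, 0 < u i → t ≤ d i + lm i
  q0 : ∀ l ∈ s, 0 < q l
  q1 : ∀ l ∈ s, q l ≤ 1
  om0 : ∀ l ∈ s, 1 - (1 - ∑ i ∈ s, x i * h i l) / (E : ℚ) ^ 2 ≤ om l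
  om1 : ∀ l ∈ s, om l ≤ 1 + 1 / (E : ℚ) ^ 2
  vb : ∀ l ∈ s, 0 < y l → V l ≤ psiV2 E s (fun i => x i * (1 - q l * h i l)) d (min t (d l))
  va : ∀ l ∈ s, 0 < y l → ∀ ρ : ℚ, V l ≤
    psiV2 E s (fun i => if d i ≤ ρ then x i * (1 - q l * h i l) else 0) d (min t (d l))

/-- The potential of a client does not increase on average. -/
def ClientStmt2 (E : ℕ) : Prop := ∀ (s : Finset ℕ) (x y d lm u q om V : ℕ → ℚ) (h : ℕ → ℕ → ℚ)
  (t : ℚ), Local2 E s x y d lm u q om V h t →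
    ∑ l ∈ s, om l * y l / q l * (V l - psiV2 E s x d t) +
      ∑ i ∈ s, u i * x i * dcy2 E s x d t (d i) ≤ 0

/-- The effect of removing mass. -/
def DropStmt (E : ℕ) : Prop := ∀ (s : Finset ℕ) (x x' d : ℕ → ℚ) (t : ℚ),
  (∀ i ∈ s, 0 ≤ x' i) → (∀ i ∈ s, x' i ≤ x i) → ∑ i ∈ s, x i ≤ 1 → (∀ i ∈ s, 0 ≤ d i) → 0 ≤ t →
    psiV2 E s x' d t ≤ psiV2 E s x d t + ∑ i ∈ s, (x i - x' i) *
      ((1 + 2 / (E : ℚ) ^ 2) * t - (cN E (∑ i ∈ s, x i) + 100 / E) * d i +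
        (∑ i ∈ s, x i) * (1 - ∑ i ∈ s, x i) / 10 * np t (d i))

/-- The effect of removing mass at one point. -/
def DecStmt (E : ℕ) : Prop := ∀ (s : Finset ℕ) (x d : ℕ → ℚ) (t δ : ℚ) (l : ℕ),
  (∀ i ∈ s, 0 ≤ x i) → ∑ i ∈ s, x i ≤ 1 → (∀ i ∈ s, 0 ≤ d i) → 0 ≤ t → l ∈ s → 0 ≤ δ → δ ≤ x l →
    psiV2 E s (fun i => x i - if i = l then δ else 0) d t ≤ psiV2 E s x d t +
      δ * dcy2 E s x d t (d l) + δ ^ 2 * (3 / 2 * d l + (∑ i ∈ s, x i * d i) / 2)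

/-- One step keeps validity, reduces the mass, and does not increase the potential. -/
def StepStmt2 (E : ℕ) : Prop := ∀ (D : Mx) (J F : List ℕ) (r : ℚ) (y : List ℚ) (U K : List ℕ)
  (μ e : ℚ) (s : St), Ok D J F → Bdd D r → (∀ i, 0 ≤ y.getD i 0) →
  (∀ i, i ∉ F → y.getD i 0 = 0) → 1 ≤ ∑ i ∈ range D.length, y.getD i 0 → 0 < U.length → 0 ≤ μ →
  6 * (D.length : ℚ) ^ 3 * r ≤ e * (U.length : ℚ) ^ 2 → Good D F y U.length s →
  s.1.sum ≤ K.length →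
    Good D F y U.length (step2 E D J y U K μ e s) ∧
    (step2 E D J y U K μ e s).1.sum ≤ s.1.sum - 1 ∧
    phi2 E D J y U K μ e (step2 E D J y U K μ e s) ≤ phi2 E D J y U K μ e s

/-- The unit cost at distance `d` without the terms of the other points. -/
def cA (m c A d t : ℚ) : ℚ :=
  t - c * d - (1 - m) / 22 * nm t d + m * (1 - m) / 10 * np t d - bt m c * A

/-- The second order unit cost at distance `d`. -/
def cH (m c A d t : ℚ) : ℚ := bt m c * (A + d) / 2 + m ^ 2 / 20 * np t d - m / 44 * nm t d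

/-- The contribution of a point at distance `e` to the unit cost. -/
def cG (m t e : ℚ) : ℚ := m / 22 * nm t e + m * (1 - 2 * m) / 10 * np t e

/-- The left side of the inequality for a pair of points. -/
def lhs (m c A d t h e w f σ g : ℚ) : ℚ :=
  cA m c A d t - t + d + m * bt m c * A +
  (1 - m) * (cG m t e + h * (cH m c A d t + 3 * m ^ 2 / 20 * np t e - m / 44 * nm t e)) +
  max (m * (cG m t e + h * (3 * m ^ 2 / 20 * np t e)) - σ * (e - A) - g) 0 +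
  w * (m * (cA m c A d t + h * cH m c A d t) + g - m * max (e - (22 * c + 3) / 23 * d) 0) +
  f * (1 - w) * (m * ((22 * c + 3) / 23 - c + 3 * m * (1 - m) / 10) * d)

/-- The inequality for pairs of points. -/
def CertAt (m c : ℚ) : Prop := ∀ A : ℚ, 0 ≤ A → ∃ χ : ℚ → ℚ, ∀ d l t : ℚ, 0 ≤ d → 0 ≤ l →
  0 ≤ t → t ≤ d + l → ∃ σ g ν : ℚ, ∀ h e w z f : ℚ, 0 ≤ h → h ≤ 1 → 5 * h * l ≤ 13 * (d + l - t) →
    0 ≤ e → 0 ≤ w → w ≤ 1 → 0 ≤ z → 5 * w * l ≤ max (13 * (d + e) - 8 * l) 0 + z → f ≤ 1 →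
    (0 < f → (m * c - 3 * m ^ 2 * (1 - m) / 10 - m ^ 2 / 1000) * A + (1 - m) * t < e) →
      lhs m c A d t h e w f σ g ≤ χ d - χ e + ν * (e - A) + z

/-- The inequality holds in the envelope. -/
def CertStmt : Prop := ∀ m c : ℚ, Env m c → CertAt m c

end Vale.Agent.P334
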