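import Vale.Agent.P334.MW
import Vale.Agent.P334.Stmts2

/-! The regret bound of the multiplicative weights method, with a parameter. -/

namespace Vale.Agent.P334

open Finset

theorem mwHist2_eq (E : ℕ) (D : Mx) (J F : List ℕ) (k : ℕ) (r : ℚ) :
    mwHist2 E D J F k r = hist D J F k (mwC2 E D r) (un D (100 * E ^ 2) 7).length :=
  foldl_const_iter _ _ _

theorem exists_round2 {E : ℕ} (hE : 0 < E) {D : Mx} {J F : List ℕ} (h : Ok D J F) {r : ℚ} (hb : Bdd D r) {k : ℕ}
    (hk : 1 ≤ k) (hkn : k ≤ D.length) {S : List ℕ} (hS : Sol F S) (hSk : S.length ≤ k) {T : ℕ}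
    (hT : (T : ℚ) = 100 * (E : ℚ) ^ 2 * (D.length : ℚ) ^ 7) :
    ∃ t < T, lpv D J (yv D F k (mwC2 E D r) (hist D J F k (mwC2 E D r) t)) ≤ cost D J S + r / E := by
  have hr := hb.1
  have hn : (0 : ℚ) < D.length := by exact_mod_cast h.pos_len
  have hc : 0 < mwC2 E D r := by unfold mwC2; positivity
  have hTp : (0 : ℚ) < T := by rw [hT]; positivity
  by_contra hne
  push Not at hne
  have hT0 : (range T).Nonempty := nonempty_range_iff.2 (by
    rintro rfl
    simp at hTp)
  have h1 : ∑ _t ∈ range T, r / E < ∑ t ∈ range T,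
      (S.map fun o => gain D (rad D J (yv D F k (mwC2 E D r) (hist D J F k (mwC2 E D r) t))) o -
        mg D F (mwC2 E D r) (hist D J F k (mwC2 E D r) t)
          (rad D J (yv D F k (mwC2 E D r) (hist D J F k (mwC2 E D r) t)))).sum :=
    sum_lt_sum_of_nonempty hT0 fun t ht => by
      have h2 := round_le h hk hc.le (hist D J F k (mwC2 E D r) t) hS.1 hSk
      have h3 := hne t (mem_range.1 ht)
      linarith
  rw [← sum_list_comm, sum_const, card_range, nsmul_eq_mul] at h1
  have h2 := mul_lt_mul_of_pos_left h1 hc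
  rw [← List.sum_map_mul_left] at h2
  have h3 := List.sum_le_sum (l := S) fun o ho => regret h hb hk hc.le (hS.2 o ho) T
  have h4 := h2.trans_le h3
  generalize hB : (D.length : ℚ) + T * (mwC2 E D r * (3 * (D.length : ℚ) ^ 2 * r)) ^ 2 = B at h4
  have hB0 : 0 ≤ B := by rw [← hB]; positivity
  have h5 : (S.map fun _ => B).sum = S.length * B := by simp
  have h6 : (S.length : ℚ) ≤ D.length := by exact_mod_cast hSk.trans hkn
  have h7 := mul_le_mul_of_nonneg_right h6 hB0
  have h8 : (D.length : ℚ) * B = 2 * (D.length : ℚ) ^ 2 := by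
    rw [← hB, hT, mwC2]
    field_simp
    norm_num
  have h9 : mwC2 E D r * (T * (r / E)) = 10 / 3 * (D.length : ℚ) ^ 2 := by
    rw [hT, mwC2]
    field_simp
    norm_num
  have h10 : (0 : ℚ) < (D.length : ℚ) ^ 2 := by positivity
  linarith

theorem mw_stmt2 {E : ℕ} (hE : 10000 ≤ E) : MWStmt2 E := by
  have hE0 : 0 < E := by omega
  intro D J F k r h hb hk hkn
  have hr := hb.1
  have hn : (0 : ℚ) < D.length := by exact_mod_cast h.pos_len
  have hc : 0 < mwC2 E D r := by unfold mwC2; positivity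
  obtain ⟨T, hTe, hT⟩ : ∃ T : ℕ, mwHist2 E D J F k r = hist D J F k (mwC2 E D r) T ∧
      (T : ℚ) = 100 * (E : ℚ) ^ 2 * (D.length : ℚ) ^ 7 :=
    ⟨_, mwHist2_eq E D J F k r, by rw [length_un]; push_cast; ring⟩
  have hT0 : 0 < T := by
    have : (0 : ℚ) < T := by rw [hT]; positivity
    exact_mod_cast this
  have hmw : mw2 E D J F k r = amin (lpv D J) ((List.range T).map fun t =>
      yv D F k (mwC2 E D r) ((hist D J F k (mwC2 E D r) T).drop (t + 1))) := by
    unfold mw2
    rw [hTe, length_hist]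
  have hne : ((List.range T).map fun t =>
      yv D F k (mwC2 E D r) ((hist D J F k (mwC2 E D r) T).drop (t + 1))) ≠ [] :=
    List.ne_nil_of_mem (List.mem_map_of_mem (List.mem_range.2 hT0))
  obtain ⟨t, -, e⟩ := List.mem_map.1 (amin_mem (lpv D J) hne)
  rw [← hmw] at e
  refine ⟨fun i => e ▸ yv_nonneg h k hc.le _ i, fun i hi => e ▸ yv_off D k _ _ hi,
    e ▸ yv_sum h k hc.le _, fun S hS hSk => ?_⟩
  obtain ⟨s, hs, hle⟩ := exists_round2 hE0 h hb hk hkn hS hSk hT
  refine le_trans ?_ hle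
  rw [hmw]
  refine amin_le _ (List.mem_map.2 ⟨T - s - 1, List.mem_range.2 (by omega), ?_⟩)
  have e2 := drop_hist D J F k (mwC2 E D r) (T - s - 1 + 1) s
  rw [show s + (T - s - 1 + 1) = T by omega] at e2
  rw [e2]

end Vale.Agent.P334
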