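import Vale.Agent.P334.Stmts3

/-! The change of the potential when mass is removed. -/

namespace Vale.Agent.P334

open Finset

namespace Pot2Aux

theorem nm0 (t d : ℚ) : 0 ≤ nm t d := le_max_right _ _

theorem nm1 {t d : ℚ} (ht : 0 ≤ t) (hd : 0 ≤ d) : nm t d ≤ 3 * d :=
  max_le (by linarith) (by linarith)

theorem np0 (t : ℚ) {d : ℚ} (hd : 0 ≤ d) : 0 ≤ np t d := le_min (le_max_right _ _) (by linarith)

theorem np1 (t d : ℚ) : np t d ≤ 3 * d := min_le_right _ _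

theorem nm_lip {t t' : ℚ} (h : t ≤ t') (d : ℚ) : nm t d ≤ nm t' d + (t' - t) := by
  have h1 : 3 * d - t' ≤ nm t' d := le_max_left _ _
  have h2 := nm0 t' d
  exact max_le (by linarith) (by linarith)

theorem np_lip {t t' : ℚ} (h : t ≤ t') (d : ℚ) : np t' d ≤ np t d + (t' - t) := by
  have h1 : max (t' - 3 * d) 0 ≤ max (t - 3 * d) 0 + (t' - t) := by
    have a1 := le_max_left (t - 3 * d) 0
    have a2 := le_max_right (t - 3 * d) 0
    exact max_le (by linarith) (by linarith)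
  have h2 : np t' d ≤ max (t' - 3 * d) 0 := min_le_left _ _
  have h3 := np1 t' d
  have h4 : np t' d - (t' - t) ≤ np t d := le_min (by linarith) (by linarith)
  linarith

variable {E : ℕ}

theorem b_lo (hn : CNStmt E) {m : ℚ} (h0 : 0 < m) (h1 : m ≤ 1) : 1 / 2 ≤ bt m (cN E m) / m := by
  rw [le_div_iff₀ h0]
  have := hn.bt0 m h0.le h1
  linarith

theorem b_lo' (hn : CNStmt E) {m X : ℚ} (hX : 0 ≤ X) (hXm : X ≤ m) (h1 : m ≤ 1) :
    X / 2 ≤ bt m (cN E m) / m * X := by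
  rcases hX.eq_or_lt with h | h
  · rw [← h]; simp
  · have := mul_le_mul_of_nonneg_right (b_lo hn (h.trans_le hXm) h1) hX
    linarith

theorem b_hi (hn : CNStmt E) {m : ℚ} (h0 : 0 ≤ m) (h1 : m ≤ 1) : bt m (cN E m) / m ≤ 21 / 20 :=
  div_le_of_le_mul₀ h0 (by norm_num) (hn.bt1 m h0 h1)

theorem c_drop (hn : CNStmt E) {m X : ℚ} (hX : 0 ≤ X) (hXm : X ≤ m) (h1 : m ≤ 1) :
    cN E (m - X) ≤ cN E m - bt m (cN E m) / m * X := by
  rcases hX.eq_or_lt with h | h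
  · rw [← h]; simp
  · have h0 : 0 < m := h.trans_le hXm
    have h2 := hn.slope (m - X) m (by linarith) (by linarith) h1
    have h3 : bt m (cN E m) / m * X ≤ cN E m - cN E (m - X) := by
      rw [div_mul_eq_mul_div, div_le_iff₀ h0]
      linarith
    linarith

theorem kk0 (hn : CNStmt E) {m X t e : ℚ} (hX : 0 ≤ X) (hXm : X ≤ m) (h1 : m ≤ 1) (ht : 0 ≤ t)
    (he : 0 ≤ e) : 0 ≤ X * kk2 E m t e := by
  have a1 := mul_le_mul_of_nonneg_right (b_lo' hn hX hXm h1) he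
  have a2 := mul_le_mul_of_nonneg_left (nm1 ht he) hX
  have a3 : 0 ≤ X * (m * np t e) := mul_nonneg hX (mul_nonneg (hX.trans hXm) (np0 t he))
  have a4 := mul_nonneg hX he
  unfold kk2
  linarith

theorem kk1 (hn : CNStmt E) {m t e : ℚ} (h0 : 0 ≤ m) (h1 : m ≤ 1) (he : 0 ≤ e) :
    kk2 E m t e ≤ 3 / 2 * e := by
  have a1 := mul_le_mul_of_nonneg_right (b_hi hn h0 h1) he
  have a2 := nm0 t e
  have a3 : m * np t e ≤ np t e := mul_le_of_le_one_left (np0 t he) h1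
  have a4 := np1 t e
  unfold kk2
  linarith

/-- The scalar form of the change. -/
theorem sc (hn : CNStmt E) {m X a A u U v V t : ℚ} (hX : 0 ≤ X) (hXm : X ≤ m) (h1 : m ≤ 1)
    (hA : A ≤ a) :
    psi2 E (m - X) (a - A) t (u - U) (v - V) ≤ psi2 E m a t u v +
      (-(cN E m + 100 / E) * A - bt m (cN E m) / m * X * (a - A) +
        t * (X * (1 - 2 / (E : ℚ) ^ 2 + 4 * m / (E : ℚ) ^ 2) - 2 / (E : ℚ) ^ 2 * X ^ 2) -
        (1 - m) / 22 * U + X * (u - U) / 22 + m * (1 - m) / 10 * V +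
        X * (1 - 2 * m + X) / 10 * (v - V)) := by
  have h := mul_le_mul_of_nonneg_right (c_drop hn hX hXm h1) (sub_nonneg.2 hA)
  unfold psi2
  generalize cN E (m - X) = c' at h ⊢
  generalize bt m (cN E m) / m = b at h ⊢
  generalize cN E m = c at h ⊢
  linear_combination h

theorem psi_sub (s : Finset ℕ) (x z d : ℕ → ℚ) (t : ℚ) :
    psiV2 E s (fun i => x i - z i) d t =
      psi2 E (∑ i ∈ s, x i - ∑ i ∈ s, z i) (∑ i ∈ s, x i * d i - ∑ i ∈ s, z i * d i) t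
        (∑ i ∈ s, x i * nm t (d i) - ∑ i ∈ s, z i * nm t (d i))
        (∑ i ∈ s, x i * np t (d i) - ∑ i ∈ s, z i * np t (d i)) := by
  simp only [psiV2, sub_mul, sum_sub_distrib]

theorem lin (s : Finset ℕ) (z f g h : ℕ → ℚ) (α β γ δ : ℚ) :
    ∑ i ∈ s, z i * (α + β * f i + γ * g i + δ * h i) =
      α * ∑ i ∈ s, z i + β * ∑ i ∈ s, z i * f i + γ * ∑ i ∈ s, z i * g i +
        δ * ∑ i ∈ s, z i * h i := by
  simp only [mul_sum, ← sum_add_distrib]
  exact sum_congr rfl fun i _ => by ring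

/-- The second order expansion. -/
theorem core (hn : CNStmt E) {s : Finset ℕ} {x z d : ℕ → ℚ} {t : ℚ} (hz : ∀ i ∈ s, 0 ≤ z i)
    (hzx : ∀ i ∈ s, z i ≤ x i) (h1 : ∑ i ∈ s, x i ≤ 1) (hd : ∀ i ∈ s, 0 ≤ d i) (ht : 0 ≤ t) :
    psiV2 E s (fun i => x i - z i) d t ≤ psiV2 E s x d t + ∑ i ∈ s, z i * dcy2 E s x d t (d i) +
      (∑ i ∈ s, z i) * ∑ i ∈ s, z i * kk2 E (∑ i ∈ s, x i) t (d i) +
      (∑ i ∈ s, z i) ^ 2 / 10 * ∑ i ∈ s, x i * np t (d i) := by
  have hX : 0 ≤ ∑ i ∈ s, z i := sum_nonneg hz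
  have hXm : ∑ i ∈ s, z i ≤ ∑ i ∈ s, x i := sum_le_sum hzx
  have hA : ∑ i ∈ s, z i * d i ≤ ∑ i ∈ s, x i * d i :=
    sum_le_sum fun i hi => mul_le_mul_of_nonneg_right (hzx i hi) (hd i hi)
  have hV : 0 ≤ ∑ i ∈ s, z i * np t (d i) :=
    sum_nonneg fun i hi => mul_nonneg (hz i hi) (np0 t (hd i hi))
  rw [psi_sub]
  refine (sc hn hX hXm h1 hA).trans ?_
  unfold psiV2 dcy2 kk2
  generalize ∑ i ∈ s, x i * d i = a
  generalize ∑ i ∈ s, x i * nm t (d i) = u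
  generalize ∑ i ∈ s, x i * np t (d i) = v
  generalize ∑ i ∈ s, x i = m at h1 ⊢
  generalize bt m (cN E m) / m = b
  generalize cN E m = c
  have e1 := lin s z d (fun i => nm t (d i)) (fun i => np t (d i))
    ((1 - 2 / (E : ℚ) ^ 2 + 4 * m / (E : ℚ) ^ 2) * t - b * a + u / 22 + (1 - 2 * m) / 10 * v)
    (-(c + 100 / E)) (-((1 - m) / 22)) (m * (1 - m) / 10)
  have e2 := lin s z d (fun i => nm t (d i)) (fun i => np t (d i)) 0 b (-(1 / 22)) (m / 10)
  have e3 : ∑ i ∈ s, z i * ((1 - 2 / (E : ℚ) ^ 2 + 4 * m / (E : ℚ) ^ 2) * t -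
      (c + 100 / E) * d i - (1 - m) / 22 * nm t (d i) + m * (1 - m) / 10 * np t (d i) - b * a +
      u / 22 + (1 - 2 * m) / 10 * v) = _ := (sum_congr rfl fun i _ => by ring).trans e1
  have e4 : ∑ i ∈ s, z i * (b * d i - nm t (d i) / 22 + m / 10 * np t (d i)) = _ :=
    (sum_congr rfl fun i _ => by ring).trans e2
  rw [e3, e4]
  generalize ∑ i ∈ s, z i * d i = A
  generalize ∑ i ∈ s, z i * nm t (d i) = U
  generalize ∑ i ∈ s, z i * np t (d i) = V at hV ⊢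
  generalize ∑ i ∈ s, z i = X at hX ⊢
  have a1 : 0 ≤ t * (2 / (E : ℚ) ^ 2 * X ^ 2) := by positivity
  have a2 : 0 ≤ X * V * (1 - m) := mul_nonneg (mul_nonneg hX hV) (sub_nonneg.2 h1)
  have a3 : 0 ≤ X ^ 2 * V := by positivity
  linear_combination a1 + a2 / 10 + a3 / 10

theorem cs (s : Finset ℕ) {x w : ℕ → ℚ} (g : ℕ → ℚ) (hx : ∀ i ∈ s, 0 ≤ x i)
    (hw : ∀ i ∈ s, 0 ≤ w i) :
    2 * ((∑ i ∈ s, x i * g i) * ∑ j ∈ s, w j * g j) ≤
      (∑ i ∈ s, x i * g i ^ 2) * (∑ j ∈ s, w j) + (∑ i ∈ s, x i) * ∑ j ∈ s, w j * g j ^ 2 := by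
  simp only [sum_mul_sum, mul_sum _ _ (2 : ℚ), ← sum_add_distrib]
  refine sum_le_sum fun i hi => sum_le_sum fun j hj => ?_
  have := mul_nonneg (mul_nonneg (hx i hi) (hw j hj)) (sq_nonneg (g i - g j))
  linarith

end Pot2Aux

open Pot2Aux

theorem kill_stmt {E : ℕ} (hE : 10000 ≤ E) (hn : CNStmt E) : KillStmt E := by
  intro s x d t hx h1 hd ht
  have hm : 0 ≤ ∑ i ∈ s, x i := sum_nonneg hx
  have hv : 0 ≤ ∑ i ∈ s, x i * np t (d i) :=
    sum_nonneg fun i hi => mul_nonneg (hx i hi) (np0 t (hd i hi))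
  have hw : ∀ j ∈ s, 0 ≤ x j * kk2 E (∑ i ∈ s, x i) t (d j) := fun j hj =>
    kk0 hn (hx j hj) (single_le_sum hx hj) h1 ht (hd j hj)
  refine ⟨fun g hg0 hg1 => ?_, fun e he => ?_, fun t' ht' => ?_⟩
  · have e0 : (fun i => x i * (1 - g i)) = fun i => x i - x i * g i := by
      funext i; ring
    rw [e0]
    refine (core hn (fun i hi => mul_nonneg (hx i hi) (hg0 i hi))
      (fun i hi => mul_le_of_le_one_right (hx i hi) (hg1 i hi)) h1 hd ht).trans ?_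
    have c1 := cs s g hx hw
    have c2 := mul_le_mul_of_nonneg_right (cs s g hx hx) hv
    unfold un2 hc2
    generalize ∑ i ∈ s, x i * np t (d i) = v at c2 ⊢
    generalize ∑ j ∈ s, x j * kk2 E (∑ i ∈ s, x i) t (d j) = W at c1 ⊢
    generalize dcy2 E s x d t = D
    generalize ∑ i ∈ s, x i = m at c1 c2 ⊢
    generalize kk2 E m t = k at c1 ⊢
    have e1 : ∑ i ∈ s, x i * g i * (D (d i) + g i * ((m * k (d i) + W) / 2 + m / 10 * v)) =
        ∑ i ∈ s, x i * g i * D (d i) + m / 2 * ∑ i ∈ s, x i * k (d i) * g i ^ 2 +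
          (W / 2 + m / 10 * v) * ∑ i ∈ s, x i * g i ^ 2 := by
      simp only [mul_sum, ← sum_add_distrib]
      exact sum_congr rfl fun i _ => by ring
    have e2 : ∑ i ∈ s, x i * g i * k (d i) = ∑ i ∈ s, x i * k (d i) * g i :=
      sum_congr rfl fun i _ => by ring
    rw [e1, e2]
    linear_combination c1 / 2 + c2 / 20
  · have a1 := kk0 hn hm le_rfl h1 ht he
    have a2 := sum_nonneg hw
    unfold hc2
    positivity
  · have a1 : ∑ i ∈ s, x i * nm t (d i) ≤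
        ∑ i ∈ s, x i * nm t' (d i) + (∑ i ∈ s, x i) * (t' - t) := by
      rw [sum_mul, ← sum_add_distrib]
      refine sum_le_sum fun i hi => ?_
      rw [← mul_add]
      exact mul_le_mul_of_nonneg_left (nm_lip ht' _) (hx i hi)
    have a2 : ∑ i ∈ s, x i * np t' (d i) ≤
        ∑ i ∈ s, x i * np t (d i) + (∑ i ∈ s, x i) * (t' - t) := by
      rw [sum_mul, ← sum_add_distrib]
      refine sum_le_sum fun i hi => ?_
      rw [← mul_add]
      exact mul_le_mul_of_nonneg_left (np_lip ht' _) (hx i hi)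
    unfold psiV2 psi2
    generalize ∑ i ∈ s, x i = m at *
    have h2 : 0 ≤ 1 - m := sub_nonneg.2 h1
    have h3 : 0 ≤ t' - t := sub_nonneg.2 ht'
    have b1 := mul_le_mul_of_nonneg_left a1 h2
    have b2 := mul_le_mul_of_nonneg_left a2 (mul_nonneg hm h2)
    have b3 : 0 ≤ (1 - m) * (2 * m / (E : ℚ) ^ 2) * (t' - t) := by positivity
    have b4 : 0 ≤ (1 - m) * (t' - t) * (1 - m / 22 - m ^ 2 / 10) :=
      mul_nonneg (mul_nonneg h2 h3) (by nlinarith)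
    linear_combination b1 / 22 + b2 / 10 + b3 + b4

theorem drop_stmt {E : ℕ} (hE : 10000 ≤ E) (hn : CNStmt E) : DropStmt E := by
  intro s x x' d t hx' hle h1 hd ht
  obtain ⟨z, hz⟩ : ∃ z : ℕ → ℚ, z = fun i => x i - x' i := ⟨_, rfl⟩
  have e0 : x' = fun i => x i - z i := by
    funext i; rw [hz]; ring
  have hz0 : ∀ i ∈ s, 0 ≤ z i := fun i hi => by rw [hz]; exact sub_nonneg.2 (hle i hi)
  have hzx : ∀ i ∈ s, z i ≤ x i := fun i hi => by rw [hz]; exact sub_le_self _ (hx' i hi)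
  have hX : 0 ≤ ∑ i ∈ s, z i := sum_nonneg hz0
  have hXm : ∑ i ∈ s, z i ≤ ∑ i ∈ s, x i := sum_le_sum hzx
  have hA : ∑ i ∈ s, z i * d i ≤ ∑ i ∈ s, x i * d i :=
    sum_le_sum fun i hi => mul_le_mul_of_nonneg_right (hzx i hi) (hd i hi)
  have hU : 0 ≤ ∑ i ∈ s, z i * nm t (d i) :=
    sum_nonneg fun i hi => mul_nonneg (hz0 i hi) (nm0 t _)
  have hV : ∑ i ∈ s, z i * np t (d i) ≤ ∑ i ∈ s, x i * np t (d i) :=
    sum_le_sum fun i hi => mul_le_mul_of_nonneg_right (hzx i hi) (np0 t (hd i hi))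
  have hu3 : ∑ i ∈ s, x i * nm t (d i) - ∑ i ∈ s, z i * nm t (d i) ≤
      3 * (∑ i ∈ s, x i * d i - ∑ i ∈ s, z i * d i) := by
    rw [← sum_sub_distrib, ← sum_sub_distrib, mul_sum]
    refine sum_le_sum fun i hi => ?_
    have := mul_le_mul_of_nonneg_left (nm1 ht (hd i hi)) (sub_nonneg.2 (hzx i hi))
    linarith
  have hv3 : ∑ i ∈ s, x i * np t (d i) - ∑ i ∈ s, z i * np t (d i) ≤
      3 * (∑ i ∈ s, x i * d i - ∑ i ∈ s, z i * d i) := by
    rw [← sum_sub_distrib, ← sum_sub_distrib, mul_sum]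
    refine sum_le_sum fun i hi => ?_
    have := mul_le_mul_of_nonneg_left (np1 t (d i)) (sub_nonneg.2 (hzx i hi))
    linarith
  have hb := mul_le_mul_of_nonneg_right (b_lo' hn hX hXm h1) (sub_nonneg.2 hA)
  have e1 := lin s z d (fun i => nm t (d i)) (fun i => np t (d i)) ((1 + 2 / (E : ℚ) ^ 2) * t)
    (-(cN E (∑ i ∈ s, x i) + 100 / E)) 0 ((∑ i ∈ s, x i) * (1 - ∑ i ∈ s, x i) / 10)
  have e2 : ∑ i ∈ s, (x i - x' i) * ((1 + 2 / (E : ℚ) ^ 2) * t -
      (cN E (∑ i ∈ s, x i) + 100 / E) * d i +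
      (∑ i ∈ s, x i) * (1 - ∑ i ∈ s, x i) / 10 * np t (d i)) = _ :=
    (sum_congr rfl fun i _ => by rw [hz]; ring).trans e1
  rw [e2, e0, psi_sub]
  refine (sc hn hX hXm h1 hA).trans ?_
  unfold psiV2
  generalize ∑ i ∈ s, x i * d i = a at *
  generalize ∑ i ∈ s, x i * nm t (d i) = u at *
  generalize ∑ i ∈ s, x i * np t (d i) = v at *
  generalize ∑ i ∈ s, z i * d i = A at *
  generalize ∑ i ∈ s, z i * nm t (d i) = U at *
  generalize ∑ i ∈ s, z i * np t (d i) = V at *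
  generalize ∑ i ∈ s, z i = X at *
  generalize ∑ i ∈ s, x i = m at *
  have h2 : 0 ≤ 1 - m := sub_nonneg.2 h1
  have a1 : 0 ≤ t * (2 / (E : ℚ) ^ 2 * X ^ 2) := by positivity
  have a2 : 0 ≤ t * X * (4 / (E : ℚ) ^ 2) * (1 - m) := by positivity
  have a3 := mul_nonneg h2 hU
  have a4 := mul_le_mul_of_nonneg_left hu3 hX
  have a5 := mul_le_mul_of_nonneg_left hv3 hX
  have a6 : 0 ≤ X * (v - V) * (2 * m - X) :=
    mul_nonneg (mul_nonneg hX (sub_nonneg.2 hV)) (by linarith)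
  have a7 := mul_nonneg hX (sub_nonneg.2 hA)
  linear_combination hb + a1 + a2 + a3 / 22 + a4 / 22 + a5 / 10 + a6 / 10 + 7 / 110 * a7

theorem dec_stmt {E : ℕ} (hE : 10000 ≤ E) (hn : CNStmt E) : DecStmt E := by
  intro s x d t δ l hx h1 hd ht hl hδ hδx
  have hm : 0 ≤ ∑ i ∈ s, x i := sum_nonneg hx
  have h := core hn (s := s) (x := x) (z := fun i => if i = l then δ else 0) (d := d) (t := t)
    (fun i _ => by split_ifs <;> simp [hδ])
    (fun i hi => by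
      split_ifs with h
      · rw [h]; exact hδx
      · exact hx i hi) h1 hd ht
  simp only [ite_mul, zero_mul, sum_ite_eq', if_pos hl] at h
  refine h.trans ?_
  have a1 := mul_le_mul_of_nonneg_left (kk1 hn (t := t) hm h1 (hd l hl)) (sq_nonneg δ)
  have a2 : ∑ i ∈ s, x i * np t (d i) ≤ 3 * ∑ i ∈ s, x i * d i := by
    rw [mul_sum]
    refine sum_le_sum fun i hi => ?_
    have := mul_le_mul_of_nonneg_left (np1 t (d i)) (hx i hi)
    linarith
  have a3 := mul_le_mul_of_nonneg_left a2 (sq_nonneg δ)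
  have a4 : 0 ≤ δ ^ 2 * ∑ i ∈ s, x i * d i :=
    mul_nonneg (sq_nonneg δ) (sum_nonneg fun i hi => mul_nonneg (hx i hi) (hd i hi))
  linear_combination a1 + a3 / 10 + a4 / 5

end Vale.Agent.P334
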