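import Vale.Agent.P334.Stmts3

/-! The price of the events outside the own share. -/

namespace Vale.Agent.P334

open Finset

namespace Price2Aux

theorem nm0 (t e : ℚ) : 0 ≤ nm t e := le_max_right _ _

theorem nm3 {t e : ℚ} (ht : 0 ≤ t) (he : 0 ≤ e) : nm t e ≤ 3 * e :=
  max_le (by linarith) (by linarith)

theorem np0 (t : ℚ) {e : ℚ} (he : 0 ≤ e) : 0 ≤ np t e :=
  le_min (le_max_right _ _) (by linarith)

theorem np3 (t e : ℚ) : np t e ≤ 3 * e := min_le_right _ _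

theorem b_bd {E : ℕ} (hn : CNStmt E) {m : ℚ} (m0 : 0 ≤ m) (m1 : m ≤ 1) :
    0 ≤ bt m (cN E m) / m ∧ bt m (cN E m) / m ≤ 21 / 20 := by
  have h0 := hn.bt0 m m0 m1
  have h1 := hn.bt1 m m0 m1
  refine ⟨div_nonneg (by linarith) m0, ?_⟩
  rcases m0.eq_or_lt with h | h
  · rw [← h]
    norm_num
  · rw [div_le_iff₀ h]
    exact h1

theorem c_bd {E : ℕ} (hn : CNStmt E) {m : ℚ} (m0 : 0 ≤ m) (m1 : m ≤ 1) :
    1 ≤ cN E m ∧ cN E m ≤ 7 / 4 :=
  ⟨hn.zero ▸ hn.mono 0 m le_rfl m0, (hn.mono m 1 m0 m1).trans hn.up⟩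

theorem g_bd {E : ℕ} (hE : 10000 ≤ E) : 0 < 1 / (E : ℚ) ∧ 1 / (E : ℚ) ≤ 1 / 10000 := by
  have h : (10000 : ℚ) ≤ E := by exact_mod_cast hE
  exact ⟨by positivity, one_div_le_one_div_of_le (by norm_num) h⟩

theorem sum_kk (E : ℕ) (s : Finset ℕ) (x d : ℕ → ℚ) (m t : ℚ) :
    ∑ j ∈ s, x j * kk2 E m t (d j) = bt m (cN E m) / m * ∑ j ∈ s, x j * d j -
      (∑ j ∈ s, x j * nm t (d j)) / 22 + m / 10 * ∑ j ∈ s, x j * np t (d j) := by
  rw [mul_sum, mul_sum, sum_div, ← sum_sub_distrib, ← sum_add_distrib]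
  refine sum_congr rfl fun j _ => ?_
  unfold kk2
  ring

/-- The scalar upper bound. -/
theorem up_aux {m c b γ t e g a U W n p : ℚ} (m0 : 0 ≤ m) (m1 : m ≤ 1) (c1 : 1 ≤ c)
    (b0 : 0 ≤ b) (b1 : b ≤ 21 / 20) (γ0 : 0 < γ) (γ1 : γ ≤ 1 / 10000) (ht : 0 ≤ t) (he : 0 ≤ e)
    (g1 : g ≤ 1) (a0 : 0 ≤ a) (U3 : U ≤ 3 * a) (W0 : 0 ≤ W)
    (W3 : W ≤ 3 * a) (n0 : 0 ≤ n) (p0 : 0 ≤ p) (p3 : p ≤ 3 * e)
    (H0 : 0 ≤ (m * (b * e - n / 22 + m / 10 * p) + (b * a - U / 22 + m / 10 * W)) / 2 +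
      m / 10 * W) :
    (1 - 2 * γ ^ 2 + 4 * m * γ ^ 2) * t - (c + 100 * γ) * e - (1 - m) / 22 * n +
      m * (1 - m) / 10 * p - b * a + U / 22 + (1 - 2 * m) / 10 * W +
      g * ((m * (b * e - n / 22 + m / 10 * p) + (b * a - U / 22 + m / 10 * W)) / 2 +
        m / 10 * W) ≤ 2 * t + 2 * e + 2 * a := by
  have hγ : γ ^ 2 ≤ 1 / 10000 := by nlinarith
  have hγ' : 0 ≤ γ ^ 2 := sq_nonneg γ
  have h1 : (1 - 2 * γ ^ 2 + 4 * m * γ ^ 2) * t ≤ 2 * t :=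
    mul_le_mul_of_nonneg_right (by nlinarith) ht
  have h2 : 0 ≤ (c + 100 * γ) * e := mul_nonneg (by linarith) he
  have h3 : 0 ≤ (1 - m) / 22 * n := mul_nonneg (by linarith) n0
  have h4 : m * (1 - m) / 10 * p ≤ 1 / 10 * p := mul_le_mul_of_nonneg_right (by nlinarith) p0
  have h5 : 0 ≤ b * a := mul_nonneg b0 a0
  have h6 : (1 - 2 * m) / 10 * W ≤ 1 / 10 * W := mul_le_mul_of_nonneg_right (by linarith) W0
  have h7 := mul_le_mul_of_nonneg_right g1 H0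
  have h8 : m * (b * e) ≤ 21 / 20 * e := by
    have : m * b ≤ 21 / 20 := by nlinarith
    nlinarith
  have h9 : 0 ≤ m * n := mul_nonneg m0 n0
  have h10 : m * m * p ≤ 1 * p := mul_le_mul_of_nonneg_right (by nlinarith) p0
  have h11 : b * a ≤ 21 / 20 * a := mul_le_mul_of_nonneg_right b1 a0
  have h12 : m * W ≤ 1 * W := mul_le_mul_of_nonneg_right m1 W0
  nlinarith

/-- The scalar lower bound. -/
theorem low_aux {m c b γ t e a U W n p : ℚ} (m0 : 0 ≤ m) (m1 : m ≤ 1) (c1 : c ≤ 7 / 4)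
    (b1 : b ≤ 21 / 20) (γ0 : 0 < γ) (γ1 : γ ≤ 1 / 10000) (ht : 0 ≤ t) (he : 0 ≤ e)
    (a0 : 0 ≤ a) (U0 : 0 ≤ U) (W0 : 0 ≤ W) (W3 : W ≤ 3 * a) (n0 : 0 ≤ n) (n3 : n ≤ 3 * e)
    (p0 : 0 ≤ p) :
    -(2 * t + 2 * e + 2 * a) ≤
      (1 - 2 * γ ^ 2 + 4 * m * γ ^ 2) * t - (c + 100 * γ) * e - (1 - m) / 22 * n +
      m * (1 - m) / 10 * p - b * a + U / 22 + (1 - 2 * m) / 10 * W := by
  have hγ : γ ^ 2 ≤ 1 / 10000 := by nlinarith
  have hγ' : 0 ≤ γ ^ 2 := sq_nonneg γ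
  have h1 : 0 ≤ (1 - 2 * γ ^ 2 + 4 * m * γ ^ 2) * t :=
    mul_nonneg (by nlinarith [mul_nonneg m0 hγ']) ht
  have h2 : (c + 100 * γ) * e ≤ 176 / 100 * e := mul_le_mul_of_nonneg_right (by linarith) he
  have h3 : (1 - m) / 22 * n ≤ 1 / 22 * n := mul_le_mul_of_nonneg_right (by linarith) n0
  have h4 : 0 ≤ m * (1 - m) / 10 * p :=
    mul_nonneg (div_nonneg (mul_nonneg m0 (by linarith)) (by norm_num)) p0
  have h6 : -1 / 10 * W ≤ (1 - 2 * m) / 10 * W := mul_le_mul_of_nonneg_right (by linarith) W0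
  have h11 : b * a ≤ 21 / 20 * a := mul_le_mul_of_nonneg_right b1 a0
  linarith

/-- The size of the unit cost. -/
theorem un_bd {E : ℕ} (hE : 10000 ≤ E) (hn : CNStmt E) (hk : KillStmt E) {s : Finset ℕ}
    {x d : ℕ → ℚ} {t e g : ℚ} (x0 : ∀ i ∈ s, 0 ≤ x i) (m1 : ∑ i ∈ s, x i ≤ 1)
    (d0 : ∀ i ∈ s, 0 ≤ d i) (ht : 0 ≤ t) (he : 0 ≤ e) (g0 : 0 ≤ g) (g1 : g ≤ 1) :
    |un2 E s x d t e g| ≤ 2 * t + 2 * e + 2 * ∑ j ∈ s, x j * d j := by
  have m0 : 0 ≤ ∑ i ∈ s, x i := sum_nonneg x0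
  obtain ⟨b0, b1⟩ := b_bd hn m0 m1
  obtain ⟨c0, c1⟩ := c_bd hn m0 m1
  obtain ⟨γ0, γ1⟩ := g_bd hE
  have H0 := (hk s x d t x0 m1 d0 ht).2.1 e he
  have a0 : 0 ≤ ∑ j ∈ s, x j * d j := sum_nonneg fun j hj => mul_nonneg (x0 j hj) (d0 j hj)
  have U0 : 0 ≤ ∑ j ∈ s, x j * nm t (d j) :=
    sum_nonneg fun j hj => mul_nonneg (x0 j hj) (nm0 _ _)
  have W0 : 0 ≤ ∑ j ∈ s, x j * np t (d j) :=
    sum_nonneg fun j hj => mul_nonneg (x0 j hj) (np0 _ (d0 j hj))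
  have U3 : ∑ j ∈ s, x j * nm t (d j) ≤ 3 * ∑ j ∈ s, x j * d j := by
    rw [mul_sum]
    refine sum_le_sum fun j hj => ?_
    have := mul_le_mul_of_nonneg_left (nm3 ht (d0 j hj)) (x0 j hj)
    linarith
  have W3 : ∑ j ∈ s, x j * np t (d j) ≤ 3 * ∑ j ∈ s, x j * d j := by
    rw [mul_sum]
    refine sum_le_sum fun j hj => ?_
    have := mul_le_mul_of_nonneg_left (np3 t (d j)) (x0 j hj)
    linarith
  have e1 : ∀ z : ℚ, z / (E : ℚ) ^ 2 = z * (1 / (E : ℚ)) ^ 2 := fun z => by ring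
  have e2 : (100 : ℚ) / E = 100 * (1 / (E : ℚ)) := by ring
  have hD : dcy2 E s x d t e = (1 - 2 * (1 / (E : ℚ)) ^ 2 +
      4 * (∑ i ∈ s, x i) * (1 / (E : ℚ)) ^ 2) * t -
      (cN E (∑ i ∈ s, x i) + 100 * (1 / (E : ℚ))) * e - (1 - ∑ i ∈ s, x i) / 22 * nm t e +
      (∑ i ∈ s, x i) * (1 - ∑ i ∈ s, x i) / 10 * np t e -
      bt (∑ i ∈ s, x i) (cN E (∑ i ∈ s, x i)) / (∑ i ∈ s, x i) * ∑ i ∈ s, x i * d i +
      (∑ i ∈ s, x i * nm t (d i)) / 22 +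
      (1 - 2 * ∑ i ∈ s, x i) / 10 * ∑ i ∈ s, x i * np t (d i) := by
    unfold dcy2
    rw [e1, e1, e2]
  have hH : hc2 E s x d t e = ((∑ i ∈ s, x i) *
      (bt (∑ i ∈ s, x i) (cN E (∑ i ∈ s, x i)) / (∑ i ∈ s, x i) * e - nm t e / 22 +
        (∑ i ∈ s, x i) / 10 * np t e) +
      (bt (∑ i ∈ s, x i) (cN E (∑ i ∈ s, x i)) / (∑ i ∈ s, x i) * ∑ j ∈ s, x j * d j -
      (∑ j ∈ s, x j * nm t (d j)) / 22 + (∑ i ∈ s, x i) / 10 * ∑ j ∈ s, x j * np t (d j))) / 2 +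
      (∑ i ∈ s, x i) / 10 * ∑ i ∈ s, x i * np t (d i) := by
    unfold hc2
    rw [sum_kk]
    rfl
  rw [abs_le]
  constructor
  · have h1 := low_aux (p := np t e) m0 m1 c1 b1 γ0 γ1 ht he a0 U0 W0 W3 (nm0 t e) (nm3 ht he)
      (np0 t he)
    rw [← hD] at h1
    have h2 := mul_nonneg g0 H0
    unfold un2
    linarith
  · rw [hH] at H0
    have h1 := up_aux m0 m1 c0 b0 b1 γ0 γ1 ht he g1 a0 U3 W0 W3 (nm0 t e) (np0 t he)
      (np3 t e) H0
    rw [← hD, ← hH] at h1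
    exact h1

variable {E : ℕ} {s : Finset ℕ} {x y d lm u q om V : ℕ → ℚ} {h : ℕ → ℕ → ℚ} {t : ℚ}

theorem out (H : Local2 E s x y d lm u q om V h t) {i : ℕ} (hi : i ∈ s) {C : ℚ}
    (h1 : ∀ l ∈ s, 0 < h i l → om l * un2 E s x d (min t (d l)) (d i) (h i l) ≤ C)
    (h2 : 0 < u i → dcy2 E s x d t (d i) ≤ C) :
    ∑ l ∈ s, (y l - x l) * h i l * (om l * un2 E s x d (min t (d l)) (d i) (h i l)) +
      u i * dcy2 E s x d t (d i) ≤
      (1 - ∑ j ∈ s, x j + ∑ l ∈ s, x l * (1 - h i l)) * C := by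
  have e : 1 - ∑ j ∈ s, x j + ∑ l ∈ s, x l * (1 - h i l) = ∑ l ∈ s, (y l - x l) * h i l + u i := by
    have := H.tot i hi
    simp only [mul_sub, sub_mul, sum_sub_distrib, mul_one]
    linarith
  rw [e, add_mul, sum_mul]
  refine add_le_add (sum_le_sum fun l hl => ?_) ?_
  · rcases (H.h0 i hi l hl).eq_or_lt with h0 | h0
    · simp [← h0]
    · exact mul_le_mul_of_nonneg_left (h1 l hl h0) (mul_nonneg (sub_nonneg.2 (H.xy l hl)) h0.le)
  · rcases (H.u0 i hi).eq_or_lt with h0 | h0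
    · simp [← h0]
    · exact mul_le_mul_of_nonneg_left (h2 h0) h0.le

theorem om_bd (H : Local2 E s x y d lm u q om V h t) {l : ℕ} (hl : l ∈ s) :
    |om l - 1| ≤ 1 / (E : ℚ) ^ 2 := by
  have h0 := H.om0 l hl
  have h1 := H.om1 l hl
  have hX : 0 ≤ ∑ i ∈ s, x i * h i l :=
    sum_nonneg fun i hi => mul_nonneg (H.x0 i hi) (H.h0 i hi l hl)
  have h2 : (1 - ∑ i ∈ s, x i * h i l) / (E : ℚ) ^ 2 ≤ 1 / (E : ℚ) ^ 2 :=
    div_le_div_of_nonneg_right (by linarith) (by positivity)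
  rw [abs_le]
  constructor <;> linarith

end Price2Aux

open Price2Aux in
/-- The price of the events outside the own share. -/
theorem price_stmt {E : ℕ} (hE : 10000 ≤ E) (hn : CNStmt E) (hk : KillStmt E) : PriceStmt E := by
  intro s x y d lm u q om V h t H i hi
  obtain ⟨γ0, γ1⟩ := g_bd hE
  have hd := H.d0 i hi
  have hl0 := H.lm0 i hi
  have ht := H.t0
  have hE0 : (0 : ℚ) < E := by
    have : (10000 : ℚ) ≤ E := by exact_mod_cast hE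
    linarith
  have a0 : 0 ≤ ∑ j ∈ s, x j * d j := sum_nonneg fun j hj => mul_nonneg (H.x0 j hj) (H.d0 j hj)
  set val : ℕ → ℚ := fun l => un2 E s x d (min t (d l)) (d i) (h i l) +
    max ((om l - 1) * un2 E s x d (min t (d l)) (d i) (h i l)) 0 with hval
  have hv : ∀ l, om l * un2 E s x d (min t (d l)) (d i) (h i l) ≤ val l := fun l => by
    have := le_max_left ((om l - 1) * un2 E s x d (min t (d l)) (d i) (h i l)) 0
    simp only [hval]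
    linarith
  have hdef : 0 < u i → dcy2 E s x d t (d i) = un2 E s x d (min t (d i + lm i)) (d i) 0 :=
    fun hu => by
      rw [min_eq_left (H.k6 i hi hu)]
      unfold un2
      ring
  by_cases hc : ∀ l ∈ s, 0 < h i l → val l ≤ un2 E s x d (min t (d i + lm i)) (d i) 0
  · have h1 := min_le_left t (d i + lm i)
    have h2 := min_le_right t (d i + lm i)
    have h3 : 0 ≤ min t (d i + lm i) := le_min ht (by linarith)
    refine ⟨min t (d i + lm i), 0, 0, h3, h1, h2, le_rfl, zero_le_one, by linarith, le_rfl,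
      div_nonneg (by linarith) (by positivity), div_nonneg (by linarith) hE0.le, ?_⟩
    rw [add_zero]
    exact out H hi (fun l hl h0 => (hv l).trans (hc l hl h0)) fun hu => (hdef hu).le
  · push Not at hc
    obtain ⟨l₀, hl₀, hh₀, hlt⟩ := hc
    obtain ⟨l, hl, hmax⟩ := exists_max_image (s.filter fun l => 0 < h i l) val
      ⟨l₀, mem_filter.2 ⟨hl₀, hh₀⟩⟩
    obtain ⟨hl, hh⟩ := mem_filter.1 hl
    have h1 := min_le_left t (d l)
    have h2 := min_le_right t (d l)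
    have h3 : 0 ≤ min t (d l) := le_min ht (H.d0 l hl)
    have k1 := H.k1 i hi l hl hh
    have k2 := H.k2 i hi l hl hh
    have k5 := H.k5 i hi
    have h4 : 0 ≤ 5 * h i l * lm i := by positivity
    have hu := un_bd hE hn hk H.x0 H.m1 H.d0 h3 hd hh.le (H.h1 i hi l hl)
    have ho := om_bd H hl
    have hε : max ((om l - 1) * un2 E s x d (min t (d l)) (d i) (h i l)) 0 ≤
        (2 * min t (d l) + 2 * d i + 2 * ∑ j ∈ s, x j * d j) / (E : ℚ) ^ 2 := by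
      refine max_le ?_ (div_nonneg (by linarith) (by positivity))
      refine (le_abs_self _).trans ?_
      rw [abs_mul]
      refine (mul_le_mul ho hu (abs_nonneg _) (by positivity)).trans (le_of_eq ?_)
      ring
    refine ⟨min t (d l), h i l, max ((om l - 1) * un2 E s x d (min t (d l)) (d i) (h i l)) 0,
      h3, h1, by linarith, hh.le, H.h1 i hi l hl, by linarith, le_max_right _ _, hε,
      hε.trans ?_, ?_⟩
    · have e1 : (2 * min t (d l) + 2 * d i + 2 * ∑ j ∈ s, x j * d j) / (E : ℚ) ^ 2 =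
          1 / (E : ℚ) * (2 * min t (d l) + 2 * d i + 2 * ∑ j ∈ s, x j * d j) / E := by
        field_simp
      rw [e1]
      refine div_le_div_of_nonneg_right ?_ hE0.le
      have h5 := mul_le_mul_of_nonneg_left h2 γ0.le
      have h6 := mul_le_mul_of_nonneg_right γ1 hd
      have h7 := mul_le_mul_of_nonneg_right γ1 a0
      nlinarith
    · refine out H hi (C := val l)
        (fun l' hl' h0 => (hv l').trans (hmax l' (mem_filter.2 ⟨hl', h0⟩))) fun hu => ?_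
      rw [hdef hu]
      exact hlt.le.trans (hmax l₀ (mem_filter.2 ⟨hl₀, hh₀⟩))

end Vale.Agent.P334
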