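import Vale.Agent.P334.Stmts

/-! The pseudo-approximation: potential descent, cost and count bounds. -/

namespace Vale.Agent.P334

open Finset

/-- The initial state. -/
def st0 (D : Mx) (y : List ℚ) (M o : ℕ) : St :=
  ((List.range D.length).map fun i => ⌊(M : ℚ) * y.getD i 0⌋₊, [o])

theorem st0_getD (D : Mx) (y : List ℚ) (M o i : ℕ) :
    (st0 D y M o).1.getD i 0 = if i < D.length then ⌊(M : ℚ) * y.getD i 0⌋₊ else 0 :=
  getD_map_range _ _ _ _

theorem st0_good (D : Mx) {F : List ℕ} {y : List ℚ} (hy : ∀ i, 0 ≤ y.getD i 0) (M : ℕ) {o : ℕ}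
    (ho : o ∈ F) : Good D F y M (st0 D y M o) where
  len := by simp [st0]
  le i := by
    have h0 : (0 : ℚ) ≤ M * y.getD i 0 := mul_nonneg (Nat.cast_nonneg M) (hy i)
    rw [st0_getD]
    split_ifs
    · exact Nat.floor_le h0
    · simpa using h0
  sol := ⟨by simp [st0], fun i hi => by
    have : i = o := by simpa [st0] using hi
    exact this ▸ ho⟩

theorem st0_sum (D : Mx) {y : List ℚ} (hy : ∀ i, 0 ≤ y.getD i 0) {k : ℕ}
    (hk : ∑ i ∈ range D.length, y.getD i 0 = k) (M o : ℕ) : (st0 D y M o).1.sum ≤ k * M := by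
  have h1 : ((st0 D y M o).1.sum : ℚ) = ∑ i ∈ range D.length, (⌊(M : ℚ) * y.getD i 0⌋₊ : ℚ) := by
    rw [← sum_map_range, st0, Nat.cast_list_sum, List.map_map]
    rfl
  have h2 : ∑ i ∈ range D.length, (⌊(M : ℚ) * y.getD i 0⌋₊ : ℚ) ≤
      ∑ i ∈ range D.length, (M : ℚ) * y.getD i 0 :=
    sum_le_sum fun i _ => Nat.floor_le (mul_nonneg (Nat.cast_nonneg M) (hy i))
  rw [← mul_sum, hk, ← h1, mul_comm] at h2
  exact_mod_cast h2

theorem fold_step (hs : StepStmt) {D : Mx} {J F : List ℕ} {r : ℚ} {y : List ℚ} {U K : List ℕ}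
    {μ e : ℚ} (h : Ok D J F) (hb : Bdd D r) (hy : ∀ i, 0 ≤ y.getD i 0)
    (hF : ∀ i, i ∉ F → y.getD i 0 = 0) (h1 : 1 ≤ ∑ i ∈ range D.length, y.getD i 0)
    (hU : 0 < U.length) (hμ : 0 ≤ μ) (he : 6 * (D.length : ℚ) ^ 3 * r ≤ e * (U.length : ℚ) ^ 2)
    (L : List ℕ) (s : St) (hg : Good D F y U.length s) (hK : s.1.sum ≤ K.length) :
    Good D F y U.length (L.foldl (fun s _ => step D J y U K μ e s) s) ∧
    (L.foldl (fun s _ => step D J y U K μ e s) s).1.sum ≤ s.1.sum - L.length ∧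
    phi D J y U K μ e (L.foldl (fun s _ => step D J y U K μ e s) s) ≤ phi D J y U K μ e s := by
  induction L generalizing s with
  | nil => exact ⟨hg, by simp, le_rfl⟩
  | cons a L ih =>
    obtain ⟨g1, g2, g3⟩ := hs D J F r y U K μ e s h hb hy hF h1 hU hμ he hg hK
    obtain ⟨i1, i2, i3⟩ := ih _ g1 (by omega)
    rw [List.foldl_cons, List.length_cons]
    exact ⟨i1, by omega, i3.trans g3⟩

theorem getD_of_sum_zero {l : List ℕ} (h : l.sum = 0) (i : ℕ) : l.getD i 0 = 0 := by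
  by_cases hi : i < l.length
  · rw [List.getD_eq_getElem _ _ hi]
    have := List.single_le_sum (l := l) (fun _ _ => Nat.zero_le _) _ (List.getElem_mem hi)
    omega
  · exact List.getD_eq_default _ _ (not_lt.1 hi)

theorem phi_end (D : Mx) (J : List ℕ) (y : List ℚ) (U K : List ℕ) (μ e : ℚ) {s : St}
    (h : s.1.sum = 0) : phi D J y U K μ e s = cost D J s.2 + μ * led U K s := by
  have h1 : ∀ j ρ, psiR D y U.length s j ρ = dS D s.2 j := by
    intro j ρ
    have hx : ∀ i, xs D y U.length s j ρ i = 0 := by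
      intro i
      unfold xs yq
      rw [getD_of_sum_zero h]
      simp
    unfold psiR psi
    simp [hx]
  have h2 : ∀ j, psiC D y U.length s j = dS D s.2 j := by
    intro j
    obtain ⟨ρ, -, e⟩ := List.mem_map.1 (lmin_mem (l := (-1 :: (List.range D.length).map
      (dd D j)).map (psiR D y U.length s j)) (by simp))
    unfold psiC
    rw [← e, h1]
  have h3 : res U.length s = 0 := by
    unfold res
    have : (s.1.filter fun a => decide (0 < a)) = [] := by
      refine List.filter_eq_nil_iff.2 fun a ha => ?_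
      have := List.single_le_sum (l := s.1) (fun _ _ => Nat.zero_le _) _ ha
      simp only [decide_eq_true_eq]
      omega
    rw [this, h]
    simp
  unfold phi cost
  rw [h3, funext h2]
  simp

theorem psi_le {m a t a' B δ : ℚ} (hm0 : 0 ≤ m) (hm1 : m ≤ 1) (hm : 1 - δ ≤ m) (ha0 : 0 ≤ a)
    (ha : a ≤ a') (ht0 : 0 ≤ t) (ht : t ≤ B) : psi m a t ≤ 399 / 200 * a' + 2 * δ * B := by
  unfold psi
  have h1 : (399 / 200 - (1 - m) / 4) * a ≤ 399 / 200 * a' := by nlinarith
  have h2 : (1 - m) * (1 + m / 50000) ≤ δ * 2 :=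
    mul_le_mul (by linarith) (by linarith) (by positivity) (by linarith)
  have h3 : (1 - m) * (1 + m / 50000) * t ≤ δ * 2 * B :=
    mul_le_mul h2 ht ht0 (by linarith)
  linarith

theorem psiC_st0 {D : Mx} {J F : List ℕ} (h : Ok D J F) {r : ℚ} (hb : Bdd D r) {y : List ℚ}
    (hy : ∀ i, 0 ≤ y.getD i 0) (h1 : 1 ≤ ∑ i ∈ range D.length, y.getD i 0) {M : ℕ} (hM : 0 < M)
    {o : ℕ} (ho : o ∈ F) {j : ℕ} (hj : j < D.length) :
    psiC D y M (st0 D y M o) j ≤
      399 / 200 * (∑ i ∈ range D.length, xi D y j i * y.getD i 0 * dd D j i) +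
        2 * ((D.length : ℚ) / M) * (3 * D.length * r) := by
  have hM' : (0 : ℚ) < M := by exact_mod_cast hM
  obtain ⟨l, hl, hmax⟩ := (range D.length).exists_max_image (dd D j) ⟨j, mem_range.2 hj⟩
  have h2 : psiC D y M (st0 D y M o) j ≤ psiR D y M (st0 D y M o) j (dd D j l) :=
    lmin_le (List.mem_map_of_mem (List.mem_cons_of_mem _
      (List.mem_map_of_mem (List.mem_range.2 (mem_range.1 hl)))))
  refine h2.trans ?_
  have hx : ∀ i ∈ range D.length, xs D y M (st0 D y M o) j (dd D j l) i =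
      xi D y j i * ((⌊(M : ℚ) * y.getD i 0⌋₊ : ℚ) / M) := by
    intro i hi
    unfold xs yq
    rw [if_pos (hmax i hi), st0_getD, if_pos (mem_range.1 hi)]
  have q0 : ∀ i, 0 ≤ (⌊(M : ℚ) * y.getD i 0⌋₊ : ℚ) / M := fun i => by positivity
  have q1 : ∀ i, (⌊(M : ℚ) * y.getD i 0⌋₊ : ℚ) / M ≤ y.getD i 0 := fun i => by
    rw [div_le_iff₀ hM', mul_comm (y.getD i 0)]
    exact Nat.floor_le (mul_nonneg hM'.le (hy i))
  have q2 : ∀ i, y.getD i 0 - 1 / M ≤ (⌊(M : ℚ) * y.getD i 0⌋₊ : ℚ) / M := fun i => by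
    rw [le_div_iff₀ hM', sub_mul, one_div_mul_cancel hM'.ne', mul_comm (y.getD i 0)]
    exact (Nat.sub_one_lt_floor _).le
  have hx' : ∀ i ∈ range D.length, xs D y M (st0 D y M o) j (dd D j l) i * dd D j i =
      xi D y j i * ((⌊(M : ℚ) * y.getD i 0⌋₊ : ℚ) / M) * dd D j i := fun i hi => by rw [hx i hi]
  unfold psiR
  rw [sum_congr rfl hx, sum_congr rfl hx']
  refine psi_le (sum_nonneg fun i _ => mul_nonneg (xi_nonneg h1 j i) (q0 i)) ?_ ?_
    (sum_nonneg fun i hi => mul_nonneg (mul_nonneg (xi_nonneg h1 j i) (q0 i))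
      (h.nonneg hj (mem_range.1 hi)))
    (sum_le_sum fun i hi => mul_le_mul_of_nonneg_right
      (mul_le_mul_of_nonneg_left (q1 i) (xi_nonneg h1 j i)) (h.nonneg hj (mem_range.1 hi)))
    (h.dS_nonneg (by simp [st0]) (st0_good D hy M ho).sol.2 hj) ?_
  · rw [← sum_xi h1 j]
    exact sum_le_sum fun i _ => mul_le_mul_of_nonneg_left (q1 i) (xi_nonneg h1 j i)
  · have h3 : ∑ i ∈ range D.length, (xi D y j i * y.getD i 0 - 1 / M) ≤
        ∑ i ∈ range D.length, xi D y j i * ((⌊(M : ℚ) * y.getD i 0⌋₊ : ℚ) / M) := by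
      refine sum_le_sum fun i _ => ?_
      have a1 := mul_le_mul_of_nonneg_left (q2 i) (xi_nonneg h1 j i)
      have a2 := mul_le_mul_of_nonneg_right (xi_le_one h1 j i) (one_div_pos.2 hM').le
      rw [mul_sub] at a1
      linarith
    rw [sum_sub_distrib, sum_xi h1 j, sum_const, card_range, nsmul_eq_mul, mul_one_div] at h3
    exact h3
  · exact (dS_le D (O := (st0 D y M o).2) (o := o) (by simp [st0]) j).trans
      (hb.2 j hj o (h.hF o ho))

theorem lpv_nonneg {D : Mx} {J F : List ℕ} (h : Ok D J F) {y : List ℚ}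
    (hy : ∀ i, 0 ≤ y.getD i 0) (h1 : 1 ≤ ∑ i ∈ range D.length, y.getD i 0) : 0 ≤ lpv D J y :=
  List.sum_nonneg fun x hx => by
    obtain ⟨j, hj, rfl⟩ := List.mem_map.1 hx
    exact sum_nonneg fun i hi => mul_nonneg (mul_nonneg (xi_nonneg h1 j i) (hy i))
      (h.nonneg (h.hJ j hj) (mem_range.1 hi))

theorem pow_small_le {x : ℚ} (hx0 : 0 ≤ x) (hx : x ≤ 1 / 2) {M : ℕ} (hM : 0 < M) :
    (1 + x / M) ^ M ≤ 1 + 2 * x := by
  have hM' : (1 : ℚ) ≤ M := by exact_mod_cast hM
  have hq0 : 0 ≤ x / M := by positivity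
  have hq : x / M ≤ 1 / 2 := (div_le_self hx0 hM').trans hx
  have h1 : 1 + (M : ℚ) * -(x / M) ≤ (1 + -(x / M)) ^ M := one_add_mul_le_pow (by linarith) M
  have h2 : (M : ℚ) * -(x / M) = -x := by field_simp
  have h3 : (1 + x / M) ^ M * (1 + -(x / M)) ^ M ≤ 1 := by
    rw [← mul_pow]
    exact pow_le_one₀ (mul_nonneg (by linarith) (by linarith)) (by nlinarith)
  have h4 : 0 ≤ (1 + x / M) ^ M := by positivity
  rw [h2] at h1
  have h5 := mul_le_mul_of_nonneg_left h1 h4
  nlinarith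

theorem led_st0 (D : Mx) (y : List ℚ) (o : ℕ) {U : List ℕ} (K : List ℕ) (hU : 0 < U.length) :
    led U K (st0 D y U.length o) ≤ 1 + 1 / 10 ^ 11 := by
  have hM' : (1 : ℚ) ≤ U.length := by exact_mod_cast hU
  have e : 1 / (2 * 10 ^ 11 * (U.length : ℚ)) = 1 / (2 * 10 ^ 11) / U.length := by
    rw [div_div]
  have h1 := pow_small_le (x := 1 / (2 * 10 ^ 11)) (by norm_num) (by norm_num) hU
  have hq0 : (0 : ℚ) ≤ 1 / (2 * 10 ^ 11) / U.length := by positivity
  have hq : (1 : ℚ) / (2 * 10 ^ 11) / U.length ≤ 1 / 2 :=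
    (div_le_self (by norm_num) hM').trans (by norm_num)
  unfold led
  rw [e]
  generalize (1 : ℚ) / (2 * 10 ^ 11) / U.length = q at h1 hq0 hq
  have h2 : (1 - q) ^ (K.drop (st0 D y U.length o).1.sum).length ≤ 1 :=
    pow_le_one₀ (by linarith) (by linarith)
  have h3 : (st0 D y U.length o).2.length = 1 := rfl
  have h4 : 0 ≤ (1 + q) ^ U.length := by positivity
  rw [h3, pow_one]
  have h5 := mul_le_mul_of_nonneg_left h2 h4
  have h6 : (1 : ℚ) + 2 * (1 / (2 * 10 ^ 11)) = 1 + 1 / 10 ^ 11 := by norm_num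
  linarith

theorem led_end {U K : List ℕ} (hU : 0 < U.length) {k c : ℕ} (hk : k ≤ U.length)
    (hK : K.length = k * U.length) {s : St} (h : s.1.sum = 0) (hc : s.2.length = k + c) :
    (1 + c / (2 * 10 ^ 11)) / 2 ≤ led U K s := by
  have hM' : (1 : ℚ) ≤ U.length := by exact_mod_cast hU
  have hk' : (k : ℚ) ≤ U.length := by exact_mod_cast hk
  unfold led
  rw [h, List.drop_zero, hK, hc]
  obtain ⟨q, hq⟩ : ∃ q : ℚ, q = 1 / (2 * 10 ^ 11 * (U.length : ℚ)) := ⟨_, rfl⟩
  rw [← hq]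
  have hq0 : 0 < q := by rw [hq]; positivity
  have hqM : q * U.length = 1 / (2 * 10 ^ 11) := by rw [hq]; field_simp
  have hq1 : q ≤ 1 / 2 := by nlinarith
  have e : ((1 + q) ^ U.length) ^ (k + c) * (1 - q) ^ (k * U.length) =
      (1 + -q ^ 2) ^ (k * U.length) * (1 + q) ^ (U.length * c) := by
    rw [show 1 + -q ^ 2 = (1 + q) * (1 - q) by ring, mul_pow, ← pow_mul, mul_add, pow_add,
      mul_comm U.length k]
    ring
  rw [e]
  have h1 := one_add_mul_le_pow (a := -q ^ 2) (by nlinarith) (k * U.length)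
  have h2 := one_add_mul_le_pow (a := q) (by linarith) (U.length * c)
  push_cast at h1 h2
  have h3 : (U.length : ℚ) * c * q = c / (2 * 10 ^ 11) := by
    rw [mul_comm, ← mul_assoc, hqM]; ring
  have h4 : (k : ℚ) * U.length * q ^ 2 ≤ 1 / 2 := by
    have a1 : (k : ℚ) * q ≤ U.length * q := mul_le_mul_of_nonneg_right hk' hq0.le
    have a2 : (k : ℚ) * U.length * q ^ 2 = k * q * (q * U.length) := by ring
    rw [a2, hqM]
    rw [mul_comm (U.length : ℚ), hqM] at a1
    norm_num at a1 ⊢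
    linarith
  have h5 : 1 / 2 ≤ (1 + -q ^ 2) ^ (k * U.length) := by linarith
  rw [h3] at h2
  have h6 : (0 : ℚ) ≤ 1 + c / (2 * 10 ^ 11) := by positivity
  have h7 := mul_le_mul h5 h2 h6 (by linarith)
  linarith

theorem led_nonneg {U : List ℕ} (K : List ℕ) (hU : 0 < U.length) (s : St) : 0 ≤ led U K s := by
  have hM' : (1 : ℚ) ≤ U.length := by exact_mod_cast hU
  have h1 : 1 / (2 * 10 ^ 11 * (U.length : ℚ)) ≤ 1 := by
    rw [div_le_one (by positivity)]
    linarith
  unfold led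
  exact mul_nonneg (by positivity) (pow_nonneg (by linarith) _)

theorem phi_st0 {D : Mx} {J F : List ℕ} (h : Ok D J F) {r : ℚ} (hb : Bdd D r) {y : List ℚ}
    (hy : ∀ i, 0 ≤ y.getD i 0) {k : ℕ} (hk1 : 1 ≤ k) (hkn : k ≤ D.length)
    (hk : ∑ i ∈ range D.length, y.getD i 0 = k) {U : List ℕ} (K : List ℕ)
    (hU : (U.length : ℚ) = 10 ^ 6 * (D.length : ℚ) ^ 4) {o : ℕ} (ho : o ∈ F) :
    phi D J y U K ((lpv D J y + r) / 10000) (6 * r / (10 ^ 12 * (D.length : ℚ) ^ 5))
      (st0 D y U.length o) ≤ 19952 / 10000 * lpv D J y + 2 * r / 10000 := by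
  have hr := hb.1
  have hn : (1 : ℚ) ≤ D.length := by exact_mod_cast h.pos_len
  have hM : (0 : ℚ) < U.length := by rw [hU]; positivity
  have hM0 : 0 < U.length := by exact_mod_cast hM
  have h1 : 1 ≤ ∑ i ∈ range D.length, y.getD i 0 := by rw [hk]; exact_mod_cast hk1
  have hl := lpv_nonneg h hy h1
  have a1 : (J.map (psiC D y U.length (st0 D y U.length o))).sum ≤
      (J.map fun j => 399 / 200 * (∑ i ∈ range D.length, xi D y j i * y.getD i 0 * dd D j i) +
        2 * ((D.length : ℚ) / U.length) * (3 * D.length * r)).sum :=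
    List.sum_le_sum fun j hj => psiC_st0 h hb hy h1 hM0 ho (h.hJ j hj)
  rw [List.sum_map_add, List.sum_map_mul_left] at a1
  have a2 : (J.map fun _ => 2 * ((D.length : ℚ) / U.length) * (3 * D.length * r)).sum =
      J.length * (2 * ((D.length : ℚ) / U.length) * (3 * D.length * r)) := by simp
  have a3 : (J.length : ℚ) * (2 * ((D.length : ℚ) / U.length) * (3 * D.length * r)) ≤
      D.length * (2 * ((D.length : ℚ) / U.length) * (3 * D.length * r)) :=
    mul_le_mul_of_nonneg_right (by exact_mod_cast h.lenJ) (by positivity)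
  have a4 : (D.length : ℚ) * (2 * ((D.length : ℚ) / U.length) * (3 * D.length * r)) =
      6 * r / 10 ^ 6 / D.length := by
    rw [hU]; field_simp; norm_num
  have a5 : 6 * r / 10 ^ 6 / D.length ≤ 6 * r / 10 ^ 6 := div_le_self (by positivity) hn
  have b1 := mul_le_mul_of_nonneg_left (led_st0 D y o K hM0)
    (show 0 ≤ (lpv D J y + r) / 10000 by positivity)
  have c1 : res U.length (st0 D y U.length o) ≤ U.length * D.length + D.length * U.length := by
    unfold res
    refine add_le_add (Nat.mul_le_mul_left _ ((List.length_filter_le _ _).trans ?_))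
      ((st0_sum D hy hk _ o).trans (Nat.mul_le_mul_right _ hkn))
    simp [st0]
  have c2 : (res U.length (st0 D y U.length o) : ℚ) ≤
      U.length * D.length + D.length * U.length := by exact_mod_cast c1
  have c3 := mul_le_mul_of_nonneg_left c2
    (show 0 ≤ 6 * r / (10 ^ 12 * (D.length : ℚ) ^ 5) by positivity)
  have c4 : 6 * r / (10 ^ 12 * (D.length : ℚ) ^ 5) *
      ((U.length : ℚ) * D.length + D.length * U.length) = 12 * r / 10 ^ 6 := by
    rw [hU]; field_simp; norm_num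
  unfold phi
  change _ ≤ 399 / 200 * lpv D J y + _ at a1
  norm_num at a5 b1 c4 ⊢
  linarith

theorem rnd_spec (hs : StepStmt) {D : Mx} {J F : List ℕ} (h : Ok D J F) {r : ℚ} (hb : Bdd D r)
    {y : List ℚ} (hy : ∀ i, 0 ≤ y.getD i 0) (hF : ∀ i, i ∉ F → y.getD i 0 = 0) {k : ℕ}
    (hk1 : 1 ≤ k) (hkn : k ≤ D.length) (hk : ∑ i ∈ range D.length, y.getD i 0 = k)
    {U K : List ℕ} (hU : U.length = 10 ^ 6 * D.length ^ 4) (hK : K.length = k * U.length) {o : ℕ}
    (ho : o ∈ F) {O : List ℕ} (hO : O = (rnd D J y U K ((lpv D J y + r) / 10000)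
      (6 * r / (10 ^ 12 * (D.length : ℚ) ^ 5)) o).2) :
    Sol F O ∧ O.length ≤ k + cc ∧ cost D J O ≤ 19952 / 10000 * lpv D J y + 2 * r / 10000 := by
  have hr := hb.1
  have hn0 := h.pos_len
  have hn : (1 : ℚ) ≤ D.length := by exact_mod_cast hn0
  have hU' : (U.length : ℚ) = 10 ^ 6 * (D.length : ℚ) ^ 4 := by rw [hU]; push_cast; ring
  have hM : (0 : ℚ) < U.length := by rw [hU']; positivity
  have hM0 : 0 < U.length := by exact_mod_cast hM
  have h1 : 1 ≤ ∑ i ∈ range D.length, y.getD i 0 := by rw [hk]; exact_mod_cast hk1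
  have hl := lpv_nonneg h hy h1
  have hμ : 0 < (lpv D J y + r) / 10000 := by positivity
  have he : 6 * (D.length : ℚ) ^ 3 * r ≤
      6 * r / (10 ^ 12 * (D.length : ℚ) ^ 5) * (U.length : ℚ) ^ 2 := by
    rw [hU']
    refine le_of_eq ?_
    field_simp
  have hsum := st0_sum D hy hk U.length o
  obtain ⟨g1, g2, g3⟩ := fold_step hs (K := K) h hb hy hF h1 hM0 hμ.le he K (st0 D y U.length o)
    (st0_good D hy _ ho) (by omega)
  have hp := phi_st0 h hb hy hk1 hkn hk K hU' ho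
  obtain ⟨s, hs'⟩ : ∃ s, s = K.foldl (fun s _ => step D J y U K ((lpv D J y + r) / 10000)
    (6 * r / (10 ^ 12 * (D.length : ℚ) ^ 5)) s) (st0 D y U.length o) := ⟨_, rfl⟩
  have hO' : O = s.2 := by rw [hO, hs']; rfl
  rw [← hs'] at g1 g2 g3
  have hz : s.1.sum = 0 := by omega
  rw [phi_end D J y U K _ _ hz, ← hO'] at g3
  have hsol : Sol F O := hO' ▸ g1.sol
  have hc0 := h.cost_nonneg hsol.1 hsol.2
  have hled := mul_nonneg hμ.le (led_nonneg K hM0 s)
  refine ⟨hsol, ?_, by linarith⟩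
  by_contra hlt
  obtain ⟨c, hc⟩ : ∃ c, s.2.length = k + c := ⟨s.2.length - k, by rw [← hO']; omega⟩
  have hcc : cc ≤ c := by rw [hO'] at hlt; omega
  have hkM : k ≤ U.length := by
    rw [hU]
    calc k ≤ D.length := hkn
      _ ≤ D.length ^ 4 := Nat.le_self_pow (by norm_num) _
      _ ≤ 10 ^ 6 * D.length ^ 4 := Nat.le_mul_of_pos_left _ (by norm_num)
  have h2 := led_end hM0 hkM hK hz hc
  have h3 : (10 : ℚ) ^ 17 ≤ c := by
    unfold cc at hcc
    exact_mod_cast hcc
  have h4 : 100000 ≤ led U K s := by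
    refine le_trans ?_ h2
    have h6 : (200000 : ℚ) ≤ c / (2 * 10 ^ 11) := by
      rw [le_div_iff₀ (by norm_num)]
      exact le_trans (by norm_num) h3
    linarith
  have h5 := mul_le_mul_of_nonneg_left h4 hμ.le
  linarith

theorem pseudo_stmt (hm : MWStmt) (hs : StepStmt) : PseudoStmt := by
  intro D J F k r h hb hk hkn
  obtain ⟨m1, m2, m3, m4⟩ := hm D J F k r h hb hk hkn
  have ho : F.headI ∈ F := by
    have := h.neF
    cases F with
    | nil => exact absurd rfl this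
    | cons a F => simp
  have hK : (ul ((List.range D.length).take k) (un D (10 ^ 6) 4)).length =
      k * (un D (10 ^ 6) 4).length := by
    rw [length_ul, List.length_take, List.length_range, min_eq_left hkn]
  obtain ⟨g1, g2, g3⟩ := rnd_spec hs h hb m1 m2 hk hkn m3 (length_un D (10 ^ 6) 4) hK ho
    (O := pseudo D J F k r) rfl
  refine ⟨g1, g2, fun S hS hSk => ?_⟩
  have h1 := m4 S hS hSk
  have hr := hb.1
  linarith

end Vale.Agent.P334
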