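import Vale.Agent.P334.Stmts2
import Vale.Agent.P334.Pseudo

/-! The pseudo-approximation with the accuracy parameter. -/

namespace Vale.Agent.P334

open Finset

namespace Pseudo2Aux

/-- The ledger with the rate `1 / Z`. -/
def ledG (Z : ℚ) (U K : List ℕ) (s : St) : ℚ :=
  ((1 + 1 / (Z * (U.length : ℚ))) ^ U.length) ^ s.2.length *
    (1 - 1 / (Z * (U.length : ℚ))) ^ (K.drop s.1.sum).length

theorem ledG_st0 {Z : ℚ} (hZ : 2 ≤ Z) (D : Mx) (y : List ℚ) (o : ℕ) {U : List ℕ} (K : List ℕ)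
    (hU : 0 < U.length) : ledG Z U K (st0 D y U.length o) ≤ 2 := by
  have hM' : (1 : ℚ) ≤ U.length := by exact_mod_cast hU
  have e : 1 / (Z * (U.length : ℚ)) = 1 / Z / U.length := by rw [div_div]
  have hx0 : 0 ≤ 1 / Z := by positivity
  have hx : 1 / Z ≤ 1 / 2 := one_div_le_one_div_of_le (by norm_num) hZ
  have h1 := pow_small_le hx0 hx hU
  have hq0 : 0 ≤ 1 / Z / U.length := by positivity
  have hq : 1 / Z / U.length ≤ 1 / 2 := (div_le_self hx0 hM').trans hx
  unfold ledG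
  rw [e]
  generalize 1 / Z / U.length = q at h1 hq0 hq
  have h2 : (1 - q) ^ (K.drop (st0 D y U.length o).1.sum).length ≤ 1 :=
    pow_le_one₀ (by linarith) (by linarith)
  have h3 : (st0 D y U.length o).2.length = 1 := rfl
  have h4 : 0 ≤ (1 + q) ^ U.length := by positivity
  rw [h3, pow_one]
  have h5 := mul_le_mul_of_nonneg_left h2 h4
  linarith

theorem ledG_end {Z : ℚ} (hZ : 2 ≤ Z) {U K : List ℕ} (hU : 0 < U.length) {k c : ℕ}
    (hk : k ≤ U.length) (hK : K.length = k * U.length) {s : St} (h : s.1.sum = 0)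
    (hc : s.2.length = k + c) : (1 + c / Z) / 2 ≤ ledG Z U K s := by
  have hM' : (1 : ℚ) ≤ U.length := by exact_mod_cast hU
  have hk' : (k : ℚ) ≤ U.length := by exact_mod_cast hk
  have hx : 1 / Z ≤ 1 / 2 := one_div_le_one_div_of_le (by norm_num) hZ
  have hZ0 : 0 < Z := by linarith
  unfold ledG
  rw [h, List.drop_zero, hK, hc]
  obtain ⟨q, hq⟩ : ∃ q : ℚ, q = 1 / (Z * (U.length : ℚ)) := ⟨_, rfl⟩
  rw [← hq]
  have hq0 : 0 < q := by rw [hq]; positivity
  have hqM : q * U.length = 1 / Z := by rw [hq]; field_simp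
  have hq1 : q ≤ 1 / 2 := by nlinarith
  have e : ((1 + q) ^ U.length) ^ (k + c) * (1 - q) ^ (k * U.length) =
      (1 + -q ^ 2) ^ (k * U.length) * (1 + q) ^ (U.length * c) := by
    rw [show 1 + -q ^ 2 = (1 + q) * (1 - q) by ring, mul_pow, ← pow_mul, mul_add, pow_add,
      mul_comm U.length k]
    ring
  rw [e]
  have h1 := one_add_mul_le_pow (a := -q ^ 2) (by nlinarith) (k * U.length)
  have h2 := one_add_mul_le_pow (a := q) (by linarith) (U.length * c)
  push_cast at h1 h2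
  have h3 : (U.length : ℚ) * c * q = c / Z := by
    rw [mul_comm, ← mul_assoc, hqM]; ring
  have h4 : (k : ℚ) * U.length * q ^ 2 ≤ 1 / 2 := by
    have a1 : (k : ℚ) * q ≤ U.length * q := mul_le_mul_of_nonneg_right hk' hq0.le
    have a2 : (k : ℚ) * U.length * q ^ 2 = k * q * (q * U.length) := by ring
    rw [a2, hqM]
    rw [mul_comm (U.length : ℚ), hqM] at a1
    have a3 : 0 ≤ (k : ℚ) * q := by positivity
    nlinarith
  have h5 : 1 / 2 ≤ (1 + -q ^ 2) ^ (k * U.length) := by linarith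
  rw [h3] at h2
  have h6 : (0 : ℚ) ≤ 1 + c / Z := by positivity
  have h7 := mul_le_mul h5 h2 h6 (by linarith)
  linarith

theorem ledG_nonneg {Z : ℚ} (hZ : 2 ≤ Z) {U : List ℕ} (K : List ℕ) (hU : 0 < U.length) (s : St) :
    0 ≤ ledG Z U K s := by
  have hM' : (1 : ℚ) ≤ U.length := by exact_mod_cast hU
  have hZ0 : 0 < Z := by linarith
  have h1 : 1 / (Z * (U.length : ℚ)) ≤ 1 := by
    rw [div_le_one (by positivity)]
    nlinarith
  unfold ledG
  exact mul_nonneg (by positivity) (pow_nonneg (by linarith) _)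

variable {E : ℕ}

theorem two_le (hE : 10000 ≤ E) : (2 : ℚ) ≤ 20 * (E : ℚ) ^ 4 := by
  have h1 : (1 : ℚ) ≤ E := by exact_mod_cast le_trans (by norm_num) hE
  have := one_le_pow₀ (n := 4) h1
  linarith

theorem fold_step2 (hs : StepStmt2 E) {D : Mx} {J F : List ℕ} {r : ℚ} {y : List ℚ} {U K : List ℕ}
    {μ e : ℚ} (h : Ok D J F) (hb : Bdd D r) (hy : ∀ i, 0 ≤ y.getD i 0)
    (hF : ∀ i, i ∉ F → y.getD i 0 = 0) (h1 : 1 ≤ ∑ i ∈ range D.length, y.getD i 0)
    (hU : 0 < U.length) (hμ : 0 ≤ μ) (he : 6 * (D.length : ℚ) ^ 3 * r ≤ e * (U.length : ℚ) ^ 2)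
    (L : List ℕ) (s : St) (hg : Good D F y U.length s) (hK : s.1.sum ≤ K.length) :
    Good D F y U.length (L.foldl (fun s _ => step2 E D J y U K μ e s) s) ∧
    (L.foldl (fun s _ => step2 E D J y U K μ e s) s).1.sum ≤ s.1.sum - L.length ∧
    phi2 E D J y U K μ e (L.foldl (fun s _ => step2 E D J y U K μ e s) s) ≤
      phi2 E D J y U K μ e s := by
  induction L generalizing s with
  | nil => exact ⟨hg, by simp, le_rfl⟩
  | cons a L ih =>
    obtain ⟨g1, g2, g3⟩ := hs D J F r y U K μ e s h hb hy hF h1 hU hμ he hg hK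
    obtain ⟨i1, i2, i3⟩ := ih _ g1 (by omega)
    rw [List.foldl_cons, List.length_cons]
    exact ⟨i1, by omega, i3.trans g3⟩

theorem phi_end2 (D : Mx) (J : List ℕ) (y : List ℚ) (U K : List ℕ) (μ e : ℚ) {s : St}
    (h : s.1.sum = 0) : phi2 E D J y U K μ e s = cost D J s.2 + μ * led2 E U K s := by
  have h1 : ∀ j ρ, psiR2 E D y U.length s j ρ = dS D s.2 j := by
    intro j ρ
    have hx : ∀ i, xs D y U.length s j ρ i = 0 := by
      intro i
      unfold xs yq
      rw [getD_of_sum_zero h]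
      simp
    unfold psiR2 psi2
    simp [hx]
  have h2 : ∀ j, psiC2 E D y U.length s j = dS D s.2 j := by
    intro j
    obtain ⟨ρ, -, e⟩ := List.mem_map.1 (lmin_mem (l := (-1 :: (List.range D.length).map
      (dd D j)).map (psiR2 E D y U.length s j)) (by simp))
    unfold psiC2
    rw [← e, h1]
  have h3 : res U.length s = 0 := by
    unfold res
    have : (s.1.filter fun a => decide (0 < a)) = [] := by
      refine List.filter_eq_nil_iff.2 fun a ha => ?_
      have := List.single_le_sum (l := s.1) (fun _ _ => Nat.zero_le _) _ ha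
      simp only [decide_eq_true_eq]
      omega
    rw [this, h]
    simp
  unfold phi2 cost
  rw [h3, funext h2]
  simp

theorem psi2_le (hE : 10000 ≤ E) (hn : CNStmt E) {m a t u v a' B δ : ℚ} (hm0 : 0 ≤ m)
    (hm1 : m ≤ 1) (hm : 1 - δ ≤ m) (ha0 : 0 ≤ a) (ha : a ≤ a') (ht0 : 0 ≤ t) (ht : t ≤ B)
    (hu0 : 0 ≤ u) (hu : u ≤ 3 * B) (hv : 0 ≤ v) :
    psi2 E m a t u v ≤ (cN E 1 + 100 / E) * a' + 3 * δ * B := by
  have hE' : (10000 : ℚ) ≤ E := by exact_mod_cast hE
  have hg : (0 : ℚ) ≤ 100 / E := by positivity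
  unfold psi2
  have h1 : (cN E m + 100 / E) * a ≤ (cN E 1 + 100 / E) * a' :=
    mul_le_mul (by linarith [hn.mono m 1 hm0 hm1]) ha ha0 (by linarith [hn.low])
  have h0 : 2 * m / (E : ℚ) ^ 2 ≤ 1 := by
    rw [div_le_one (by positivity)]
    nlinarith
  have h2 : (1 - m) * (1 + 2 * m / (E : ℚ) ^ 2) ≤ δ * 2 :=
    mul_le_mul (by linarith) (by linarith) (by positivity) (by linarith)
  have h3 : (1 - m) * (1 + 2 * m / (E : ℚ) ^ 2) * t ≤ δ * 2 * B :=
    mul_le_mul h2 ht ht0 (by linarith)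
  have h4 : (1 - m) * u ≤ δ * (3 * B) := mul_le_mul (by linarith) hu hu0 (by linarith)
  have h5 : 0 ≤ m * (1 - m) / 10 * v :=
    mul_nonneg (div_nonneg (mul_nonneg hm0 (by linarith)) (by norm_num)) hv
  have h6 : 0 ≤ δ * B := mul_nonneg (by linarith) (by linarith)
  linarith

theorem psiC_st02 (hE : 10000 ≤ E) (hn : CNStmt E) {D : Mx} {J F : List ℕ} (h : Ok D J F) {r : ℚ}
    (hb : Bdd D r) {y : List ℚ} (hy : ∀ i, 0 ≤ y.getD i 0)
    (h1 : 1 ≤ ∑ i ∈ range D.length, y.getD i 0) {M : ℕ} (hM : 0 < M)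
    {o : ℕ} (ho : o ∈ F) {j : ℕ} (hj : j < D.length) :
    psiC2 E D y M (st0 D y M o) j ≤
      (cN E 1 + 100 / E) * (∑ i ∈ range D.length, xi D y j i * y.getD i 0 * dd D j i) +
        3 * ((D.length : ℚ) / M) * (3 * D.length * r) := by
  have hM' : (0 : ℚ) < M := by exact_mod_cast hM
  obtain ⟨l, hl, hmax⟩ := (range D.length).exists_max_image (dd D j) ⟨j, mem_range.2 hj⟩
  have h2 : psiC2 E D y M (st0 D y M o) j ≤ psiR2 E D y M (st0 D y M o) j (dd D j l) :=
    lmin_le (List.mem_map_of_mem (List.mem_cons_of_mem _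
      (List.mem_map_of_mem (List.mem_range.2 (mem_range.1 hl)))))
  refine h2.trans ?_
  have hx : ∀ i ∈ range D.length, xs D y M (st0 D y M o) j (dd D j l) i =
      xi D y j i * ((⌊(M : ℚ) * y.getD i 0⌋₊ : ℚ) / M) := by
    intro i hi
    unfold xs yq
    rw [if_pos (hmax i hi), st0_getD, if_pos (mem_range.1 hi)]
  have q0 : ∀ i, 0 ≤ (⌊(M : ℚ) * y.getD i 0⌋₊ : ℚ) / M := fun i => by positivity
  have q1 : ∀ i, (⌊(M : ℚ) * y.getD i 0⌋₊ : ℚ) / M ≤ y.getD i 0 := fun i => by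
    rw [div_le_iff₀ hM', mul_comm (y.getD i 0)]
    exact Nat.floor_le (mul_nonneg hM'.le (hy i))
  have q2 : ∀ i, y.getD i 0 - 1 / M ≤ (⌊(M : ℚ) * y.getD i 0⌋₊ : ℚ) / M := fun i => by
    rw [le_div_iff₀ hM', sub_mul, one_div_mul_cancel hM'.ne', mul_comm (y.getD i 0)]
    exact (Nat.sub_one_lt_floor _).le
  have ht0 := h.dS_nonneg (O := (st0 D y M o).2) (by simp [st0]) (st0_good D hy M ho).sol.2 hj
  have ht := (dS_le D (O := (st0 D y M o).2) (o := o) (by simp [st0]) j).trans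
    (hb.2 j hj o (h.hF o ho))
  have x0 : ∀ i ∈ range D.length, 0 ≤ xs D y M (st0 D y M o) j (dd D j l) i := fun i hi => by
    rw [hx i hi]
    exact mul_nonneg (xi_nonneg h1 j i) (q0 i)
  have x1 : ∀ i ∈ range D.length,
      xs D y M (st0 D y M o) j (dd D j l) i ≤ xi D y j i * y.getD i 0 := fun i hi => by
    rw [hx i hi]
    exact mul_le_mul_of_nonneg_left (q1 i) (xi_nonneg h1 j i)
  have d0 : ∀ i ∈ range D.length, 0 ≤ dd D j i := fun i hi => h.nonneg hj (mem_range.1 hi)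
  have m1 : ∑ i ∈ range D.length, xs D y M (st0 D y M o) j (dd D j l) i ≤ 1 := by
    rw [← sum_xi h1 j]
    exact sum_le_sum x1
  unfold psiR2
  refine psi2_le hE hn (sum_nonneg x0) m1 ?_
    (sum_nonneg fun i hi => mul_nonneg (x0 i hi) (d0 i hi))
    (sum_le_sum fun i hi => mul_le_mul_of_nonneg_right (x1 i hi) (d0 i hi)) ht0 ht
    (sum_nonneg fun i hi => mul_nonneg (x0 i hi) (le_max_right _ _)) ?_
    (sum_nonneg fun i hi => mul_nonneg (x0 i hi)
      (le_min (le_max_right _ _) (by linarith [d0 i hi])))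
  · have h3 : ∑ i ∈ range D.length, (xi D y j i * y.getD i 0 - 1 / M) ≤
        ∑ i ∈ range D.length, xs D y M (st0 D y M o) j (dd D j l) i := by
      refine sum_le_sum fun i hi => ?_
      have a1 := mul_le_mul_of_nonneg_left (q2 i) (xi_nonneg h1 j i)
      have a2 := mul_le_mul_of_nonneg_right (xi_le_one h1 j i) (one_div_pos.2 hM').le
      rw [mul_sub] at a1
      rw [hx i hi]
      linarith
    rw [sum_sub_distrib, sum_xi h1 j, sum_const, card_range, nsmul_eq_mul, mul_one_div] at h3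
    exact h3
  · have hB : 0 ≤ 3 * (3 * (D.length : ℚ) * r) := by linarith
    refine (sum_le_sum fun i hi => mul_le_mul_of_nonneg_left
      (show nm (dS D (st0 D y M o).2 j) (dd D j i) ≤ 3 * (3 * D.length * r) from
        max_le (by linarith [hb.2 j hj i (mem_range.1 hi)]) hB) (x0 i hi)).trans ?_
    rw [← sum_mul]
    exact mul_le_of_le_one_left hB m1

theorem phi_st02 (hE : 10000 ≤ E) (hc : CNStmt E) {D : Mx} {J F : List ℕ} (h : Ok D J F) {r : ℚ}
    (hb : Bdd D r) {y : List ℚ} (hy : ∀ i, 0 ≤ y.getD i 0) {k : ℕ} (hk1 : 1 ≤ k)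
    (hkn : k ≤ D.length) (hk : ∑ i ∈ range D.length, y.getD i 0 = k) {U : List ℕ} (K : List ℕ)
    (hU : (U.length : ℚ) = 100 * E * (D.length : ℚ) ^ 4) {o : ℕ} (ho : o ∈ F) :
    phi2 E D J y U K ((lpv D J y + r) / E) (6 * r / (10000 * (E : ℚ) ^ 2 * (D.length : ℚ) ^ 5))
      (st0 D y U.length o) ≤ (cN E 1 + 102 / E) * lpv D J y + 4 * r / E := by
  have hr := hb.1
  have hE' : (10000 : ℚ) ≤ E := by exact_mod_cast hE
  have hE0 : (0 : ℚ) < E := by linarith
  have hn : (1 : ℚ) ≤ D.length := by exact_mod_cast h.pos_len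
  have hM : (0 : ℚ) < U.length := by rw [hU]; positivity
  have hM0 : 0 < U.length := by exact_mod_cast hM
  have h1 : 1 ≤ ∑ i ∈ range D.length, y.getD i 0 := by rw [hk]; exact_mod_cast hk1
  have hl := lpv_nonneg h hy h1
  have a1 : (J.map (psiC2 E D y U.length (st0 D y U.length o))).sum ≤
      (J.map fun j => (cN E 1 + 100 / E) *
        (∑ i ∈ range D.length, xi D y j i * y.getD i 0 * dd D j i) +
        3 * ((D.length : ℚ) / U.length) * (3 * D.length * r)).sum :=
    List.sum_le_sum fun j hj => psiC_st02 hE hc h hb hy h1 hM0 ho (h.hJ j hj)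
  rw [List.sum_map_add, List.sum_map_mul_left] at a1
  have a2 : (J.map fun _ => 3 * ((D.length : ℚ) / U.length) * (3 * D.length * r)).sum =
      J.length * (3 * ((D.length : ℚ) / U.length) * (3 * D.length * r)) := by simp
  have a3 : (J.length : ℚ) * (3 * ((D.length : ℚ) / U.length) * (3 * D.length * r)) ≤
      D.length * (3 * ((D.length : ℚ) / U.length) * (3 * D.length * r)) :=
    mul_le_mul_of_nonneg_right (by exact_mod_cast h.lenJ) (by positivity)
  have a4 : (D.length : ℚ) * (3 * ((D.length : ℚ) / U.length) * (3 * D.length * r)) =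
      9 / 100 * (r / E) / D.length := by
    rw [hU]; field_simp; norm_num
  have a5 : 9 / 100 * (r / E) / D.length ≤ 9 / 100 * (r / E) := div_le_self (by positivity) hn
  have b1 : (lpv D J y + r) / E * led2 E U K (st0 D y U.length o) ≤ (lpv D J y + r) / E * 2 :=
    mul_le_mul_of_nonneg_left (ledG_st0 (two_le hE) D y o K hM0) (by positivity)
  have c1 : res U.length (st0 D y U.length o) ≤ U.length * D.length + D.length * U.length := by
    unfold res
    refine add_le_add (Nat.mul_le_mul_left _ ((List.length_filter_le _ _).trans ?_))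
      ((st0_sum D hy hk _ o).trans (Nat.mul_le_mul_right _ hkn))
    simp [st0]
  have c2 : (res U.length (st0 D y U.length o) : ℚ) ≤
      U.length * D.length + D.length * U.length := by exact_mod_cast c1
  have c3 := mul_le_mul_of_nonneg_left c2
    (show 0 ≤ 6 * r / (10000 * (E : ℚ) ^ 2 * (D.length : ℚ) ^ 5) by positivity)
  have c4 : 6 * r / (10000 * (E : ℚ) ^ 2 * (D.length : ℚ) ^ 5) *
      ((U.length : ℚ) * D.length + D.length * U.length) = 12 / 100 * (r / E) := by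
    rw [hU]; field_simp; norm_num
  have e1 : (cN E 1 + 102 / E) * lpv D J y + 4 * r / E =
      (cN E 1 + 100 / E) * lpv D J y + (lpv D J y + r) / E * 2 + 2 * (r / E) := by ring
  have e2 : 0 ≤ r / E := by positivity
  unfold phi2
  change _ ≤ (cN E 1 + 100 / E) * lpv D J y + _ at a1
  linarith

theorem rnd_spec2 (hE : 10000 ≤ E) (hc : CNStmt E) (hs : StepStmt2 E) {D : Mx} {J F : List ℕ}
    (h : Ok D J F) {r : ℚ} (hb : Bdd D r)
    {y : List ℚ} (hy : ∀ i, 0 ≤ y.getD i 0) (hF : ∀ i, i ∉ F → y.getD i 0 = 0) {k : ℕ}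
    (hk1 : 1 ≤ k) (hkn : k ≤ D.length) (hk : ∑ i ∈ range D.length, y.getD i 0 = k)
    {U K : List ℕ} (hU : U.length = 100 * E * D.length ^ 4) (hK : K.length = k * U.length) {o : ℕ}
    (ho : o ∈ F) {O : List ℕ} (hO : O = (rnd2 E D J y U K ((lpv D J y + r) / E)
      (6 * r / (10000 * (E : ℚ) ^ 2 * (D.length : ℚ) ^ 5)) o).2) :
    Sol F O ∧ O.length ≤ k + cc2 E ∧
      cost D J O ≤ (cN E 1 + 102 / E) * lpv D J y + 4 * r / E := by
  have hr := hb.1
  have hE' : (10000 : ℚ) ≤ E := by exact_mod_cast hE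
  have hE0 : (0 : ℚ) < E := by linarith
  have hn0 := h.pos_len
  have hn : (1 : ℚ) ≤ D.length := by exact_mod_cast hn0
  have hU' : (U.length : ℚ) = 100 * E * (D.length : ℚ) ^ 4 := by rw [hU]; push_cast; ring
  have hM : (0 : ℚ) < U.length := by rw [hU']; positivity
  have hM0 : 0 < U.length := by exact_mod_cast hM
  have h1 : 1 ≤ ∑ i ∈ range D.length, y.getD i 0 := by rw [hk]; exact_mod_cast hk1
  have hl := lpv_nonneg h hy h1
  have hμ : 0 < (lpv D J y + r) / E := by positivity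
  have he : 6 * (D.length : ℚ) ^ 3 * r ≤
      6 * r / (10000 * (E : ℚ) ^ 2 * (D.length : ℚ) ^ 5) * (U.length : ℚ) ^ 2 := by
    rw [hU']
    refine le_of_eq ?_
    field_simp
    norm_num
  have hsum := st0_sum D hy hk U.length o
  obtain ⟨g1, g2, g3⟩ := fold_step2 hs (K := K) h hb hy hF h1 hM0 hμ.le he K (st0 D y U.length o)
    (st0_good D hy _ ho) (by omega)
  have hp := phi_st02 hE hc h hb hy hk1 hkn hk K hU' ho
  obtain ⟨s, hs'⟩ : ∃ s, s = K.foldl (fun s _ => step2 E D J y U K ((lpv D J y + r) / E)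
    (6 * r / (10000 * (E : ℚ) ^ 2 * (D.length : ℚ) ^ 5)) s) (st0 D y U.length o) := ⟨_, rfl⟩
  have hO' : O = s.2 := by rw [hO, hs']; rfl
  rw [← hs'] at g1 g2 g3
  have hz : s.1.sum = 0 := by omega
  rw [phi_end2 D J y U K _ _ hz, ← hO'] at g3
  have hsol : Sol F O := hO' ▸ g1.sol
  have hc0 := h.cost_nonneg hsol.1 hsol.2
  have hled : 0 ≤ (lpv D J y + r) / E * led2 E U K s :=
    mul_nonneg hμ.le (ledG_nonneg (two_le hE) K hM0 s)
  refine ⟨hsol, ?_, by linarith⟩
  by_contra hlt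
  obtain ⟨c, hc'⟩ : ∃ c, s.2.length = k + c := ⟨s.2.length - k, by rw [← hO']; omega⟩
  have hcc : cc2 E ≤ c := by rw [hO'] at hlt; omega
  have hkM : k ≤ U.length := by
    rw [hU]
    calc k ≤ D.length := hkn
      _ ≤ D.length ^ 4 := Nat.le_self_pow (by norm_num) _
      _ ≤ 100 * E * D.length ^ 4 := Nat.le_mul_of_pos_left _ (by omega)
  have h2 : (1 + c / (20 * (E : ℚ) ^ 4)) / 2 ≤ led2 E U K s :=
    ledG_end (two_le hE) hM0 hkM hK hz hc'
  have h3 : 100 * (E : ℚ) ^ 5 ≤ c := by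
    unfold cc2 at hcc
    exact_mod_cast hcc
  have h4 : 5 / 2 * (E : ℚ) ≤ led2 E U K s := by
    refine le_trans ?_ h2
    have h6 : 5 * (E : ℚ) ≤ c / (20 * (E : ℚ) ^ 4) := by
      rw [le_div_iff₀ (by positivity)]
      linarith
    linarith
  have h5 := mul_le_mul_of_nonneg_left h4 hμ.le
  have h7 : (lpv D J y + r) / E * (5 / 2 * (E : ℚ)) = 5 / 2 * (lpv D J y + r) := by field_simp
  have h8 : (102 : ℚ) / E ≤ 1 / 4 := by
    rw [div_le_iff₀ hE0]
    linarith
  have h9 : (cN E 1 + 102 / E) * lpv D J y ≤ 2 * lpv D J y :=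
    mul_le_mul_of_nonneg_right (by linarith [hc.up]) hl
  have h10 : 4 * r / E ≤ r := by
    rw [div_le_iff₀ hE0]
    nlinarith
  linarith

end Pseudo2Aux

theorem pseudo_stmt2 {E : ℕ} (hE : 10000 ≤ E) (hn : CNStmt E) (hm : MWStmt2 E)
    (hs : StepStmt2 E) : PseudoStmt2 E := by
  intro D J F k r h hb hk hkn
  obtain ⟨m1, m2, m3, m4⟩ := hm D J F k r h hb hk hkn
  have ho : F.headI ∈ F := by
    have := h.neF
    cases F with
    | nil => exact absurd rfl this
    | cons a F => simp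
  have hK : (ul ((List.range D.length).take k) (un D (100 * E) 4)).length =
      k * (un D (100 * E) 4).length := by
    rw [length_ul, List.length_take, List.length_range, min_eq_left hkn]
  obtain ⟨g1, g2, g3⟩ := Pseudo2Aux.rnd_spec2 hE hn hs h hb m1 m2 hk hkn m3
    (length_un D (100 * E) 4) hK ho (O := pseudo2 E D J F k r) rfl
  refine ⟨g1, g2, fun S hS hSk => ?_⟩
  have h1 := m4 S hS hSk
  have hr := hb.1
  have hE' : (10000 : ℚ) ≤ E := by exact_mod_cast hE
  have hE0 : (0 : ℚ) < E := by linarith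
  have h2 : (0 : ℚ) ≤ 102 / E := by positivity
  have h3 : (102 : ℚ) / E ≤ 1 / 4 := by
    rw [div_le_iff₀ hE0]
    linarith
  have h4 := mul_le_mul_of_nonneg_left h1
    (show 0 ≤ cN E 1 + 102 / E by linarith [hn.low])
  have h5 : (cN E 1 + 102 / E) * (r / E) ≤ 2 * (r / E) :=
    mul_le_mul_of_nonneg_right (by linarith [hn.up]) (by positivity)
  have e : 6 * r / E = 4 * r / E + 2 * (r / E) := by ring
  rw [mul_add] at h4
  linarith

end Vale.Agent.P334
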