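import Vale.Agent.P334.Reduce
import Vale.Agent.P334.Stmts2

/-! From `k + O(1)` facilities to `k` facilities, with a parameter. -/

namespace Vale.Agent.P334

theorem rd_main2 {E q c t : ℕ} (hE : 0 < E) (hq : 3 * E + 1 ≤ 30001 * q) (hc : 1 ≤ c)
    (ht : 400000 * (q * c) < t) (D : Mx) (J F S T : List ℕ) (k : ℕ)
    (r : ℚ) (hD : Ok D J F) (hr : 0 < r) (hS : Sol F S) (hk : S.length ≤ k) (hT : Sol F T)
    (hTl : T.length ≤ k + c) (hTc : cost D J T ≤ 2 * (cost D J S + r)) :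
    (∃ S₁, Sol F S₁ ∧ S₁.length + c ≤ k ∧ cost D J S₁ ≤ cost D J S + (cost D J S + r) / E) ∨
    ∃ W ∈ guess D J F T t, Sol F W ∧ W.length ≤ k ∧
      cost D J W ≤ 3 / 2 * (cost D J S + (cost D J S + r) / E) := by
  have hP := hD.cost_nonneg hS.1 hS.2
  have hE0 : (0 : ℚ) < E := by exact_mod_cast hE
  have hP' : 0 < (cost D J S + r) / E := by positivity
  by_cases h0 : S.length + c ≤ k
  · exact Or.inl ⟨S, hS, h0, by linarith⟩
  have hc0 : (0 : ℚ) < c := by exact_mod_cast hc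
  obtain ⟨b, hb, hcb⟩ : ∃ b : ℚ, 0 < b ∧ c * b = (cost D J S + r) / E :=
    ⟨(cost D J S + r) / E / c, by positivity, mul_div_cancel₀ _ hc0.ne'⟩
  obtain ⟨S', ⟨h1, h2, h3, h4⟩, hmin⟩ := (InvImage.wf List.length Nat.lt_wfRel.wf).has_min
    {S' : List ℕ | Sol F S' ∧ S'.length ≤ k ∧ k ≤ S'.length + c ∧
      cost D J S' ≤ cost D J S + ((k : ℚ) - S'.length) * b}
    ⟨S, hS, hk, by omega, le_add_of_nonneg_right
      (mul_nonneg (sub_nonneg.2 (by exact_mod_cast hk)) hb.le)⟩
  have h5 : cost D J S' ≤ cost D J S + (cost D J S + r) / E := by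
    have h6 : (k : ℚ) ≤ S'.length + c := by exact_mod_cast h3
    have h7 := mul_le_mul_of_nonneg_right (sub_le_iff_le_add'.2 h6) hb.le
    linarith
  by_cases h6 : S'.length + c ≤ k
  · exact Or.inl ⟨S', h1, h6, h5⟩
  have hqc : c ≤ q * c := Nat.le_mul_of_pos_left c (by omega)
  have hcost : cost D J S' + cost D J T ≤ 30001 * ((q * c : ℕ) : ℚ) * b := by
    have e1 : cost D J S + r = E * (c * b) := by
      rw [hcb, mul_div_cancel₀ _ hE0.ne']
    have e2 : (3 * E + 1 : ℚ) ≤ 30001 * q := by exact_mod_cast hq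
    have e3 := mul_le_mul_of_nonneg_right e2 (mul_pos hc0 hb).le
    push_cast
    linarith
  obtain ⟨W, hW, h7, h8, h9⟩ := rd_guess hD h1 hT hb ht (fun o ho hE => by
    by_contra h
    have e := List.length_erase_add_one ho
    have e' : ((S'.erase o).length : ℚ) + 1 = S'.length := by exact_mod_cast e
    refine hmin (S'.erase o) ⟨⟨hE, fun x hx => h1.2 x (List.mem_of_mem_erase hx)⟩, by omega,
      by omega, ?_⟩ (show (S'.erase o).length < S'.length by omega)
    rw [← e'] at h4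
    linarith) hcost (by omega)
  exact Or.inr ⟨W, hW, h7, h8.trans h2, by linarith⟩

theorem reduce_stmt2 {E : ℕ} (hE : 10000 ≤ E) : ReduceStmt2 E := by
  have h5 : 0 < E ^ 5 := by positivity
  refine rd_main2 (q := E / 5000) (by omega) (by omega) (by unfold cc2; omega) ?_
  unfold cc2 tt2
  have h1 : 5000 * (E / 5000) ≤ E := Nat.mul_div_le E 5000
  have h2 := Nat.mul_le_mul_right (E ^ 5) h1
  have h3 : 0 < E * E ^ 5 := by positivity
  rw [pow_succ' E 5]
  linarith

end Vale.Agent.P334
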