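import Vale.Agent.P334.Stmts3

/-! The drift is bounded by the values of the own openings and the prices. -/

namespace Vale.Agent.P334

open Finset

namespace Split2Aux

theorem nm_nonneg (t d : ℚ) : 0 ≤ nm t d := le_max_right _ _

theorem nm_le {t d : ℚ} (ht : 0 ≤ t) (hd : 0 ≤ d) : nm t d ≤ 3 * d :=
  max_le (by linarith) (by linarith)

theorem np_nonneg (t : ℚ) {d : ℚ} (hd : 0 ≤ d) : 0 ≤ np t d :=
  le_min (le_max_right _ _) (by linarith)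

theorem np_le (t d : ℚ) : np t d ≤ 3 * d := min_le_right _ _

theorem g_facts {E : ℕ} (hE : 10000 ≤ E) :
    0 < (E : ℚ) ∧ 0 ≤ 100 / (E : ℚ) ∧ 100 / (E : ℚ) ≤ 1 / 100 ∧ 0 < 1 / (E : ℚ) ^ 2 ∧
      1 / (E : ℚ) ^ 2 ≤ 1 / 4 := by
  have h1 : (10000 : ℚ) ≤ E := by exact_mod_cast hE
  have h0 : (0 : ℚ) < E := by linarith
  refine ⟨h0, by positivity, ?_, by positivity, ?_⟩
  · rw [div_le_div_iff₀ h0 (by norm_num)]; linarith
  · rw [div_le_div_iff₀ (by positivity) (by norm_num)]; nlinarith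

theorem c_facts {E : ℕ} (hn : CNStmt E) {m : ℚ} (m0 : 0 ≤ m) (m1 : m ≤ 1) :
    1 ≤ cN E m ∧ cN E m ≤ 7 / 4 := by
  constructor
  · have := hn.mono 0 m le_rfl m0
    rw [hn.zero] at this; exact this
  · exact (hn.mono m 1 m0 m1).trans hn.up

theorem psi_scalar {c η δ m a t u v : ℚ} (c1 : 1 ≤ c) (c2 : c ≤ 7 / 4) (e0 : 0 ≤ η)
    (e1 : η ≤ 1 / 100) (d0 : 0 < δ) (d1 : δ ≤ 1 / 4) (m0 : 0 ≤ m) (m1 : m ≤ 1) (a0 : 0 ≤ a)
    (t0 : 0 ≤ t) (u0 : 0 ≤ u) (u1 : u ≤ 3 * a) (v0 : 0 ≤ v) (v1 : v ≤ 3 * a) :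
    0 ≤ (c + η) * a + (1 - m) * (1 + 2 * m * δ) * t + (1 - m) / 22 * u - m * (1 - m) / 10 * v ∧
    (c + η) * a + (1 - m) * (1 + 2 * m * δ) * t + (1 - m) / 22 * u - m * (1 - m) / 10 * v ≤
      3 * a + 2 * (1 - m) * t := by
  have h1 : 0 ≤ 1 - m := by linarith
  have hmm : m * (1 - m) ≤ 1 := by nlinarith
  have hmm0 : 0 ≤ m * (1 - m) := mul_nonneg m0 h1
  have hmd : 0 ≤ m * δ := mul_nonneg m0 d0.le
  have hmd1 : m * δ ≤ 1 / 4 := by nlinarith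
  have h2 : 0 ≤ (1 - m) * t := mul_nonneg h1 t0
  have h3 : m * (1 - m) * v ≤ 3 * a := by nlinarith
  have h4 : 0 ≤ m * (1 - m) * v := mul_nonneg hmm0 v0
  have h5 : 0 ≤ (1 - m) * u := mul_nonneg h1 u0
  have h6 : (1 - m) * u ≤ 3 * a := by nlinarith
  have h7 : a ≤ (c + η) * a := by nlinarith
  have h8 : (c + η) * a ≤ 2 * a := by nlinarith
  have h9 : 0 ≤ (1 - m) * t * (m * δ) := mul_nonneg h2 hmd
  have h10 : (1 - m) * t * (m * δ) ≤ (1 - m) * t * (1 / 4) := mul_le_mul_of_nonneg_left hmd1 h2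
  constructor <;> nlinarith

variable {E : ℕ} {s : Finset ℕ} {x y d lm u q om V : ℕ → ℚ} {h : ℕ → ℕ → ℚ} {t : ℚ}

theorem psi_bounds (hE : 10000 ≤ E) (hn : CNStmt E) (H : Local2 E s x y d lm u q om V h t) :
    0 ≤ psiV2 E s x d t ∧
      psiV2 E s x d t ≤ 3 * ∑ j ∈ s, x j * d j + 2 * (1 - ∑ j ∈ s, x j) * t := by
  obtain ⟨_, e0, e1, d0, d1⟩ := g_facts hE
  have m0 : 0 ≤ ∑ j ∈ s, x j := sum_nonneg H.x0
  obtain ⟨c1, c2⟩ := c_facts hn m0 H.m1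
  have a0 : 0 ≤ ∑ j ∈ s, x j * d j := sum_nonneg fun i hi => mul_nonneg (H.x0 i hi) (H.d0 i hi)
  have u0 : 0 ≤ ∑ i ∈ s, x i * nm t (d i) :=
    sum_nonneg fun i hi => mul_nonneg (H.x0 i hi) (nm_nonneg _ _)
  have u1 : ∑ i ∈ s, x i * nm t (d i) ≤ 3 * ∑ j ∈ s, x j * d j := by
    rw [mul_sum]
    refine sum_le_sum fun i hi => ?_
    have := mul_le_mul_of_nonneg_left (nm_le H.t0 (H.d0 i hi)) (H.x0 i hi)
    linarith
  have v0 : 0 ≤ ∑ i ∈ s, x i * np t (d i) :=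
    sum_nonneg fun i hi => mul_nonneg (H.x0 i hi) (np_nonneg _ (H.d0 i hi))
  have v1 : ∑ i ∈ s, x i * np t (d i) ≤ 3 * ∑ j ∈ s, x j * d j := by
    rw [mul_sum]
    refine sum_le_sum fun i hi => ?_
    have := mul_le_mul_of_nonneg_left (np_le t (d i)) (H.x0 i hi)
    linarith
  have := psi_scalar c1 c2 e0 e1 d0 d1 m0 H.m1 a0 H.t0 u0 u1 v0 v1
  have e : 2 * (∑ j ∈ s, x j) / (E : ℚ) ^ 2 = 2 * (∑ j ∈ s, x j) * (1 / (E : ℚ) ^ 2) := by ring
  unfold psiV2 psi2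
  rw [e]
  exact this

theorem rb_bounds (hE : 10000 ≤ E) (hn : CNStmt E) (H : Local2 E s x y d lm u q om V h t)
    {f : ℚ} (f0 : 0 ≤ f) (f1 : f ≤ 1) {l : ℕ} (hl : l ∈ s) :
    0 ≤ rb2 E s x d h f l ∧ rb2 E s x d h f l ≤ 2 * d l + 2 * ∑ j ∈ s, x j * d j := by
  obtain ⟨_, e0, e1, d0, d1⟩ := g_facts hE
  have m0 : 0 ≤ ∑ j ∈ s, x j := sum_nonneg H.x0
  obtain ⟨c1, c2⟩ := c_facts hn m0 H.m1
  have m1 := H.m1
  have dl := H.d0 l hl
  have e : 4 * (∑ j ∈ s, x j) / (E : ℚ) ^ 2 * d l =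
      4 * ((∑ j ∈ s, x j) * (1 / (E : ℚ) ^ 2)) * d l := by ring
  unfold rb2
  rw [e]
  generalize hc : cN E (∑ j ∈ s, x j) = c at c1 c2
  have A0 : 0 ≤ ∑ i ∈ s, x i * (1 - h i l) * max (d l - (22 * c + 3) / 23 * d i) 0 :=
    sum_nonneg fun i hi => mul_nonneg (mul_nonneg (H.x0 i hi) (by linarith [H.h1 i hi l hl]))
      (le_max_right _ _)
  have A1 : ∑ i ∈ s, x i * (1 - h i l) * max (d l - (22 * c + 3) / 23 * d i) 0 ≤
      (∑ j ∈ s, x j) * d l := by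
    rw [sum_mul]
    refine sum_le_sum fun i hi => ?_
    have k1 : max (d l - (22 * c + 3) / 23 * d i) 0 ≤ d l := by
      refine max_le ?_ dl
      have : 0 ≤ (22 * c + 3) / 23 * d i := mul_nonneg (by linarith) (H.d0 i hi)
      linarith
    have k2 : x i * (1 - h i l) ≤ x i := by
      have := mul_nonneg (H.x0 i hi) (H.h0 i hi l hl)
      linarith
    exact mul_le_mul k2 k1 (le_max_right _ _) (H.x0 i hi)
  have B0 : 0 ≤ ∑ i ∈ s, x i * (1 - h i l) * d i :=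
    sum_nonneg fun i hi => mul_nonneg (mul_nonneg (H.x0 i hi) (by linarith [H.h1 i hi l hl]))
      (H.d0 i hi)
  have B1 : ∑ i ∈ s, x i * (1 - h i l) * d i ≤ ∑ j ∈ s, x j * d j := by
    refine sum_le_sum fun i hi => ?_
    have k2 : x i * (1 - h i l) ≤ x i := by
      have := mul_nonneg (H.x0 i hi) (H.h0 i hi l hl)
      linarith
    exact mul_le_mul_of_nonneg_right k2 (H.d0 i hi)
  generalize hm : ∑ j ∈ s, x j = m at m0 m1 A0 A1 ⊢
  have k0 : 0 ≤ (22 * c + 3) / 23 - c + 3 * m * (1 - m) / 10 := by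
    have : 0 ≤ m * (1 - m) := mul_nonneg m0 (by linarith)
    linarith
  have k1 : (22 * c + 3) / 23 - c + 3 * m * (1 - m) / 10 ≤ 1 := by nlinarith
  generalize (22 * c + 3) / 23 - c + 3 * m * (1 - m) / 10 = K at k0 k1 ⊢
  have C0 : 0 ≤ ∑ i ∈ s, x i * h i l * (K * d i) :=
    sum_nonneg fun i hi => mul_nonneg (mul_nonneg (H.x0 i hi) (H.h0 i hi l hl))
      (mul_nonneg k0 (H.d0 i hi))
  have C1 : ∑ i ∈ s, x i * h i l * (K * d i) ≤ ∑ j ∈ s, x j * d j := by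
    refine sum_le_sum fun i hi => ?_
    have k2 : x i * h i l ≤ x i := by
      have := mul_le_mul_of_nonneg_left (H.h1 i hi l hl) (H.x0 i hi)
      linarith
    have k3 : K * d i ≤ d i := by
      have := mul_le_mul_of_nonneg_right k1 (H.d0 i hi)
      linarith
    exact mul_le_mul k2 k3 (mul_nonneg k0 (H.d0 i hi)) (H.x0 i hi)
  generalize ∑ i ∈ s, x i * h i l * (K * d i) = C at C0 C1 ⊢
  generalize ∑ i ∈ s, x i * (1 - h i l) * d i = B at B0 B1 ⊢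
  generalize ∑ i ∈ s, x i * (1 - h i l) * max (d l - (22 * c + 3) / 23 * d i) 0 = A at A0 A1 ⊢
  generalize ∑ j ∈ s, x j * d j = a at B1 C1 ⊢
  generalize 100 / (E : ℚ) = η at e0 e1 ⊢
  generalize 1 / (E : ℚ) ^ 2 = δ at d0 d1 ⊢
  have p1 : 0 ≤ η * B := mul_nonneg e0 B0
  have p2 : η * B ≤ a := by nlinarith
  have p3 : 0 ≤ f * C := mul_nonneg f0 C0
  have p4 : f * C ≤ a := by nlinarith
  have p5 : 0 ≤ m * δ := mul_nonneg m0 d0.le
  have p6 : m * δ ≤ 1 / 4 := by nlinarith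
  have p7 : 0 ≤ m * δ * d l := mul_nonneg p5 dl
  have p8 : m * δ * d l ≤ 1 / 4 * d l := mul_le_mul_of_nonneg_right p6 dl
  have p9 : m * d l ≤ d l := by nlinarith
  constructor <;> nlinarith

theorem X_bounds (H : Local2 E s x y d lm u q om V h t) {l : ℕ} (hl : l ∈ s) :
    0 ≤ ∑ i ∈ s, x i * h i l ∧ ∑ i ∈ s, x i * h i l ≤ 1 := by
  constructor
  · exact sum_nonneg fun i hi => mul_nonneg (H.x0 i hi) (H.h0 i hi l hl)
  · refine le_trans (sum_le_sum fun i hi => ?_) H.m1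
    have := mul_le_mul_of_nonneg_left (H.h1 i hi l hl) (H.x0 i hi)
    linarith

theorem out_bound (hk : KillStmt E) (H : Local2 E s x y d lm u q om V h t) {l : ℕ} (hl : l ∈ s)
    (hy : 0 < y l) : (V l - psiV2 E s x d t) / q l ≤
      ∑ i ∈ s, x i * h i l * un2 E s x d (min t (d l)) (d i) (h i l) := by
  have q0 := H.q0 l hl
  have q1 := H.q1 l hl
  have τ0 : 0 ≤ min t (d l) := le_min H.t0 (H.d0 l hl)
  obtain ⟨k1, k2, k3⟩ := hk s x d (min t (d l)) H.x0 H.m1 H.d0 τ0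
  have hq : ∀ i ∈ s, q l * h i l ≤ h i l := fun i hi => by
    have := mul_le_mul_of_nonneg_right q1 (H.h0 i hi l hl)
    linarith
  have k4 := k1 (fun i => q l * h i l) (fun i hi => mul_nonneg q0.le (H.h0 i hi l hl))
    (fun i hi => (hq i hi).trans (H.h1 i hi l hl))
  have k5 := k3 t (min_le_left _ _)
  have k6 := H.vb l hl hy
  have k7 : ∑ i ∈ s, x i * (q l * h i l) * un2 E s x d (min t (d l)) (d i) (q l * h i l) ≤
      (∑ i ∈ s, x i * h i l * un2 E s x d (min t (d l)) (d i) (h i l)) * q l := by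
    rw [sum_mul]
    refine sum_le_sum fun i hi => ?_
    have a1 : un2 E s x d (min t (d l)) (d i) (q l * h i l) ≤
        un2 E s x d (min t (d l)) (d i) (h i l) := by
      unfold un2
      have := mul_le_mul_of_nonneg_right (hq i hi) (k2 (d i) (H.d0 i hi))
      linarith
    have a2 : 0 ≤ x i * (q l * h i l) :=
      mul_nonneg (H.x0 i hi) (mul_nonneg q0.le (H.h0 i hi l hl))
    have := mul_le_mul_of_nonneg_left a1 a2
    linarith
  rw [div_le_iff₀ q0]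
  linarith

theorem term_le {om x y R rb ψ X δ S : ℚ} (x0 : 0 ≤ x) (xy : x ≤ y) (X0 : 0 ≤ X)
    (d0 : 0 < δ) (d1 : δ ≤ 1 / 4) (o0 : 1 - (1 - X) * δ ≤ om) (o1 : om ≤ 1 + δ) (r0 : 0 ≤ rb)
    (p0 : 0 ≤ ψ) (h1 : 0 < y → R ≤ rb - ψ) (h2 : 0 < y → R ≤ S) :
    om * y * R ≤ x * ((1 + δ) * rb - ψ + δ * ψ * (1 - X)) + (y - x) * (om * S) := by
  rcases (x0.trans xy).eq_or_lt with hy | hy
  · have hx : x = 0 := le_antisymm (hy ▸ xy) x0
    rw [← hy, hx]; simp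
  · have a1 := h1 hy
    have a2 := h2 hy
    have o2 : 0 ≤ om := by nlinarith
    have a3 : om * R ≤ om * (rb - ψ) := mul_le_mul_of_nonneg_left a1 o2
    have a4 : om * rb ≤ (1 + δ) * rb := mul_le_mul_of_nonneg_right o1 r0
    have a5 : (1 - (1 - X) * δ) * ψ ≤ om * ψ := mul_le_mul_of_nonneg_right o0 p0
    have a6 : om * R ≤ (1 + δ) * rb - ψ + δ * ψ * (1 - X) := by linarith
    have a7 := mul_le_mul_of_nonneg_left a6 x0
    have a8 : om * R ≤ om * S := mul_le_mul_of_nonneg_left a2 o2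
    have a9 := mul_le_mul_of_nonneg_left a8 (sub_nonneg.2 xy)
    linarith

end Split2Aux

open Split2Aux in
theorem split_stmt {E : ℕ} (hE : 10000 ≤ E) (hn : CNStmt E) (hk : KillStmt E) (hi : InsideStmt E)
    (hp : PriceStmt E) : SplitStmt E := by
  intro s x y d lm u q om V h t H
  obtain ⟨_, e0, e1, d0, d1⟩ := g_facts hE
  have hf : ∀ l, ∃ f : ℚ, l ∈ s → 0 ≤ f ∧ f ≤ 1 ∧
      (0 < f → (cN E (∑ i ∈ s, x i) - 3 * (∑ i ∈ s, x i) * (1 - ∑ i ∈ s, x i) / 10 -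
        (∑ i ∈ s, x i) / 1000) * (∑ i ∈ s, x i * d i) + (1 - ∑ i ∈ s, x i) * t < d l) ∧
      (0 < y l → (V l - psiV2 E s x d t) / q l ≤ rb2 E s x d h f l - psiV2 E s x d t) := by
    intro l
    by_cases hl : l ∈ s
    · by_cases hy : 0 < y l
      · obtain ⟨f, a1, a2, a3, a4⟩ := hi s x y d lm u q om V h t H l hl hy
        exact ⟨f, fun _ => ⟨a1, a2, a3, fun _ => a4⟩⟩
      · exact ⟨0, fun _ => ⟨le_rfl, zero_le_one, fun h => absurd h (lt_irrefl _),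
          fun h => absurd h hy⟩⟩
    · exact ⟨0, fun h => absurd h hl⟩
  choose f hf using hf
  have hp' := hp s x y d lm u q om V h t H
  choose! τ g ε hτ using hp'
  refine ⟨f, τ, g, ε, fun l hl => ⟨(hf l hl).1, (hf l hl).2.1, (hf l hl).2.2.1⟩,
    fun i hi => ?_, ?_⟩
  · obtain ⟨a1, a2, a3, a4, a5, a6, a7, a8, a9, -⟩ := hτ i hi
    exact ⟨a1, a2, a3, a4, a5, a6, a7, a8, a9⟩
  obtain ⟨p0, p1⟩ := psi_bounds hE hn H
  have hrb := fun l hl => rb_bounds hE hn H (hf l hl).1 (hf l hl).2.1 (l := l) hl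
  have m0 : 0 ≤ ∑ j ∈ s, x j := sum_nonneg H.x0
  have a0 : 0 ≤ ∑ j ∈ s, x j * d j := sum_nonneg fun i hi => mul_nonneg (H.x0 i hi) (H.d0 i hi)
  have T1 : ∑ l ∈ s, om l * y l / q l * (V l - psiV2 E s x d t) ≤
      ∑ l ∈ s, (x l * ((1 + 1 / (E : ℚ) ^ 2) * rb2 E s x d h (f l) l - psiV2 E s x d t +
        1 / (E : ℚ) ^ 2 * psiV2 E s x d t * (1 - ∑ i ∈ s, x i * h i l)) +
        (y l - x l) * (om l * ∑ i ∈ s, x i * h i l * un2 E s x d (min t (d l)) (d i) (h i l))) := by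
    refine sum_le_sum fun l hl => ?_
    have e : om l * y l / q l * (V l - psiV2 E s x d t) =
        om l * y l * ((V l - psiV2 E s x d t) / q l) := by ring
    rw [e]
    refine term_le (H.x0 l hl) (H.xy l hl) (X_bounds H hl).1 d0 d1 ?_ (H.om1 l hl) (hrb l hl).1 p0
      (hf l hl).2.2.2 (out_bound hk H hl)
    have := H.om0 l hl
    rwa [div_eq_mul_one_div] at this
  have T2 : ∑ l ∈ s, (y l - x l) *
      (om l * ∑ i ∈ s, x i * h i l * un2 E s x d (min t (d l)) (d i) (h i l)) +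
      ∑ i ∈ s, u i * x i * dcy2 E s x d t (d i) ≤
      ∑ i ∈ s, x i * ((1 - ∑ j ∈ s, x j + ∑ l ∈ s, x l * (1 - h i l)) *
        (un2 E s x d (τ i) (d i) (g i) + ε i)) := by
    have e : ∑ l ∈ s, (y l - x l) *
        (om l * ∑ i ∈ s, x i * h i l * un2 E s x d (min t (d l)) (d i) (h i l)) =
        ∑ i ∈ s, x i * ∑ l ∈ s, (y l - x l) * h i l *
          (om l * un2 E s x d (min t (d l)) (d i) (h i l)) := by
      simp only [mul_sum]
      rw [sum_comm]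
      refine sum_congr rfl fun i _ => sum_congr rfl fun l _ => by ring
    rw [e, ← sum_add_distrib]
    refine sum_le_sum fun i hi => ?_
    have := mul_le_mul_of_nonneg_left (hτ i hi).2.2.2.2.2.2.2.2.2 (H.x0 i hi)
    linarith
  have T3 : ∑ l ∈ s, x l * rb2 E s x d h (f l) l ≤ 4 * ∑ j ∈ s, x j * d j := by
    have k1 : ∑ l ∈ s, x l * rb2 E s x d h (f l) l ≤
        ∑ l ∈ s, (2 * (x l * d l) + x l * (2 * ∑ j ∈ s, x j * d j)) := by
      refine sum_le_sum fun l hl => ?_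
      have := mul_le_mul_of_nonneg_left (hrb l hl).2 (H.x0 l hl)
      linarith
    rw [sum_add_distrib, ← mul_sum, ← sum_mul] at k1
    have := mul_le_mul_of_nonneg_right H.m1 a0
    linarith
  have T4 : ∑ l ∈ s, x l * (1 - ∑ i ∈ s, x i * h i l) =
      ∑ i ∈ s, x i * (1 - ∑ j ∈ s, x j + ∑ l ∈ s, x l * (1 - h i l)) := by
    have k1 : ∀ i, 1 - ∑ j ∈ s, x j + ∑ l ∈ s, x l * (1 - h i l) = 1 - ∑ l ∈ s, x l * h i l := by
      intro i
      have : ∑ l ∈ s, x l * (1 - h i l) = ∑ j ∈ s, x j - ∑ l ∈ s, x l * h i l := by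
        rw [← sum_sub_distrib]
        exact sum_congr rfl fun l _ => by ring
      rw [this]; ring
    have k2 : ∑ l ∈ s, ∑ i ∈ s, x l * (x i * h i l) = ∑ i ∈ s, ∑ l ∈ s, x i * (x l * h i l) := by
      rw [sum_comm]
      exact sum_congr rfl fun i _ => sum_congr rfl fun l _ => by ring
    simp only [k1]
    simp only [mul_sub, sum_sub_distrib, mul_sum]
    rw [k2]
  have T5 : 0 ≤ ∑ l ∈ s, x l * (1 - ∑ i ∈ s, x i * h i l) :=
    sum_nonneg fun l hl => mul_nonneg (H.x0 l hl) (by linarith [(X_bounds H hl).2])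
  have S1 : ∑ l ∈ s, (x l * ((1 + 1 / (E : ℚ) ^ 2) * rb2 E s x d h (f l) l - psiV2 E s x d t +
        1 / (E : ℚ) ^ 2 * psiV2 E s x d t * (1 - ∑ i ∈ s, x i * h i l)) +
        (y l - x l) * (om l * ∑ i ∈ s, x i * h i l * un2 E s x d (min t (d l)) (d i) (h i l))) =
      (1 + 1 / (E : ℚ) ^ 2) * ∑ l ∈ s, x l * rb2 E s x d h (f l) l -
        (∑ j ∈ s, x j) * psiV2 E s x d t +
        1 / (E : ℚ) ^ 2 * psiV2 E s x d t * ∑ l ∈ s, x l * (1 - ∑ i ∈ s, x i * h i l) +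
        ∑ l ∈ s, (y l - x l) *
          (om l * ∑ i ∈ s, x i * h i l * un2 E s x d (min t (d l)) (d i) (h i l)) := by
    rw [mul_sum, sum_mul, mul_sum, ← sum_sub_distrib, ← sum_add_distrib, ← sum_add_distrib]
    exact sum_congr rfl fun l _ => by ring
  have S2 : ∑ i ∈ s, x i * ((1 - ∑ j ∈ s, x j + ∑ l ∈ s, x l * (1 - h i l)) *
        (un2 E s x d (τ i) (d i) (g i) + ε i +
          (3 * ∑ j ∈ s, x j * d j + 2 * (1 - ∑ j ∈ s, x j) * t) / (E : ℚ) ^ 2)) =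
      ∑ i ∈ s, x i * ((1 - ∑ j ∈ s, x j + ∑ l ∈ s, x l * (1 - h i l)) *
        (un2 E s x d (τ i) (d i) (g i) + ε i)) +
      1 / (E : ℚ) ^ 2 * (3 * ∑ j ∈ s, x j * d j + 2 * (1 - ∑ j ∈ s, x j) * t) *
        ∑ i ∈ s, x i * (1 - ∑ j ∈ s, x j + ∑ l ∈ s, x l * (1 - h i l)) := by
    generalize 3 * ∑ j ∈ s, x j * d j + 2 * (1 - ∑ j ∈ s, x j) * t = K
    rw [mul_sum s, ← sum_add_distrib]
    exact sum_congr rfl fun i _ => by ring
  rw [S2, ← T4]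
  rw [S1] at T1
  have e4 : 4 * (∑ j ∈ s, x j * d j) / (E : ℚ) ^ 2 =
      1 / (E : ℚ) ^ 2 * (4 * ∑ j ∈ s, x j * d j) := by ring
  rw [e4]
  have b1 := mul_le_mul_of_nonneg_left T3 d0.le
  have b2 := mul_le_mul_of_nonneg_right (mul_le_mul_of_nonneg_left p1 d0.le) T5
  linarith

end Vale.Agent.P334
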