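import Vale.Agent.P334.Step2a

/-! One step does not increase the potential. -/

namespace Vale.Agent.P334

open Finset

namespace Step2Aux

variable {E : ℕ}

theorem psiR_eq (D : Mx) (y : List ℚ) (M : ℕ) (s : St) (j : ℕ) (ρ : ℚ) :
    psiR2 E D y M s j ρ = psiV2 E (range D.length) (xs D y M s j ρ) (dd D j) (dS D s.2 j) := rfl

theorem psiV_congr {s : Finset ℕ} {x x' d : ℕ → ℚ} (h : ∀ i ∈ s, x i = x' i) (t : ℚ) :
    psiV2 E s x d t = psiV2 E s x' d t := by
  unfold psiV2
  rw [sum_congr rfl h, sum_congr rfl fun i hi => congrArg (· * d i) (h i hi),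
    sum_congr rfl fun i hi => congrArg (· * nm t (d i)) (h i hi),
    sum_congr rfl fun i hi => congrArg (· * np t (d i)) (h i hi)]

theorem psiC_mem (D : Mx) (y : List ℚ) (M : ℕ) (s : St) (j : ℕ) :
    ∃ ρ, psiC2 E D y M s j = psiR2 E D y M s j ρ := by
  obtain ⟨ρ, -, e⟩ := List.mem_map.1 (lmin_mem
    (l := (-1 :: (List.range D.length).map (dd D j)).map (psiR2 E D y M s j)) (by simp))
  exact ⟨ρ, e.symm⟩

theorem psiC_le {D : Mx} {J F : List ℕ} (h : Ok D J F) (y : List ℚ) (M : ℕ) (s : St) {j : ℕ}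
    (hj : j < D.length) (ρ : ℚ) : psiC2 E D y M s j ≤ psiR2 E D y M s j ρ := by
  have key : ∀ ρ' ∈ -1 :: (List.range D.length).map (dd D j),
      (∀ i < D.length, dd D j i ≤ ρ' ↔ dd D j i ≤ ρ) →
        psiC2 E D y M s j ≤ psiR2 E D y M s j ρ := by
    intro ρ' h1 h2
    refine (lmin_le (List.mem_map_of_mem h1)).trans (le_of_eq ?_)
    rw [psiR_eq, psiR_eq]
    refine psiV_congr (fun i hi => ?_) _
    unfold xs
    simp only [h2 i (mem_range.1 hi)]
  by_cases h0 : ∃ i < D.length, dd D j i ≤ ρ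
  · obtain ⟨i₀, h1, h2⟩ := h0
    obtain ⟨i, hi, hmax⟩ := ((range D.length).filter fun i => dd D j i ≤ ρ).exists_max_image
      (dd D j) ⟨i₀, by simp [h1, h2]⟩
    simp only [mem_filter, mem_range] at hi hmax
    exact key (dd D j i) (List.mem_cons_of_mem _ (List.mem_map_of_mem (List.mem_range.2 hi.1)))
      fun l hl => ⟨fun h3 => h3.trans hi.2, fun h3 => hmax l ⟨hl, h3⟩⟩
  · refine key (-1) (by simp) fun l hl => ⟨fun h3 => ?_, fun h3 => absurd ⟨l, hl, h3⟩ h0⟩
    linarith [h.nonneg hj hl]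

theorem unit_le (hE : 10000 ≤ E) (hn : CNStmt E) {m t d : ℚ} (m0 : 0 ≤ m) (m1 : m ≤ 1)
    (t0 : 0 ≤ t) (d0 : 0 ≤ d) :
    (1 + 2 / (E : ℚ) ^ 2) * t - (cN E m + 100 / E) * d + m * (1 - m) / 10 * np t d ≤ 2 * t ∧
    (t ≤ d →
      (1 + 2 / (E : ℚ) ^ 2) * t - (cN E m + 100 / E) * d + m * (1 - m) / 10 * np t d ≤ 0) := by
  have h1 := hn.mono 0 m le_rfl m0
  rw [hn.zero] at h1
  have h2 := E_ge hE
  obtain ⟨g, hg⟩ : ∃ g : ℚ, g = 1 / E := ⟨_, rfl⟩
  have g0 : 0 < g := by rw [hg]; positivity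
  have g1 : g ≤ 1 / 10000 := by rw [hg]; exact one_div_le_one_div_of_le (by norm_num) h2
  have e1 : 2 / (E : ℚ) ^ 2 = 2 * g ^ 2 := by rw [hg]; ring
  have e2 : 100 / (E : ℚ) = 100 * g := by rw [hg]; ring
  rw [e1, e2]
  have g2 : g ^ 2 ≤ g / 10000 := by nlinarith
  have a1 : m * (1 - m) / 10 ≤ 1 / 10 := by nlinarith
  have a0 : 0 ≤ m * (1 - m) / 10 := by have := mul_nonneg m0 (sub_nonneg.2 m1); linarith
  refine ⟨?_, fun h => ?_⟩
  · have a2 : np t d ≤ t := (min_le_left _ _).trans (max_le (by linarith) t0)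
    have a3 := mul_le_mul a1 a2 (le_min (le_max_right _ _) (by linarith)) (by norm_num)
    nlinarith [mul_nonneg g0.le d0]
  · have a2 : np t d = 0 := by
      rw [np, max_eq_right (by linarith), min_eq_left (by linarith)]
    rw [a2]
    nlinarith [mul_nonneg g0.le d0, mul_nonneg (sub_nonneg.2 h1) d0,
      mul_le_mul_of_nonneg_left h (sq_nonneg g)]

variable {D : Mx} {J F : List ℕ} {r : ℚ} {y : List ℚ} {M : ℕ} {s : St}

/-- After an opening, the potential is bounded through any subfamily of the scaled shares. -/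
theorem psi_opn (hE : 10000 ≤ E) (hn : CNStmt E) (hd : DropStmt E) (H : Ctx D J F r y M s)
    {j l : ℕ} (hj : j < D.length) (hl : l < D.length)
    (ρ ρ' : ℚ) (P : ℕ → Prop) [DecidablePred P]
    (hP : ∀ i < D.length, dd D j i ≤ ρ' ↔ dd D j i ≤ ρ ∧ P i) :
    psiC2 E D y M (opn2 E D M s l) j - 6 * (D.length : ℚ) ^ 2 * r / M ≤
      psiV2 E (range D.length) (fun i => if P i then
        xs D y M s j ρ i * (1 - qq2 E D M s l * hk2 E D M s i l) else 0) (dd D j)
        (min (dS D s.2 j) (dd D j l)) := by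
  have hM : (0 : ℚ) < M := by exact_mod_cast H.M0
  have hr := H.bdd.1
  have τ0 : 0 ≤ min (dS D s.2 j) (dd D j l) := le_min (H.dS0 hj) (H.ok.nonneg hj hl)
  have τ1 : min (dS D s.2 j) (dd D j l) ≤ dd D j l := min_le_right _ _
  have τ2 := τ1.trans (H.bdd.2 j hj l hl)
  have e0 : dS D (opn2 E D M s l).2 j = min (dS D s.2 j) (dd D j l) := dS_cons D H.good.sol.1 l j
  have e1 : ∀ i ∈ range D.length, (if P i then
      xs D y M s j ρ i * (1 - qq2 E D M s l * hk2 E D M s i l) else 0) =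
      xf D y j ρ' i * (yq M s i * (1 - qq2 E D M s l * hk2 E D M s i l)) := by
    intro i hi
    have := hP i (mem_range.1 hi)
    rw [xs_eq]
    unfold xf
    by_cases h1 : P i <;> by_cases h2 : dd D j i ≤ ρ <;> simp [h1, h2, this, mul_assoc]
  have up : ∀ i, yq M (opn2 E D M s l) i ≤ yq M s i * (1 - qq2 E D M s l * hk2 E D M s i l) := by
    intro i
    unfold yq
    rw [div_mul_eq_mul_div]
    exact div_le_div_of_nonneg_right (opn_up hE D M s l i) hM.le
  have low : ∀ i, i ≠ l →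
      yq M s i * (1 - qq2 E D M s l * hk2 E D M s i l) - yq M (opn2 E D M s l) i ≤ 1 / M := by
    intro i hi
    unfold yq
    rw [div_mul_eq_mul_div, ← sub_div]
    exact div_le_div_of_nonneg_right (by linarith [opn_low hE D M s hi]) hM.le
  have m0 : 0 ≤ ∑ i ∈ range D.length,
      xf D y j ρ' i * (yq M s i * (1 - qq2 E D M s l * hk2 E D M s i l)) :=
    sum_nonneg fun i _ => mul_nonneg (H.xf0 j ρ' i)
      (mul_nonneg (yq_nonneg M s i) (qh_nonneg hE D M s i l))
  have m1 : ∑ i ∈ range D.length,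
      xf D y j ρ' i * (yq M s i * (1 - qq2 E D M s l * hk2 E D M s i l)) ≤ 1 := by
    refine le_trans (sum_le_sum fun i _ => ?_) (H.xs_sum j ρ')
    rw [xs_eq]
    refine mul_le_mul_of_nonneg_left (mul_le_of_le_one_right (yq_nonneg M s i) ?_) (H.xf0 j ρ' i)
    linarith [mul_nonneg (qq_pos hE D M s l).le (hk_nonneg (E := E) D M s i l)]
  rw [psiV_congr e1, sub_le_iff_le_add]
  refine (psiC_le H.ok y M _ hj ρ').trans ?_
  rw [psiR_eq, e0, psiV_congr fun i _ => xs_eq D y M _ j ρ' i]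
  refine (hd _ _ _ _ _ (fun i _ => mul_nonneg (H.xf0 j ρ' i) (yq_nonneg M _ i))
    (fun i _ => mul_le_mul_of_nonneg_left (up i) (H.xf0 j ρ' i)) m1
    (fun i hi => H.ok.nonneg hj (mem_range.1 hi)) τ0).trans (add_le_add_right ?_ _)
  have e : 6 * (D.length : ℚ) ^ 2 * r / M = ∑ _i ∈ range D.length, 1 / M * (6 * D.length * r) := by
    rw [sum_const, card_range, nsmul_eq_mul]; ring
  rw [e]
  refine sum_le_sum fun i hi => ?_
  have hu := unit_le hE hn m0 m1 τ0 (H.ok.nonneg hj (mem_range.1 hi))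
  have b0 : 0 ≤ (D.length : ℚ) * r := by positivity
  have b1 := mul_nonneg (H.xf0 j ρ' i) (sub_nonneg.2 (up i))
  rw [← mul_sub]
  by_cases hi' : i = l
  · subst hi'
    exact le_trans (mul_nonpos_of_nonneg_of_nonpos b1 (hu.2 τ1)) (by positivity)
  · have b2 := (mul_le_of_le_one_left (sub_nonneg.2 (up i)) (H.xf1 j ρ' i)).trans (low i hi')
    exact le_trans (mul_le_mul_of_nonneg_left (hu.1.trans (show _ ≤ 6 * D.length * r by linarith))
      b1) (mul_le_mul_of_nonneg_right b2 (by linarith))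

theorem k123 (hE : 10000 ≤ E) {L h a b e : ℚ} (L0 : 0 ≤ L) (h0 : 0 ≤ h) (h1 : h ≤ 1) :
    (13 * e ≤ 13 * L - 5 * h * L → b ≤ a + e →
      5 * h * ((1 + 1 / E) * L) ≤ 13 * (a + (1 + 1 / E) * L - b) ∧
      (1 + 1 / (E : ℚ)) * (b - a) ≤ (1 + 1 / E) * L) ∧
    (13 * L - 5 * (h + 1 / E) * L ≤ 13 * e → e ≤ a + b → 5 * (1 - h) * ((1 + 1 / E) * L) ≤
      13 * (a + b) - 8 * ((1 + 1 / E) * L) + 25 / E * (a + b)) := by
  have h2 := E_ge hE
  have e2 : 25 / (E : ℚ) = 25 * (1 / E) := by ring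
  rw [e2]
  have g0 : 0 < 1 / (E : ℚ) := by positivity
  have g1 : 1 / (E : ℚ) ≤ 1 / 10000 := one_div_le_one_div_of_le (by norm_num) h2
  generalize 1 / (E : ℚ) = g at *
  have a1 := mul_nonneg g0.le L0
  have a2 := mul_nonneg h0 L0
  have a3 := mul_le_mul_of_nonneg_right h1 a1
  have a4 := mul_le_mul_of_nonneg_right h1 L0
  have a5 := mul_le_mul_of_nonneg_right g1 L0
  refine ⟨fun c1 c2 => ⟨by nlinarith, mul_le_mul_of_nonneg_left (by linarith) (by linarith)⟩,
    fun c1 c2 => ?_⟩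
  have a6 : 5 * L * (1 + g) ≤ 12 * (a + b) := by nlinarith
  have a7 := mul_le_mul_of_nonneg_left a6 g0.le
  have a8 := mul_le_mul_of_nonneg_left (c1.trans (show 13 * e ≤ 13 * (a + b) by linarith))
    (show 0 ≤ 1 + g by linarith)
  nlinarith

theorem loc (hE : 10000 ≤ E) (hn : CNStmt E) (hd : DropStmt E) (H : Ctx D J F r y M s) {j : ℕ}
    (hj : j < D.length) (ρ : ℚ) :
    Local2 E (range D.length) (xs D y M s j ρ) (yq M s) (dd D j)
      (fun i => (1 + 1 / E) * lam (kl2 E D M s i))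
      (uk2 E D M s) (qq2 E D M s) (omg E D M s)
      (fun l => psiC2 E D y M (opn2 E D M s l) j - 6 * (D.length : ℚ) ^ 2 * r / M) (hk2 E D M s)
      (dS D s.2 j) where
  x0 i _ := H.xs0 j ρ i
  xy i _ := H.xs_le j ρ i
  m1 := H.xs_sum j ρ
  d0 i hi := H.ok.nonneg hj (mem_range.1 hi)
  t0 := H.dS0 hj
  lm0 i hi := mul_nonneg (by positivity) (lam0 H (mem_range.1 hi))
  h0 i _ l _ := hk_nonneg D M s i l
  h1 i _ l _ := hk_le_one D M s i l
  u0 i _ := uk_nonneg D M s i
  tot i _ := kl_tot D M s i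
  k1 i hi l hl h := ((k123 hE (lam0 H (mem_range.1 hi)) h.le (hk_le_one D M s i l)).1
    (hk_up D M s i l (lam0 H (mem_range.1 hi)) h)
    (H.ok.tri j hj i (mem_range.1 hi) l (mem_range.1 hl))).1
  k2 i hi l hl h := ((k123 hE (lam0 H (mem_range.1 hi)) h.le (hk_le_one D M s i l)).1
    (hk_up D M s i l (lam0 H (mem_range.1 hi)) h)
    (H.ok.tri j hj i (mem_range.1 hi) l (mem_range.1 hl))).2
  k3 i hi l hl h := by
    have h1 := H.ok.tri i (mem_range.1 hi) j hj l (mem_range.1 hl)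
    rw [H.ok.symm i (mem_range.1 hi) j hj] at h1
    exact (k123 hE (lam0 H (mem_range.1 hi)) (hk_nonneg D M s i l) h.le).2
      (hk_low hE D M s i l (lam0 H (mem_range.1 hi)) h) h1
  k5 i hi := by
    have h0 := E_ge hE
    have h1 := H.ok.dS_tri H.good.sol.1 H.good.sol.2 hj (mem_range.1 hi)
    have h2 := mul_le_mul_of_nonneg_left (lam_kl_le (E := E) D M s i)
      (show 0 ≤ 1 + 1 / (E : ℚ) by positivity)
    have e : (1 + 1 / (E : ℚ)) * (E / (E + 1) * dS D s.2 i) = dS D s.2 i := by field_simp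
    rw [H.ok.symm i (mem_range.1 hi) j hj] at h1
    linarith
  k6 i hi h := by
    have h0 := E_ge hE
    have h1 := H.ok.dS_tri H.good.sol.1 H.good.sol.2 (mem_range.1 hi) hj
    have h2 := mul_le_mul_of_nonneg_left (le_lam_of_bet_pos h)
      (show 0 ≤ 1 + 1 / (E : ℚ) by positivity)
    have e : (1 + 1 / (E : ℚ)) * (E / (E + 1) * dS D s.2 i) = dS D s.2 i := by field_simp
    linarith
  q0 l _ := qq_pos hE D M s l
  q1 l _ := qq_le_one hE D M s l
  om0 l _ := by
    have h1 : ∑ i ∈ range D.length, xs D y M s j ρ i * hk2 E D M s i l ≤ inn2 E D M s l :=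
      sum_le_sum fun i _ => mul_le_mul_of_nonneg_right (H.xs_le j ρ i) (hk_nonneg D M s i l)
    have h2 : ∑ i ∈ range D.length, xs D y M s j ρ i * hk2 E D M s i l ≤ 1 :=
      le_trans (sum_le_sum fun i _ => mul_le_of_le_one_right (H.xs0 j ρ i) (hk_le_one D M s i l))
        (H.xs_sum j ρ)
    have a2 := A_ge hE
    have a3 := B_ge hE
    have h3 : jj E D M s l ≤ 1 - ∑ i ∈ range D.length, xs D y M s j ρ i * hk2 E D M s i l := by
      unfold jj
      rcases qq_cases hE D M s l with ⟨h3, -⟩ | h3 <;> rw [h3] <;> linarith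
    exact sub_le_sub_left (div_le_div₀ (by linarith) h3 (by linarith) (by linarith)) 1
  om1 l _ := by
    have h0 := E_ge hE
    have h1 := div_le_div_of_nonneg_right
      (show -(10 * (E : ℚ) ^ 2) ≤ jj E D M s l by linarith [le_jj hE D M s l])
      (show 0 ≤ 10 * (E : ℚ) ^ 4 by positivity)
    have e : -(10 * (E : ℚ) ^ 2) / (10 * (E : ℚ) ^ 4) = -(1 / (E : ℚ) ^ 2) := by field_simp
    unfold omg; linarith
  vb l hl _ := by
    simpa using psi_opn hE hn hd H hj (mem_range.1 hl) ρ ρ (fun _ => True) (by simp)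
  va l hl _ ρ' := psi_opn hE hn hd H hj (mem_range.1 hl) ρ (min ρ ρ')
    (fun i => dd D j i ≤ ρ') fun i _ => le_min_iff

theorem psi_dec (he : DecStmt E) (H : Ctx D J F r y M s) {j l : ℕ} (hj : j < D.length)
    (hl : l < D.length) (ρ : ℚ) :
    (s.1.getD l 0 : ℚ) * (psiC2 E D y M (dec s l) j - psiR2 E D y M s j ρ) ≤
      xs D y M s j ρ l * dcy2 E (range D.length) (xs D y M s j ρ) (dd D j) (dS D s.2 j) (dd D j l) +
      s.1.getD l 0 * (6 * D.length * r / M ^ 2) := by
  have hM : (0 : ℚ) < M := by exact_mod_cast H.M0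
  rcases Nat.eq_zero_or_pos (s.1.getD l 0) with h0 | h0
  · rw [xs_eq]; unfold yq; rw [h0]; simp
  have e0 : ∀ i, xs D y M (dec s l) j ρ i =
      xs D y M s j ρ i - if i = l then xf D y j ρ l / M else 0 := by
    intro i
    rw [xs_eq, xs_eq]
    unfold yq
    rw [dec_getD]
    split_ifs with h
    · subst h
      rw [Nat.cast_sub h0]; push_cast; ring
    · ring
  have e3 : xs D y M s j ρ l = s.1.getD l 0 * (xf D y j ρ l / M) := by
    rw [xs_eq]; unfold yq; ring
  have c0 : 0 ≤ xf D y j ρ l / M := div_nonneg (H.xf0 j ρ l) hM.le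
  have c1 : xf D y j ρ l / M ≤ 1 / M := div_le_div_of_nonneg_right (H.xf1 j ρ l) hM.le
  have h2 := he (range D.length) (xs D y M s j ρ) (dd D j) (dS D s.2 j) (xf D y j ρ l / M) l
    (fun i _ => H.xs0 j ρ i) (H.xs_sum j ρ) (fun i hi => H.ok.nonneg hj (mem_range.1 hi))
    (H.dS0 hj) (mem_range.2 hl) c0
    (by rw [e3]; exact le_mul_of_one_le_left c0 (by exact_mod_cast h0))
  have h1 := psiC_le (E := E) H.ok y M (dec s l) hj ρ
  rw [psiR_eq, psiV_congr fun i _ => e0 i, show (dec s l).2 = s.2 from rfl] at h1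
  have b0 : 0 ≤ 3 * (D.length : ℚ) * r := by have := H.bdd.1; positivity
  have a0 : 0 ≤ ∑ i ∈ range D.length, xs D y M s j ρ i * dd D j i :=
    sum_nonneg fun i hi => mul_nonneg (H.xs0 j ρ i) (H.ok.nonneg hj (mem_range.1 hi))
  have a1 : ∑ i ∈ range D.length, xs D y M s j ρ i * dd D j i ≤ 3 * D.length * r := by
    refine le_trans (sum_le_sum fun i hi => mul_le_mul_of_nonneg_left
      (H.bdd.2 j hj i (mem_range.1 hi)) (H.xs0 j ρ i)) ?_
    rw [← sum_mul]
    exact mul_le_of_le_one_left b0 (H.xs_sum j ρ)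
  have d0 := H.ok.nonneg hj hl
  have d1 := H.bdd.2 j hj l hl
  have c2 : (xf D y j ρ l / M) ^ 2 * (3 / 2 * dd D j l +
      (∑ i ∈ range D.length, xs D y M s j ρ i * dd D j i) / 2) ≤
      (1 / M) ^ 2 * (6 * D.length * r) :=
    mul_le_mul (pow_le_pow_left₀ c0 c1 2) (by linarith) (by linarith) (by positivity)
  have c3 : (1 / (M : ℚ)) ^ 2 * (6 * D.length * r) = 6 * D.length * r / M ^ 2 := by ring
  rw [e3, mul_assoc, ← mul_add, psiR_eq]
  refine mul_le_mul_of_nonneg_left ?_ (by positivity)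
  linarith

/-- The rate of an opening. -/
def rt (E : ℕ) (D : Mx) (M : ℕ) (s : St) (l : ℕ) : ℚ := omg E D M s l * yq M s l / qq2 E D M s l

/-- The rate of a decay. -/
def rd (E : ℕ) (D : Mx) (M : ℕ) (s : St) (l : ℕ) : ℚ := uk2 E D M s l * s.1.getD l 0

theorem rt_nonneg (hE : 10000 ≤ E) (D : Mx) (M : ℕ) (s : St) (l : ℕ) : 0 ≤ rt E D M s l :=
  div_nonneg (mul_nonneg (omg_pos hE D M s l).le (yq_nonneg M s l)) (qq_pos hE D M s l).le

theorem rd_nonneg (D : Mx) (M : ℕ) (s : St) (l : ℕ) : 0 ≤ rd E D M s l :=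
  mul_nonneg (uk_nonneg D M s l) (by positivity)

theorem avg_client (hE : 10000 ≤ E) (hn : CNStmt E) (hc : ClientStmt2 E) (hd : DropStmt E)
    (he : DecStmt E) (H : Ctx D J F r y M s) {j : ℕ} (hj : j < D.length) :
    ∑ l ∈ range D.length, (rt E D M s l * (psiC2 E D y M (opn2 E D M s l) j - psiC2 E D y M s j) +
      rd E D M s l * (psiC2 E D y M (dec s l) j - psiC2 E D y M s j)) ≤
    ∑ l ∈ range D.length, (rt E D M s l * (6 * (D.length : ℚ) ^ 2 * r / M) +
      rd E D M s l * (6 * D.length * r / M ^ 2)) := by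
  obtain ⟨ρ, e⟩ := psiC_mem (E := E) D y M s j
  have h1 := hc _ _ _ _ _ _ _ _ _ _ _ (loc hE hn hd H hj ρ)
  rw [← psiR_eq, ← sum_add_distrib] at h1
  rw [e, ← sub_nonpos, ← sum_sub_distrib]
  refine le_trans (sum_le_sum fun l hl => ?_) h1
  have h2 := mul_le_mul_of_nonneg_left (psi_dec he H hj (mem_range.1 hl) ρ)
    (uk_nonneg (E := E) D M s l)
  unfold rt rd
  linarith

theorem avg_clients (hE : 10000 ≤ E) (hn : CNStmt E) (hc : ClientStmt2 E) (hd : DropStmt E)
    (he : DecStmt E) (H : Ctx D J F r y M s) (L : List ℕ) (hL : ∀ j ∈ L, j < D.length) :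
    ∑ l ∈ range D.length,
      (rt E D M s l * ((L.map (psiC2 E D y M (opn2 E D M s l))).sum -
        (L.map (psiC2 E D y M s)).sum) +
      rd E D M s l * ((L.map (psiC2 E D y M (dec s l))).sum - (L.map (psiC2 E D y M s)).sum)) ≤
    L.length * ∑ l ∈ range D.length, (rt E D M s l * (6 * (D.length : ℚ) ^ 2 * r / M) +
      rd E D M s l * (6 * D.length * r / M ^ 2)) := by
  induction L with
  | nil => simp
  | cons j L ih =>
    have h1 := add_le_add (avg_client hE hn hc hd he H (hL j (by simp)))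
      (ih fun i hi => hL i (by simp [hi]))
    rw [← sum_add_distrib] at h1
    refine le_trans (le_of_eq (sum_congr rfl fun l _ => ?_)) (h1.trans (le_of_eq ?_))
    · simp only [List.map_cons, List.sum_cons]; ring
    · push_cast [List.length_cons]; ring

theorem avg_led (hE : 10000 ≤ E) {U : List ℕ} (H : Ctx D J F r y U.length s) (K : List ℕ)
    (hK : s.1.sum ≤ K.length) :
    ∑ l ∈ range D.length,
      (rt E D U.length s l * (led2 E U K (opn2 E D U.length s l) - led2 E U K s) +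
      rd E D U.length s l * (led2 E U K (dec s l) - led2 E U K s)) ≤ 0 := by
  have hM : (0 : ℚ) < U.length := by exact_mod_cast H.M0
  have h0 := led_nonneg hE U K s H.M0
  have hE' := E_ge hE
  have hW : (0 : ℚ) < 20 * (E : ℚ) ^ 4 := by positivity
  have e : ∑ l ∈ range D.length, (yq U.length s l * (1 - inn2 E D U.length s l) -
      uk2 E D U.length s l * yq U.length s l) = 0 := by
    have e1 : ∑ l ∈ range D.length, yq U.length s l * inn2 E D U.length s l =
        ∑ i ∈ range D.length, yq U.length s i * (1 - uk2 E D U.length s i) := by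
      unfold inn2
      simp only [mul_sum]
      rw [sum_comm]
      refine sum_congr rfl fun i _ => ?_
      rw [← kl_tot (E := E) D U.length s i, add_sub_cancel_right, mul_sum]
      exact sum_congr rfl fun l _ => by ring
    simp only [mul_sub, sum_sub_distrib, mul_one] at e1 ⊢
    rw [e1, sum_congr rfl fun i _ => mul_comm (uk2 E D U.length s i) _]
    ring
  rw [← mul_zero (led2 E U K s / (20 * (E : ℚ) ^ 4)), ← e, mul_sum]
  refine sum_le_sum fun l _ => ?_
  rcases Nat.eq_zero_or_pos (s.1.getD l 0) with h1 | h1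
  · unfold rt rd yq; rw [h1]; simp
  have h2 := mul_le_mul_of_nonneg_left (led_opn hE H K h1 hK) (rt_nonneg hE D U.length s l)
  have h3 := div_le_div_of_nonneg_right (mul_le_mul_of_nonneg_left (omg_jj hE D U.length s l)
    (mul_nonneg h0 (yq_nonneg U.length s l))) hW.le
  have e1 : rd E D U.length s l * (led2 E U K (dec s l) - led2 E U K s) =
      -(led2 E U K s / (20 * (E : ℚ) ^ 4) * (uk2 E D U.length s l * yq U.length s l)) := by
    rw [led_dec U K h1 hK]; unfold rd yq; field_simp; ring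
  have e2 : led2 E U K s * yq U.length s l * (omg E D U.length s l / qq2 E D U.length s l *
      (jj E D U.length s l + jj E D U.length s l ^ 2 / (20 * (E : ℚ) ^ 4))) / (20 * (E : ℚ) ^ 4) =
      rt E D U.length s l * (led2 E U K s * (1 + (jj E D U.length s l +
        jj E D U.length s l ^ 2 / (20 * (E : ℚ) ^ 4)) / (20 * (E : ℚ) ^ 4))) -
      rt E D U.length s l * led2 E U K s := by
    unfold rt; ring
  have e3 : led2 E U K s / (20 * (E : ℚ) ^ 4) * (yq U.length s l * (1 - inn2 E D U.length s l) -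
      uk2 E D U.length s l * yq U.length s l) =
      led2 E U K s * yq U.length s l * (1 - inn2 E D U.length s l) / (20 * (E : ℚ) ^ 4) -
      led2 E U K s / (20 * (E : ℚ) ^ 4) * (uk2 E D U.length s l * yq U.length s l) := by ring
  rw [e1, e3, mul_sub]
  rw [e2] at h3
  linarith

theorem avg_phi (hE : 10000 ≤ E) (hn : CNStmt E) (hc : ClientStmt2 E) (hd : DropStmt E)
    (hdec : DecStmt E) {U : List ℕ} (H : Ctx D J F r y U.length s) (K : List ℕ)
    {μ e : ℚ} (hμ : 0 ≤ μ) (he : 6 * (D.length : ℚ) ^ 3 * r ≤ e * (U.length : ℚ) ^ 2)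
    (hK : s.1.sum ≤ K.length) :
    ∑ l ∈ range D.length,
      (rt E D U.length s l * (phi2 E D J y U K μ e (opn2 E D U.length s l) -
        phi2 E D J y U K μ e s) +
      rd E D U.length s l * (phi2 E D J y U K μ e (dec s l) - phi2 E D J y U K μ e s)) ≤ 0 := by
  have hM : (0 : ℚ) < U.length := by exact_mod_cast H.M0
  have hr := H.bdd.1
  have hn' : (1 : ℚ) ≤ D.length := by exact_mod_cast H.ok.pos_len
  have hJ : (J.length : ℚ) ≤ D.length := by exact_mod_cast H.ok.lenJ
  have e0 : 0 ≤ e := by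
    by_contra h
    have : e * (U.length : ℚ) ^ 2 < 0 := mul_neg_of_neg_of_pos (by linarith) (by positivity)
    have : 0 < 6 * (D.length : ℚ) ^ 3 * r := by positivity
    linarith
  have b1 : J.length * (6 * (D.length : ℚ) ^ 2 * r / U.length) ≤ e * U.length := by
    rw [← mul_div_assoc, div_le_iff₀ hM]
    nlinarith [mul_le_mul_of_nonneg_right hJ (show 0 ≤ 6 * (D.length : ℚ) ^ 2 * r by positivity)]
  have b2 : J.length * (6 * D.length * r / (U.length : ℚ) ^ 2) ≤ e := by
    rw [← mul_div_assoc, div_le_iff₀ (by positivity)]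
    have c1 := mul_le_mul_of_nonneg_right hJ (show 0 ≤ (D.length : ℚ) * r by positivity)
    have c2 := mul_le_mul_of_nonneg_right hn' (show 0 ≤ (D.length : ℚ) ^ 2 * r by positivity)
    nlinarith
  have h1 := avg_clients hE hn hc hd hdec H J H.ok.hJ
  have h2 := mul_le_mul_of_nonneg_left (avg_led hE H K hK) hμ
  rw [mul_sum, ← sub_nonpos, ← sum_sub_distrib] at h1
  rw [mul_sum, mul_zero] at h2
  have h3 := add_nonpos h1 h2
  rw [← sum_add_distrib] at h3
  refine le_trans (sum_le_sum fun l _ => ?_) h3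
  rcases Nat.eq_zero_or_pos (s.1.getD l 0) with h4 | h4
  · unfold rt rd yq; rw [h4]; simp
  have c1 : (res U.length (opn2 E D U.length s l) : ℚ) + U.length ≤ res U.length s := by
    exact_mod_cast res_opn D U.length h4
  have c2 : (res U.length (dec s l) : ℚ) + 1 ≤ res U.length s := by
    exact_mod_cast res_dec U.length h4
  have c3 := mul_le_mul_of_nonneg_left (add_le_add b1 (mul_le_mul_of_nonneg_left c1 e0))
    (rt_nonneg hE D U.length s l)
  have c4 := mul_le_mul_of_nonneg_left (add_le_add b2 (mul_le_mul_of_nonneg_left c2 e0))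
    (rd_nonneg (E := E) D U.length s l)
  unfold phi2
  linarith

theorem mem_moves {M : ℕ} {s s' : St} : s' ∈ moves2 E D M s ↔
    ∃ l < D.length, 0 < s.1.getD l 0 ∧ (s' = opn2 E D M s l ∨ s' = dec s l) := by
  simp [moves2, and_assoc]

end Step2Aux

theorem step_stmt2 {E : ℕ} (hE : 10000 ≤ E) (hn : CNStmt E) (hc : ClientStmt2 E) (hd : DropStmt E)
    (he : DecStmt E) : StepStmt2 E := by
  intro D J F r y U K μ e s ok bdd y0 yF y1 M0 hμ he' good hK
  have H : Ctx D J F r y U.length s := ⟨ok, bdd, y0, yF, y1, M0, good⟩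
  unfold step2
  split_ifs with h
  · refine ⟨good, ?_, le_rfl⟩
    have : s.1.sum = 0 := by
      rw [sum_eq_range]
      refine sum_eq_zero fun l hl => ?_
      by_contra h1
      have : dec s l ∈ moves2 E D U.length s :=
        Step2Aux.mem_moves.2 ⟨l, good.len ▸ mem_range.1 hl, by omega, Or.inr rfl⟩
      rw [h] at this
      simp at this
    omega
  · obtain ⟨l, hl, h1, h2⟩ := Step2Aux.mem_moves.1 (amin_mem (phi2 E D J y U K μ e) h)
    refine ⟨?_, ?_, ?_⟩
    · rcases h2 with h2 | h2 <;> rw [h2]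
      · exact Step2Aux.good_opn H h1
      · exact H.good_dec l
    · rcases h2 with h2 | h2 <;> rw [h2]
      · have := Step2Aux.sum_opn (E := E) D U.length h1; omega
      · have := sum_dec h1; omega
    · by_contra h3
      have pos : ∀ s' ∈ moves2 E D U.length s,
          0 < phi2 E D J y U K μ e s' - phi2 E D J y U K μ e s :=
        fun s' hs' => by linarith [amin_le (phi2 E D J y U K μ e) hs']
      refine absurd (Step2Aux.avg_phi hE hn hc hd he H K hμ he' hK) (not_le.2 (sum_pos'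
        (fun i hi => ?_) ⟨l, mem_range.2 hl, ?_⟩))
      · rcases Nat.eq_zero_or_pos (s.1.getD i 0) with h4 | h4
        · unfold Step2Aux.rt Step2Aux.rd yq; rw [h4]; simp
        · exact add_nonneg (mul_nonneg (Step2Aux.rt_nonneg hE _ _ _ _)
            (pos _ (Step2Aux.mem_moves.2 ⟨i, mem_range.1 hi, h4, Or.inl rfl⟩)).le)
            (mul_nonneg (Step2Aux.rd_nonneg _ _ _ _)
            (pos _ (Step2Aux.mem_moves.2 ⟨i, mem_range.1 hi, h4, Or.inr rfl⟩)).le)
      · refine add_pos_of_pos_of_nonneg (mul_pos (div_pos (mul_pos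
          (Step2Aux.omg_pos hE _ _ _ _) ?_) (Step2Aux.qq_pos hE _ _ _ _))
          (pos _ (Step2Aux.mem_moves.2 ⟨l, hl, h1, Or.inl rfl⟩)))
          (mul_nonneg (Step2Aux.rd_nonneg _ _ _ _)
            (pos _ (Step2Aux.mem_moves.2 ⟨l, hl, h1, Or.inr rfl⟩)).le)
        exact div_pos (by exact_mod_cast h1) (by exact_mod_cast M0)

end Vale.Agent.P334
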