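import Vale.Agent.P334.Basic

/-! The statements that connect the parts of the proof. -/

namespace Vale.Agent.P334

open Finset

/-- A nonempty list of facilities. -/
def Sol (F S : List ℕ) : Prop := S ≠ [] ∧ ∀ i ∈ S, i ∈ F

/-- All distances are at most `3 n r`. -/
def Bdd (D : Mx) (r : ℚ) : Prop :=
  0 < r ∧ ∀ i < D.length, ∀ j < D.length, dd D i j ≤ 3 * D.length * r

/-- The multiplicative weights method solves the relaxation up to an additive error. -/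
def MWStmt : Prop := ∀ (D : Mx) (J F : List ℕ) (k : ℕ) (r : ℚ), Ok D J F → Bdd D r → 1 ≤ k →
  k ≤ D.length →
    (∀ i, 0 ≤ (mw D J F k r).getD i 0) ∧ (∀ i, i ∉ F → (mw D J F k r).getD i 0 = 0) ∧
    ∑ i ∈ range D.length, (mw D J F k r).getD i 0 = k ∧
    ∀ S, Sol F S → S.length ≤ k → lpv D J (mw D J F k r) ≤ cost D J S + r / 10000

/-- The pseudo-approximation. -/
def PseudoStmt : Prop := ∀ (D : Mx) (J F : List ℕ) (k : ℕ) (r : ℚ), Ok D J F → Bdd D r → 1 ≤ k →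
  k ≤ D.length →
    Sol F (pseudo D J F k r) ∧ (pseudo D J F k r).length ≤ k + cc ∧
    ∀ S, Sol F S → S.length ≤ k →
      cost D J (pseudo D J F k r) ≤ 19952 / 10000 * cost D J S + r / 1000

/-- Either few facilities suffice, or guessing finds a good solution. -/
def ReduceStmt : Prop := ∀ (D : Mx) (J F S T : List ℕ) (k : ℕ) (r : ℚ), Ok D J F → 0 < r →
  Sol F S → S.length ≤ k → Sol F T → T.length ≤ k + cc → cost D J T ≤ 2 * (cost D J S + r) →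
    (∃ S₁, Sol F S₁ ∧ S₁.length + cc ≤ k ∧ cost D J S₁ ≤ cost D J S + (cost D J S + r) / 10000) ∨
    ∃ W ∈ guess D J F T tt, Sol F W ∧ W.length ≤ k ∧
      cost D J W ≤ 3 / 2 * (cost D J S + (cost D J S + r) / 10000)

/-- The approximation guarantee. -/
def AlgStmt : Prop := ∀ (D : Mx) (J F : List ℕ) (k : ℕ), Ok D J F → 1 ≤ k → k ≤ D.length →
  Sol F (alg D J F k) ∧ (alg D J F k).length ≤ k ∧
    ∀ S, Sol F S → S.length ≤ k → cost D J (alg D J F k) ≤ 1999 / 1000 * cost D J S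

/-- The potential of a client with shares `x`, distances `d`, and open distance `t`. -/
def psiV (s : Finset ℕ) (x d : ℕ → ℚ) (t : ℚ) : ℚ := psi (∑ i ∈ s, x i) (∑ i ∈ s, x i * d i) t

/-- The data seen by one client in one step. -/
structure Local (s : Finset ℕ) (x y d lm u q om V : ℕ → ℚ) (h : ℕ → ℕ → ℚ) (t : ℚ) : Prop where
  x0 : ∀ i ∈ s, 0 ≤ x i
  xy : ∀ i ∈ s, x i ≤ y i
  m1 : ∑ i ∈ s, x i ≤ 1
  d0 : ∀ i ∈ s, 0 ≤ d i
  t0 : 0 ≤ t
  lm0 : ∀ i ∈ s, 0 ≤ lm i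
  h0 : ∀ i ∈ s, ∀ l ∈ s, 0 ≤ h i l
  h1 : ∀ i ∈ s, ∀ l ∈ s, h i l ≤ 1
  u0 : ∀ i ∈ s, 0 ≤ u i
  tot : ∀ i ∈ s, ∑ l ∈ s, y l * h i l + u i = 1
  k1 : ∀ i ∈ s, ∀ l ∈ s, 0 < h i l → d l ≤ d i + lm i
  k2 : ∀ i ∈ s, ∀ l ∈ s, 1 / 2 < h i l → d l ≤ d i + 10 / 11 * lm i
  k3 : ∀ i ∈ s, ∀ l ∈ s, h i l < 1 / 2 → lm i ≤ d i + d l
  k4 : ∀ i ∈ s, ∀ l ∈ s, h i l < 1 → lm i ≤ 11 / 10 * (d i + d l)
  k5 : ∀ i ∈ s, 2001 / 2000 * lm i ≤ d i + t
  k6 : ∀ i ∈ s, 0 < u i → t ≤ d i + 2001 / 2000 * lm i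
  q0 : ∀ l ∈ s, 0 < q l
  q1 : ∀ l ∈ s, q l ≤ 1
  om0 : ∀ l ∈ s, 1 - (1 - ∑ i ∈ s, x i * h i l) / 100000 ≤ om l
  om1 : ∀ l ∈ s, om l ≤ 1 + 1 / 100000
  vb : ∀ l ∈ s, 0 < y l → V l ≤ psiV s (fun i => x i * (1 - q l * h i l)) d (min t (d l))
  va : ∀ l ∈ s, 0 < y l → V l ≤
    psiV s (fun i => if 2 * d i ≤ min t (d l) then x i * (1 - q l * h i l) else 0) d (min t (d l))

/-- The first order change of the potential when a share decays. -/
def dcy (m a t e : ℚ) : ℚ :=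
  (1 - 1 / 50000 + 2 * m / 50000) * t - a / 4 - (399 / 200 - (1 - m) / 4) * e

/-- The potential of a client does not increase on average. -/
def ClientStmt : Prop := ∀ (s : Finset ℕ) (x y d lm u q om V : ℕ → ℚ) (h : ℕ → ℕ → ℚ) (t : ℚ),
  Local s x y d lm u q om V h t →
    ∑ l ∈ s, om l * y l / q l * (V l - psiV s x d t) +
      ∑ i ∈ s, u i * x i * dcy (∑ i ∈ s, x i) (∑ i ∈ s, x i * d i) t (d i) ≤ 0

/-- Valid states below the fractional solution `y`. -/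
structure Good (D : Mx) (F : List ℕ) (y : List ℚ) (M : ℕ) (s : St) : Prop where
  len : s.1.length = D.length
  le : ∀ i, (s.1.getD i 0 : ℚ) ≤ M * y.getD i 0
  sol : Sol F s.2

/-- One step keeps validity, reduces the mass, and does not increase the potential. -/
def StepStmt : Prop := ∀ (D : Mx) (J F : List ℕ) (r : ℚ) (y : List ℚ) (U K : List ℕ) (μ e : ℚ)
  (s : St), Ok D J F → Bdd D r → (∀ i, 0 ≤ y.getD i 0) → (∀ i, i ∉ F → y.getD i 0 = 0) →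
  1 ≤ ∑ i ∈ range D.length, y.getD i 0 → 0 < U.length → 0 ≤ μ →
  6 * (D.length : ℚ) ^ 3 * r ≤ e * (U.length : ℚ) ^ 2 → Good D F y U.length s →
  s.1.sum ≤ K.length →
    Good D F y U.length (step D J y U K μ e s) ∧
    (step D J y U K μ e s).1.sum ≤ s.1.sum - 1 ∧
    phi D J y U K μ e (step D J y U K μ e s) ≤ phi D J y U K μ e s

end Vale.Agent.P334
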