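import Vale.Agent.P334.Defs
import Vale.Agent.P334.Stmts
import Vale.Agent.Lib.PolyTime.More

/-! The parser and the bridge to instances. -/

namespace Vale.Agent.P334

open Finset

theorem fin_flat {β : Type} (m : ℕ) (b : β) {r : ℕ} (hr : r < m) (L : List (List β))
    (hL : ∀ l ∈ L, l.length = m) (i : ℕ) :
    L.flatten.getD (i * m + r) b = (L.getD i []).getD r b := by
  induction L generalizing i with
  | nil => simp
  | cons l L ih =>
    have hl : l.length = m := hL l (by simp)
    rw [List.flatten_cons]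
    cases i with
    | zero => rw [zero_mul, zero_add, List.getD_append _ _ _ _ (by omega)]; rfl
    | succ i =>
      rw [List.getD_append_right _ _ _ _ (by rw [hl, add_mul]; omega), hl,
        show (i + 1) * m + r - m = i * m + r by rw [add_mul]; omega,
        ih fun l hl => hL l (by simp [hl])]
      rfl

theorem fin_ofFn {β : Type} {n : ℕ} (f : Fin n → β) (b : β) (x : Fin n) :
    (List.ofFn f).getD x b = f x := by
  rw [List.getD_eq_getElem _ _ (by simp)]
  simp

variable (I : Inst)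

theorem fin_n : I.nums.getD 0 0 = I.n := rfl

theorem fin_k : I.nums.getD 1 0 = I.k := rfl

theorem fin_len : I.n ≤ I.nums.length := by
  simp only [Inst.nums, List.length_append, List.length_ofFn]
  omega

theorem fin_J (x : Fin I.n) : I.nums.getD (2 + x) 0 = if x ∈ I.J then 1 else 0 := by
  have := x.2
  rw [Inst.nums, List.getD_append _ _ _ _ (by simp; omega), List.getD_append _ _ _ _ (by simp; omega),
    List.getD_append_right _ _ _ _ (by simp)]
  simp

theorem fin_F (x : Fin I.n) : I.nums.getD (2 + I.n + x) 0 = if x ∈ I.F then 1 else 0 := by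
  have := x.2
  rw [Inst.nums, List.getD_append _ _ _ _ (by simp; omega),
    List.getD_append_right _ _ _ _ (by simp; omega)]
  have e : 2 + I.n + x - ([I.n, I.k] ++ List.ofFn fun x => if x ∈ I.J then 1 else 0).length = x := by
    simp only [List.length_append, List.length_ofFn, List.length_cons, List.length_nil]
    omega
  rw [e, fin_ofFn]

theorem fin_d (x y : Fin I.n) {e : ℕ} (he : e < 2) :
    I.nums.getD (2 + 2 * I.n + 2 * (x * I.n + y) + e) 0 =
      [(I.d x y).num.natAbs, (I.d x y).den].getD e 0 := by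
  have := y.2
  rw [Inst.nums, List.getD_append_right _ _ _ _ (by simp; omega)]
  have e1 : 2 + 2 * I.n + 2 * (x * I.n + y) + e - ([I.n, I.k] ++
      (List.ofFn fun x => if x ∈ I.J then 1 else 0) ++
      List.ofFn fun x => if x ∈ I.F then 1 else 0).length = x * (I.n * 2) + (y * 2 + e) := by
    simp only [List.length_append, List.length_ofFn, List.length_cons, List.length_nil]
    rw [← mul_assoc]
    omega
  rw [e1, fin_flat (I.n * 2) 0 (by omega), fin_ofFn, fin_flat 2 0 he, fin_ofFn]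
  · intro l hl
    obtain ⟨z, rfl⟩ := (List.mem_ofFn' _ _).1 hl
    rfl
  · intro l hl
    obtain ⟨z, rfl⟩ := (List.mem_ofFn' _ _).1 hl
    simp [List.length_flatten, List.map_ofFn, List.sum_ofFn]

/-- The parsed distance matrix. -/
def finD : Mx := (List.range I.n).map fun i => (List.range I.n).map fun j =>
  (I.nums.getD (2 + 2 * I.n + 2 * (i * I.n + j)) 0 : ℚ) /
    (I.nums.getD (2 + 2 * I.n + 2 * (i * I.n + j) + 1) 0 : ℚ)

/-- The parsed clients. -/
def finJ : List ℕ := (List.range I.n).filter fun j => decide (I.nums.getD (2 + j) 0 = 1)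

/-- The parsed facilities. -/
def finF : List ℕ := (List.range I.n).filter fun j => decide (I.nums.getD (2 + I.n + j) 0 = 1)

theorem fin_full : full I.nums = alg (finD I) (finJ I) (finF I) I.k := by
  rw [full, fin_n, fin_k, List.take_range, min_eq_left (fin_len I)]
  rfl

theorem fin_lenD : (finD I).length = I.n := by simp [finD]

theorem fin_nonneg (x y : Fin I.n) : 0 ≤ I.d x y := by
  have h := I.d_triangle x y x
  rw [(I.d_eq_zero x x).2 rfl, I.d_symm y x] at h
  linarith

theorem fin_dd (x y : Fin I.n) : dd (finD I) x y = I.d x y := by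
  have h0 := fin_d I x y (e := 0) two_pos
  have h1 := fin_d I x y (e := 1) one_lt_two
  rw [add_zero] at h0
  rw [dd, finD, getD_map_range, if_pos x.2, getD_map_range, if_pos y.2, h0, h1]
  have h2 : (((I.d x y).num.natAbs : ℕ) : ℚ) = (I.d x y).num := by
    rw [← Int.cast_natCast, Int.natAbs_of_nonneg (Rat.num_nonneg.2 (fin_nonneg I x y))]
  simp only [List.getD_cons_zero, List.getD_cons_succ]
  rw [h2, Rat.num_div_den]

theorem fin_memJ (j : ℕ) : j ∈ finJ I ↔ ∃ x ∈ I.J, x.val = j := by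
  rw [finJ, List.mem_filter, List.mem_range, decide_eq_true_eq]
  constructor
  · rintro ⟨h1, h2⟩
    refine ⟨⟨j, h1⟩, ?_, rfl⟩
    by_contra h
    rw [fin_J I ⟨j, h1⟩, if_neg h] at h2
    exact zero_ne_one h2
  · rintro ⟨x, hx, rfl⟩
    exact ⟨x.2, by rw [fin_J, if_pos hx]⟩

theorem fin_memF (j : ℕ) : j ∈ finF I ↔ ∃ x ∈ I.F, x.val = j := by
  rw [finF, List.mem_filter, List.mem_range, decide_eq_true_eq]
  constructor
  · rintro ⟨h1, h2⟩
    refine ⟨⟨j, h1⟩, ?_, rfl⟩
    by_contra h
    rw [fin_F I ⟨j, h1⟩, if_neg h] at h2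
    exact zero_ne_one h2
  · rintro ⟨x, hx, rfl⟩
    exact ⟨x.2, by rw [fin_F, if_pos hx]⟩

theorem fin_ok : Ok (finD I) (finJ I) (finF I) where
  refl i hi := by
    rw [fin_lenD] at hi
    exact (fin_dd I ⟨i, hi⟩ ⟨i, hi⟩).trans ((I.d_eq_zero _ _).2 rfl)
  symm i hi j hj := by
    rw [fin_lenD] at hi hj
    exact (fin_dd I ⟨i, hi⟩ ⟨j, hj⟩).trans ((I.d_symm _ _).trans (fin_dd I ⟨j, hj⟩ ⟨i, hi⟩).symm)
  tri i hi j hj l hl := by
    rw [fin_lenD] at hi hj hl
    have h := I.d_triangle ⟨i, hi⟩ ⟨j, hj⟩ ⟨l, hl⟩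
    rwa [← fin_dd, ← fin_dd, ← fin_dd] at h
  hJ j hj := by
    obtain ⟨x, -, rfl⟩ := (fin_memJ I j).1 hj
    rw [fin_lenD]; exact x.2
  lenJ := by
    rw [fin_lenD]
    exact (List.length_filter_le _ _).trans List.length_range.le
  hF j hj := by
    obtain ⟨x, -, rfl⟩ := (fin_memF I j).1 hj
    rw [fin_lenD]; exact x.2
  neF := by
    obtain ⟨x, hx⟩ := card_pos.1 (lt_of_lt_of_le I.one_le I.le_card)
    exact List.ne_nil_of_mem ((fin_memF I x).2 ⟨x, hx, rfl⟩)

theorem fin_cost {O : List ℕ} {S : Finset (Fin I.n)} (hS : S.Nonempty)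
    (h : O.toFinset = S.image Fin.val) : cost (finD I) (finJ I) O = I.cost S hS := by
  have hm : ∀ j, j ∈ O ↔ ∃ x ∈ S, x.val = j := fun j => by
    rw [← List.mem_toFinset, h, mem_image]
  have hJ : (finJ I).toFinset = I.J.image Fin.val := by
    ext j; rw [List.mem_toFinset, fin_memJ, mem_image]
  have hn : (finJ I).Nodup := List.nodup_range.filter _
  rw [cost, ← List.sum_toFinset _ hn, hJ,
    sum_image fun x _ y _ e => Fin.ext e]
  refine sum_congr rfl fun j _ => le_antisymm ?_ ?_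
  · refine le_inf' _ _ fun x hx => ?_
    rw [← fin_dd]
    exact dS_le _ ((hm x).2 ⟨x, hx, rfl⟩) _
  · obtain ⟨y, hy⟩ := hS
    obtain ⟨o, ho, e⟩ := dS_mem (finD I) (List.ne_nil_of_mem ((hm y).2 ⟨y, hy, rfl⟩)) j
    obtain ⟨x, hx, rfl⟩ := (hm o).1 ho
    rw [e, fin_dd]
    exact inf'_le _ hx

theorem final (hpt : Vale.Agent.Lib.PolyTime.PT full) (ha : AlgStmt) :
    HasApprox (1999 / 1000) := by
  refine ⟨fun I => full I.nums, hpt.machine (fun I : Inst => I.nums) id _ fun _ => rfl,
    fun I => ?_⟩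
  have hk : I.k ≤ (finD I).length := by
    rw [fin_lenD]
    exact I.le_card.trans ((card_le_univ _).trans (Fintype.card_fin _).le)
  obtain ⟨h1, h2, h3⟩ := ha _ _ _ I.k (fin_ok I) I.one_le hk
  beta_reduce
  rw [fin_full]
  generalize alg (finD I) (finJ I) (finF I) I.k = O at *
  have hO : O.toFinset = (univ.filter fun x : Fin I.n => x.val ∈ O).image Fin.val := by
    ext j
    simp only [List.mem_toFinset, mem_image, mem_filter, mem_univ, true_and]
    constructor
    · intro hj
      obtain ⟨x, -, rfl⟩ := (fin_memF I j).1 (h1.2 j hj)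
      exact ⟨x, hj, rfl⟩
    · rintro ⟨x, hx, rfl⟩
      exact hx
  have hS : (univ.filter fun x : Fin I.n => x.val ∈ O).Nonempty := by
    obtain ⟨j, hj⟩ := List.exists_mem_of_ne_nil O h1.1
    obtain ⟨x, -, rfl⟩ := (fin_memF I j).1 (h1.2 j hj)
    exact ⟨x, mem_filter.2 ⟨mem_univ _, hj⟩⟩
  have hF : (univ.filter fun x : Fin I.n => x.val ∈ O) ⊆ I.F := fun x hx => by
    obtain ⟨y, hy, e⟩ := (fin_memF I x).1 (h1.2 _ (mem_filter.1 hx).2)
    exact Fin.ext e ▸ hy
  have hc : (univ.filter fun x : Fin I.n => x.val ∈ O).card ≤ I.k := by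
    rw [← card_image_of_injective _ Fin.val_injective, ← hO]
    exact (List.toFinset_card_le O).trans h2
  refine ⟨_, hS, hO, hF, hc, ?_⟩
  rw [← div_le_iff₀' (by norm_num)]
  refine le_csInf ⟨_, _, hS, hF, hc, rfl⟩ ?_
  rintro _ ⟨T, hT, hTF, hTk, rfl⟩
  have h4 := h3 (T.image Fin.val).toList ⟨by simpa using hT.ne_empty, fun j hj => by
    obtain ⟨x, hx, rfl⟩ := mem_image.1 (mem_toList.1 hj)
    exact (fin_memF I x).2 ⟨x, hTF hx, rfl⟩⟩ (by
      rw [length_toList]; exact card_image_le.trans hTk)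
  rw [fin_cost I hS hO, fin_cost I hT (toList_toFinset _)] at h4
  rw [div_le_iff₀' (by norm_num)]
  have h5 := (Rat.cast_le (K := ℝ)).2 h4
  push_cast at h5
  exact h5

end Vale.Agent.P334
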