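import Vale.Agent.P334.Stmts

/-! Guessing the scale and truncating the metric. -/

namespace Vale.Agent.P334

open Finset

namespace TopAux

theorem sum_np {l : List ℚ} (h : ∀ x ∈ l, x ≤ 0) : l.sum ≤ 0 := by
  simpa using List.sum_le_card_nsmul l 0 h

theorem dd_trunc (D : Mx) {B : ℚ} (hB : 0 ≤ B) (i j : ℕ) :
    dd (trunc D B) i j = min (dd D i j) B := by
  simp only [dd, trunc, List.getD_eq_getElem?_getD, List.getElem?_map]
  cases D[i]? with
  | none => simp [hB]
  | some row =>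
    simp only [Option.map_some, Option.getD_some, List.getElem?_map]
    cases row[j]? with
    | none => simp [hB]
    | some a => simp

theorem length_trunc (D : Mx) (B : ℚ) : (trunc D B).length = D.length := List.length_map _

theorem ok_trunc {D : Mx} {J F : List ℕ} (h : Ok D J F) {B : ℚ} (hB : 0 ≤ B) :
    Ok (trunc D B) J F := by
  refine ⟨?_, ?_, ?_, ?_, ?_, ?_, h.neF⟩ <;> simp only [length_trunc, dd_trunc D hB]
  · intro i hi
    rw [h.refl i hi, min_eq_left hB]
  · intro i hi j hj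
    rw [h.symm i hi j hj]
  · intro i hi j hj l hl
    have h1 := h.tri i hi j hj l hl
    have h2 := h.nonneg hi hj
    have h3 := h.nonneg hj hl
    simp only [min_def]
    split_ifs <;> linarith
  · exact h.hJ
  · exact h.lenJ
  · exact h.hF

theorem mem_flatten {D : Mx} {i j : ℕ} (h : 0 < dd D i j) : dd D i j ∈ D.flatten := by
  simp only [dd, List.getD_eq_getElem?_getD] at h ⊢
  cases h1 : D[i]? with
  | none => simp [h1] at h
  | some row =>
    rw [h1, Option.getD_some] at h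
    rw [Option.getD_some]
    cases h2 : row[j]? with
    | none => simp [h2] at h
    | some a => exact List.mem_flatten.2 ⟨row, List.mem_of_getElem? h1, List.mem_of_getElem? h2⟩

theorem dS_trunc (D : Mx) {B : ℚ} (hB : 0 ≤ B) {O : List ℕ} (hO : O ≠ []) (j : ℕ) :
    dS (trunc D B) O j = min (dS D O j) B := by
  apply le_antisymm
  · obtain ⟨o, ho, e⟩ := dS_mem D hO j
    rw [e, ← dd_trunc D hB]
    exact dS_le _ ho j
  · obtain ⟨o, ho, e⟩ := dS_mem (trunc D B) hO j
    rw [e, dd_trunc D hB]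
    exact min_le_min_right _ (dS_le _ ho j)

theorem cost_trunc_le (D : Mx) (J : List ℕ) {B : ℚ} (hB : 0 ≤ B) {O : List ℕ} (hO : O ≠ []) :
    cost (trunc D B) J O ≤ cost D J O :=
  List.sum_le_sum fun j _ => by rw [dS_trunc D hB hO]; exact min_le_left _ _

theorem dS_le_cost {D : Mx} {J F O : List ℕ} (h : Ok D J F) (hO : Sol F O) {j : ℕ} (hj : j ∈ J) :
    dS D O j ≤ cost D J O :=
  List.single_le_sum (fun x hx => by
    obtain ⟨j, hj, rfl⟩ := List.mem_map.1 hx
    exact h.dS_nonneg hO.1 hO.2 (h.hJ j hj)) _ (List.mem_map_of_mem hj)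

theorem cost_eq {D : Mx} {J F O : List ℕ} (h : Ok D J F) {B : ℚ} (hB : 0 ≤ B) (hO : Sol F O)
    (hc : cost (trunc D B) J O < B) : cost D J O = cost (trunc D B) J O := by
  unfold cost
  congr 1
  refine List.map_congr_left fun j hj => ?_
  have h1 := (dS_le_cost (ok_trunc h hB) hO hj).trans_lt hc
  rw [dS_trunc D hB hO.1] at h1 ⊢
  exact (min_eq_left ((min_lt_iff.1 h1).resolve_right (lt_irrefl _)).le).symm

theorem core (hp : PseudoStmt) (hr : ReduceStmt) {D : Mx} {J F S : List ℕ} {k : ℕ}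
    (h : Ok D J F) (hk : 1 ≤ k) (hk' : k ≤ D.length) (hS : Sol F S) (hl : S.length ≤ k) {r : ℚ}
    (h0 : 0 < r) : ∃ W ∈ cands D J F k r, Sol F W ∧ W.length ≤ k ∧
      cost (trunc D (3 * D.length * r)) J W
        ≤ 19952 / 10000 * (cost D J S + (cost D J S + r) / 10000) + r / 1000 := by
  have hB : 0 ≤ 3 * (D.length : ℚ) * r := by positivity
  have h' := ok_trunc h hB
  have hb : Bdd (trunc D (3 * D.length * r)) r := ⟨h0, fun i _ j _ => by
    rw [dd_trunc D hB, length_trunc]
    exact min_le_right _ _⟩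
  have c0 := h'.cost_nonneg hS.1 hS.2
  have c1 := cost_trunc_le D J hB hS.1
  obtain ⟨t1, t2, t3⟩ := hp _ J F k r h' hb hk (by rwa [length_trunc])
  rcases hr _ J F S _ k r h' h0 hS hl t1 t2 (by linarith [t3 S hS hl]) with
    ⟨S₁, a1, a2, a3⟩ | ⟨W, a1, a2, a3, a4⟩
  · have a4 := List.length_pos_of_ne_nil a1.1
    obtain ⟨u1, u2, u3⟩ := hp _ J F (k - cc) r h' hb (by omega) (by rw [length_trunc]; omega)
    refine ⟨_, List.mem_cons_self, u1, by omega, ?_⟩
    linarith [u3 S₁ a1 (by omega)]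
  · exact ⟨W, List.mem_cons_of_mem _ a1, a2, a3, by linarith⟩

theorem sol_head {D : Mx} {J F : List ℕ} (h : Ok D J F) : Sol F [F.headI] := by
  refine ⟨by simp, fun i hi => ?_⟩
  rw [List.mem_singleton.1 hi]
  cases F with
  | nil => exact absurd rfl h.neF
  | cons a F => exact List.mem_cons_self

theorem exists_cand (hp : PseudoStmt) (hr : ReduceStmt) {D : Mx} {J F S : List ℕ} {k : ℕ}
    (h : Ok D J F) (hk : 1 ≤ k) (hk' : k ≤ D.length) (hS : Sol F S) (hl : S.length ≤ k) :
    ∃ W ∈ [F.headI] :: (D.flatten.filter fun r => decide (0 < r)).flatMap (cands D J F k),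
      Sol F W ∧ W.length ≤ k ∧ cost D J W ≤ 1999 / 1000 * cost D J S := by
  have hn : (1 : ℚ) ≤ D.length := by exact_mod_cast h.pos_len
  have hm : ∀ {i j W}, 0 < dd D i j → W ∈ cands D J F k (dd D i j) → W ∈ [F.headI] ::
      (D.flatten.filter fun r => decide (0 < r)).flatMap (cands D J F k) := fun h1 h2 =>
    List.mem_cons_of_mem _ (List.mem_flatMap.2
      ⟨_, List.mem_filter.2 ⟨mem_flatten h1, decide_eq_true h1⟩, h2⟩)
  rcases (h.cost_nonneg hS.1 hS.2).eq_or_lt with h0 | h0
  · rw [← h0, mul_zero]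
    rcases ((range D.length ×ˢ range D.length).filter
      fun q => 0 < dd D q.1 q.2).eq_empty_or_nonempty with he | hne
    · refine ⟨_, List.mem_cons_self, sol_head h, hk, sum_np fun x hx => ?_⟩
      obtain ⟨j, hj, rfl⟩ := List.mem_map.1 hx
      refine (dS_le D List.mem_cons_self j).trans (not_lt.1 fun h1 => ?_)
      refine filter_eq_empty_iff.1 he (x := (j, F.headI)) (mem_product.2 ⟨?_, ?_⟩) h1
      · exact mem_range.2 (h.hJ j hj)
      · exact mem_range.2 (h.hF _ ((sol_head h).2 _ List.mem_cons_self))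
    obtain ⟨q, hq, hmin⟩ := exists_min_image _ (fun q : ℕ × ℕ => dd D q.1 q.2) hne
    have hq0 := (mem_filter.1 hq).2
    obtain ⟨W, w1, w2, w3, w4⟩ := core hp hr h hk hk' hS hl hq0
    rw [← h0] at w4
    have w5 : cost (trunc D (3 * D.length * dd D q.1 q.2)) J W < dd D q.1 q.2 := by linarith
    rw [← cost_eq h (by positivity) w2 (by nlinarith)] at w5
    refine ⟨W, hm hq0 w1, w2, w3, sum_np fun x hx => ?_⟩
    obtain ⟨j, hj, rfl⟩ := List.mem_map.1 hx
    have w6 := (dS_le_cost h w2 hj).trans_lt w5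
    obtain ⟨o, ho, e⟩ := dS_mem D w2.1 j
    rw [e] at w6 ⊢
    refine not_lt.1 fun h1 => w6.not_ge (hmin (j, o) (mem_filter.2 ⟨mem_product.2 ⟨?_, ?_⟩, h1⟩))
    · exact mem_range.2 (h.hJ j hj)
    · exact mem_range.2 (h.hF _ (w2.2 o ho))
  · have hJ : J.toFinset.Nonempty := by
      rw [List.toFinset_nonempty_iff]
      rintro rfl
      exact lt_irrefl _ h0
    obtain ⟨j, hj, hmax⟩ := exists_max_image _ (dS D S) hJ
    have a1 := dS_le_cost h hS (List.mem_toFinset.1 hj)
    have a2 : cost D J S ≤ (J.length : ℚ) * dS D S j := by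
      have := List.sum_le_card_nsmul (J.map (dS D S)) (dS D S j) fun x hx => by
        obtain ⟨j', hj', rfl⟩ := List.mem_map.1 hx
        exact hmax j' (List.mem_toFinset.2 hj')
      rwa [List.length_map, nsmul_eq_mul] at this
    obtain ⟨o, -, e⟩ := dS_mem D hS.1 j
    rw [e] at a1 a2
    have a3 : 0 < dd D j o := by
      by_contra h1
      nlinarith [(Nat.cast_nonneg J.length : (0 : ℚ) ≤ _)]
    have a4 : (J.length : ℚ) * dd D j o ≤ D.length * dd D j o :=
      mul_le_mul_of_nonneg_right (by exact_mod_cast h.lenJ) a3.le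
    obtain ⟨W, w1, w2, w3, w4⟩ := core hp hr h hk hk' hS hl a3
    refine ⟨W, hm a3 w1, w2, w3, ?_⟩
    rw [cost_eq h (B := 3 * D.length * dd D j o) (by positivity) w2 (by linarith)]
    linarith

end TopAux

open TopAux in
theorem alg_stmt (hp : PseudoStmt) (hr : ReduceStmt) : AlgStmt := by
  intro D J F k h hk hk'
  have hf : ∀ {W}, W ∈ [F.headI] :: (D.flatten.filter fun r => decide (0 < r)).flatMap
      (cands D J F k) → Sol F W → W.length ≤ k →
      W ∈ ([F.headI] :: (D.flatten.filter fun r => decide (0 < r)).flatMap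
        (cands D J F k)).filter fun S => decide (S ≠ [] ∧ S.length ≤ k ∧ ∀ i ∈ S, i ∈ F) :=
    fun h1 h2 h3 => List.mem_filter.2 ⟨h1, decide_eq_true ⟨h2.1, h3, h2.2⟩⟩
  have h1 := of_decide_eq_true (List.mem_filter.1 (amin_mem (cost D J)
    (List.ne_nil_of_mem (hf List.mem_cons_self (sol_head h) hk)))).2
  refine ⟨⟨h1.1, h1.2.2⟩, h1.2.1, fun S hS hl => ?_⟩
  obtain ⟨W, w1, w2, w3, w4⟩ := exists_cand hp hr h hk hk' hS hl
  exact (amin_le (cost D J) (hf w1 w2 w3)).trans w4

end Vale.Agent.P334
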