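import Vale.Agent.P334.Stmts2
import Vale.Agent.P334.Top
import Vale.Agent.P334.Final

/-! Guessing the scale and truncating the metric, with the accuracy parameter `E`. -/

namespace Vale.Agent.P334

open Finset

namespace Top2Aux

open TopAux

theorem ginv {E : ℕ} (hE : 10000 ≤ E) : 0 < (E : ℚ)⁻¹ ∧ (E : ℚ)⁻¹ ≤ 1 / 10000 := by
  have h : (10000 : ℚ) ≤ E := by exact_mod_cast hE
  refine ⟨by positivity, ?_⟩
  rw [one_div]
  exact inv_anti₀ (by norm_num) h

theorem core2 {E : ℕ} (hE : 10000 ≤ E) (hn : CNStmt E) (hp : PseudoStmt2 E)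
    (hr : ReduceStmt2 E) {D : Mx} {J F S : List ℕ} {k : ℕ}
    (h : Ok D J F) (hk : 1 ≤ k) (hk' : k ≤ D.length) (hS : Sol F S) (hl : S.length ≤ k) {r : ℚ}
    (h0 : 0 < r) : ∃ W ∈ cands2 E D J F k r, Sol F W ∧ W.length ≤ k ∧
      cost (trunc D (3 * D.length * r)) J W
        ≤ (cN E 1 + 102 * (E : ℚ)⁻¹) * (cost D J S + (cost D J S + r) * (E : ℚ)⁻¹) +
          6 * r * (E : ℚ)⁻¹ := by
  have hB : 0 ≤ 3 * (D.length : ℚ) * r := by positivity
  have h' := ok_trunc h hB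
  have hb : Bdd (trunc D (3 * D.length * r)) r := ⟨h0, fun i _ j _ => by
    rw [dd_trunc D hB, length_trunc]
    exact min_le_right _ _⟩
  have c0 := h'.cost_nonneg hS.1 hS.2
  have c1 := cost_trunc_le D J hB hS.1
  obtain ⟨g0, g1⟩ := ginv hE
  have l1 := hn.low
  have l2 := hn.up
  obtain ⟨t1, t2, t3⟩ := hp _ J F k r h' hb hk (by rwa [length_trunc])
  have t4 := t3 S hS hl
  have key : ∀ x : ℚ, x ≤ cost (trunc D (3 * D.length * r)) J S +
      (cost (trunc D (3 * D.length * r)) J S + r) / E →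
      x ≤ cost D J S + (cost D J S + r) * (E : ℚ)⁻¹ := fun x hx => by
    rw [div_eq_mul_inv] at hx
    nlinarith
  simp only [div_eq_mul_inv] at t4
  rcases hr _ J F S _ k r h' h0 hS hl t1 t2 (by nlinarith) with
    ⟨S₁, a1, a2, a3⟩ | ⟨W, a1, a2, a3, a4⟩
  · have a4 := List.length_pos_of_ne_nil a1.1
    obtain ⟨u1, u2, u3⟩ := hp _ J F (k - cc2 E) r h' hb (by omega) (by rw [length_trunc]; omega)
    refine ⟨_, List.mem_cons_self, u1, by omega, ?_⟩
    have u4 := u3 S₁ a1 (by omega)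
    simp only [div_eq_mul_inv] at u4
    have u5 := mul_le_mul_of_nonneg_left (key _ a3)
      (show 0 ≤ cN E 1 + 102 * (E : ℚ)⁻¹ by linarith)
    linarith
  · refine ⟨W, List.mem_cons_of_mem _ a1, a2, a3, ?_⟩
    have u1 := key _ le_rfl
    have u2 : 0 ≤ cost D J S + (cost D J S + r) * (E : ℚ)⁻¹ := by
      have : 0 ≤ cost D J S := c0.trans c1
      positivity
    have u3 := mul_le_mul_of_nonneg_right (show 3 / 2 ≤ cN E 1 + 102 * (E : ℚ)⁻¹ by linarith) u2
    have u4 : 0 ≤ 6 * r * (E : ℚ)⁻¹ := by positivity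
    linarith

theorem num1 {c g r : ℚ} (l2 : c ≤ 7 / 4) (g0 : 0 < g) (g1 : g ≤ 1 / 10000) (h0 : 0 < r) :
    (c + 102 * g) * (0 + (0 + r) * g) + 6 * r * g < r := by
  have h1 : (c + 102 * g) * (r * g) ≤ 2 * (r * g) :=
    mul_le_mul_of_nonneg_right (by linarith) (by positivity)
  have h2 : r * g ≤ r * (1 / 10000) := mul_le_mul_of_nonneg_left g1 h0.le
  nlinarith

theorem num2 {c g r C : ℚ} (_l1 : 3 / 2 ≤ c) (l2 : c ≤ 7 / 4) (g0 : 0 < g) (g1 : g ≤ 1 / 10000)
    (h0 : 0 < r) (h1 : r ≤ C) :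
    (c + 102 * g) * (C + (C + r) * g) + 6 * r * g ≤ (c + 120 * g) * C := by
  have hC : 0 ≤ C := by linarith
  have h2 : (c + 102 * g) * ((C + r) * g) ≤ 2 * (2 * C * g) :=
    mul_le_mul (by linarith) (mul_le_mul_of_nonneg_right (by linarith) g0.le) (by positivity)
      (by norm_num)
  have h3 : r * g ≤ C * g := mul_le_mul_of_nonneg_right h1 g0.le
  have h4 : 0 ≤ C * g := by positivity
  nlinarith

theorem exists_cand2 {E : ℕ} (hE : 10000 ≤ E) (hn : CNStmt E) (hp : PseudoStmt2 E)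
    (hr : ReduceStmt2 E) {D : Mx} {J F S : List ℕ} {k : ℕ}
    (h : Ok D J F) (hk : 1 ≤ k) (hk' : k ≤ D.length) (hS : Sol F S) (hl : S.length ≤ k) :
    ∃ W ∈ [F.headI] :: (D.flatten.filter fun r => decide (0 < r)).flatMap (cands2 E D J F k),
      Sol F W ∧ W.length ≤ k ∧ cost D J W ≤ (cN E 1 + 120 / E) * cost D J S := by
  obtain ⟨g0, g1⟩ := ginv hE
  have l1 := hn.low
  have l2 := hn.up
  have hn1 : (1 : ℚ) ≤ D.length := by exact_mod_cast h.pos_len
  have hm : ∀ {i j W}, 0 < dd D i j → W ∈ cands2 E D J F k (dd D i j) → W ∈ [F.headI] ::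
      (D.flatten.filter fun r => decide (0 < r)).flatMap (cands2 E D J F k) := fun h1 h2 =>
    List.mem_cons_of_mem _ (List.mem_flatMap.2
      ⟨_, List.mem_filter.2 ⟨mem_flatten h1, decide_eq_true h1⟩, h2⟩)
  rcases (h.cost_nonneg hS.1 hS.2).eq_or_lt with h0 | h0
  · rw [← h0, mul_zero]
    rcases ((range D.length ×ˢ range D.length).filter
      fun q => 0 < dd D q.1 q.2).eq_empty_or_nonempty with he | hne
    · refine ⟨_, List.mem_cons_self, sol_head h, hk, sum_np fun x hx => ?_⟩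
      obtain ⟨j, hj, rfl⟩ := List.mem_map.1 hx
      refine (dS_le D List.mem_cons_self j).trans (not_lt.1 fun h1 => ?_)
      refine filter_eq_empty_iff.1 he (x := (j, F.headI)) (mem_product.2 ⟨?_, ?_⟩) h1
      · exact mem_range.2 (h.hJ j hj)
      · exact mem_range.2 (h.hF _ ((sol_head h).2 _ List.mem_cons_self))
    obtain ⟨q, hq, hmin⟩ := exists_min_image _ (fun q : ℕ × ℕ => dd D q.1 q.2) hne
    have hq0 := (mem_filter.1 hq).2
    obtain ⟨W, w1, w2, w3, w4⟩ := core2 hE hn hp hr h hk hk' hS hl hq0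
    rw [← h0] at w4
    have w5 : cost (trunc D (3 * D.length * dd D q.1 q.2)) J W < dd D q.1 q.2 :=
      w4.trans_lt (num1 l2 g0 g1 hq0)
    rw [← cost_eq h (by positivity) w2 (by nlinarith)] at w5
    refine ⟨W, hm hq0 w1, w2, w3, sum_np fun x hx => ?_⟩
    obtain ⟨j, hj, rfl⟩ := List.mem_map.1 hx
    have w6 := (dS_le_cost h w2 hj).trans_lt w5
    obtain ⟨o, ho, e⟩ := dS_mem D w2.1 j
    rw [e] at w6 ⊢
    refine not_lt.1 fun h1 => w6.not_ge (hmin (j, o) (mem_filter.2 ⟨mem_product.2 ⟨?_, ?_⟩, h1⟩))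
    · exact mem_range.2 (h.hJ j hj)
    · exact mem_range.2 (h.hF _ (w2.2 o ho))
  · have hJ : J.toFinset.Nonempty := by
      rw [List.toFinset_nonempty_iff]
      rintro rfl
      exact lt_irrefl _ h0
    obtain ⟨j, hj, hmax⟩ := exists_max_image _ (dS D S) hJ
    have a1 := dS_le_cost h hS (List.mem_toFinset.1 hj)
    have a2 : cost D J S ≤ (J.length : ℚ) * dS D S j := by
      have := List.sum_le_card_nsmul (J.map (dS D S)) (dS D S j) fun x hx => by
        obtain ⟨j', hj', rfl⟩ := List.mem_map.1 hx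
        exact hmax j' (List.mem_toFinset.2 hj')
      rwa [List.length_map, nsmul_eq_mul] at this
    obtain ⟨o, -, e⟩ := dS_mem D hS.1 j
    rw [e] at a1 a2
    have a3 : 0 < dd D j o := by
      by_contra h1
      nlinarith [(Nat.cast_nonneg J.length : (0 : ℚ) ≤ _)]
    have a4 : (J.length : ℚ) * dd D j o ≤ D.length * dd D j o :=
      mul_le_mul_of_nonneg_right (by exact_mod_cast h.lenJ) a3.le
    obtain ⟨W, w1, w2, w3, w4⟩ := core2 hE hn hp hr h hk hk' hS hl a3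
    refine ⟨W, hm a3 w1, w2, w3, ?_⟩
    have w5 := w4.trans (num2 l1 l2 g0 g1 a3 a1)
    have w6 : (cN E 1 + 120 * (E : ℚ)⁻¹) * cost D J S ≤ 2 * cost D J S :=
      mul_le_mul_of_nonneg_right (by linarith) h0.le
    rw [cost_eq h (B := 3 * D.length * dd D j o) (by positivity) w2 (by linarith),
      div_eq_mul_inv]
    exact w5

theorem fin_full2 (E : ℕ) (I : Inst) :
    full2 E I.nums = alg2 E (finD I) (finJ I) (finF I) I.k := by
  rw [full2, fin_n, fin_k, List.take_range, min_eq_left (fin_len I)]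
  rfl

theorem final_aux {E : ℕ} (hpt : Vale.Agent.Lib.PolyTime.PT (full2 E)) (ha : AlgStmt2 E)
    {c : ℝ} (hc0 : 0 < c) (hc1 : ((cN E 1 + 120 / E : ℚ) : ℝ) ≤ c) : HasApprox c := by
  refine ⟨fun I => full2 E I.nums, hpt.machine (fun I : Inst => I.nums) id _ fun _ => rfl,
    fun I => ?_⟩
  have hk : I.k ≤ (finD I).length := by
    rw [fin_lenD]
    exact I.le_card.trans ((card_le_univ _).trans (Fintype.card_fin _).le)
  obtain ⟨h1, h2, h3⟩ := ha _ _ _ I.k (fin_ok I) I.one_le hk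
  beta_reduce
  rw [fin_full2]
  generalize alg2 E (finD I) (finJ I) (finF I) I.k = O at *
  have hO : O.toFinset = (univ.filter fun x : Fin I.n => x.val ∈ O).image Fin.val := by
    ext j
    simp only [List.mem_toFinset, mem_image, mem_filter, mem_univ, true_and]
    constructor
    · intro hj
      obtain ⟨x, -, rfl⟩ := (fin_memF I j).1 (h1.2 j hj)
      exact ⟨x, hj, rfl⟩
    · rintro ⟨x, hx, rfl⟩
      exact hx
  have hS : (univ.filter fun x : Fin I.n => x.val ∈ O).Nonempty := by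
    obtain ⟨j, hj⟩ := List.exists_mem_of_ne_nil O h1.1
    obtain ⟨x, -, rfl⟩ := (fin_memF I j).1 (h1.2 j hj)
    exact ⟨x, mem_filter.2 ⟨mem_univ _, hj⟩⟩
  have hF : (univ.filter fun x : Fin I.n => x.val ∈ O) ⊆ I.F := fun x hx => by
    obtain ⟨y, hy, e⟩ := (fin_memF I x).1 (h1.2 _ (mem_filter.1 hx).2)
    exact Fin.ext e ▸ hy
  have hc : (univ.filter fun x : Fin I.n => x.val ∈ O).card ≤ I.k := by
    rw [← card_image_of_injective _ Fin.val_injective, ← hO]
    exact (List.toFinset_card_le O).trans h2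
  refine ⟨_, hS, hO, hF, hc, ?_⟩
  rw [← div_le_iff₀' hc0]
  refine le_csInf ⟨_, _, hS, hF, hc, rfl⟩ ?_
  rintro _ ⟨T, hT, hTF, hTk, rfl⟩
  have h4 := h3 (T.image Fin.val).toList ⟨by simpa using hT.ne_empty, fun j hj => by
    obtain ⟨x, hx, rfl⟩ := mem_image.1 (mem_toList.1 hj)
    exact (fin_memF I x).2 ⟨x, hTF hx, rfl⟩⟩ (by
      rw [length_toList]; exact card_image_le.trans hTk)
  rw [fin_cost I hS hO, fin_cost I hT (toList_toFinset _)] at h4
  rw [div_le_iff₀' hc0]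
  have h5 := (Rat.cast_le (K := ℝ)).2 h4
  rw [Rat.cast_mul] at h5
  refine h5.trans (mul_le_mul_of_nonneg_right hc1 ?_)
  have h6 : 0 ≤ I.cost T hT :=
    sum_nonneg fun j _ => le_inf' _ _ fun x _ => fin_nonneg I j x
  exact_mod_cast h6

end Top2Aux

open TopAux Top2Aux in
theorem alg_stmt2 {E : ℕ} (hE : 10000 ≤ E) (hn : CNStmt E) (hp : PseudoStmt2 E)
    (hr : ReduceStmt2 E) : AlgStmt2 E := by
  intro D J F k h hk hk'
  have hf : ∀ {W}, W ∈ [F.headI] :: (D.flatten.filter fun r => decide (0 < r)).flatMap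
      (cands2 E D J F k) → Sol F W → W.length ≤ k →
      W ∈ ([F.headI] :: (D.flatten.filter fun r => decide (0 < r)).flatMap
        (cands2 E D J F k)).filter fun S => decide (S ≠ [] ∧ S.length ≤ k ∧ ∀ i ∈ S, i ∈ F) :=
    fun h1 h2 h3 => List.mem_filter.2 ⟨h1, decide_eq_true ⟨h2.1, h3, h2.2⟩⟩
  have h1 := of_decide_eq_true (List.mem_filter.1 (amin_mem (cost D J)
    (List.ne_nil_of_mem (hf List.mem_cons_self (sol_head h) hk)))).2
  refine ⟨⟨h1.1, h1.2.2⟩, h1.2.1, fun S hS hl => ?_⟩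
  obtain ⟨W, w1, w2, w3, w4⟩ := exists_cand2 hE hn hp hr h hk hk' hS hl
  exact (amin_le (cost D J) (hf w1 w2 w3)).trans w4

open Top2Aux in
theorem final2 (h : ∀ E : ℕ, 10000 ≤ E →
      Vale.Agent.Lib.PolyTime.PT (full2 E) ∧ CNStmt E ∧ AlgStmt2 E)
    (c : ℝ) (hc : 1 + 2 / Real.exp 1 < c) : HasApprox c := by
  have he : 0 < 2 / Real.exp 1 := by positivity
  obtain ⟨N, hN⟩ := exists_nat_ge (122 / (c - 1 - 2 / Real.exp 1))
  obtain ⟨h1, h2, h3⟩ := h (max N 10000) (le_max_right _ _)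
  refine final_aux h1 h3 (by linarith) ?_
  have h4 := h2.top
  have h5 : (0 : ℝ) < (max N 10000 : ℕ) := by
    exact_mod_cast lt_of_lt_of_le (by norm_num) (le_max_right N 10000)
  have h6 : 122 / ((max N 10000 : ℕ) : ℝ) ≤ c - 1 - 2 / Real.exp 1 := by
    rw [div_le_iff₀ h5, mul_comm, ← div_le_iff₀ (by linarith)]
    exact hN.trans (by exact_mod_cast le_max_left N 10000)
  have h7 : 122 / ((max N 10000 : ℕ) : ℝ) =
      2 / ((max N 10000 : ℕ) : ℝ) + 120 / ((max N 10000 : ℕ) : ℝ) := by ring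
  rw [Rat.cast_add, Rat.cast_div, Rat.cast_natCast, Rat.cast_ofNat]
  linarith

end Vale.Agent.P334
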