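import Vale.Agent.P334.AlgoPT2
import Vale.Agent.P334.CN
import Vale.Agent.P334.Client2
import Vale.Agent.P334.Inside2
import Vale.Agent.P334.MW2
import Vale.Agent.P334.Pot2
import Vale.Agent.P334.Price2
import Vale.Agent.P334.Pseudo2
import Vale.Agent.P334.Reduce2
import Vale.Agent.P334.Split2
import Vale.Agent.P334.Step2
import Vale.Agent.P334.Top2
import Vale.Agent.P334.CertTop

/-! The assembly of the parts of the sharp bound. -/

namespace Vale.Agent.P334

theorem sharp (c : ℝ) (hc : 1 + 2 / Real.exp 1 < c) : HasApprox c := by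
  refine final2 (fun E hE => ?_) c hc
  have hn := cn_stmt hE
  have hk := kill_stmt hE hn
  have hd := drop_stmt hE hn
  have hs := split_stmt hE hn hk (inside_stmt hE hn hk hd) (price_stmt hE hn hk)
  have hp := pseudo_stmt2 hE hn (mw_stmt2 hE)
    (step_stmt2 hE hn (client_stmt2 hE hn hs cert_stmt) hd (dec_stmt hE hn))
  exact ⟨pt_full2 E, hn, alg_stmt2 hE hn hp (reduce_stmt2 hE)⟩

end Vale.Agent.P334
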