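import Vale.Agent.P334.Algo

/-! Basic facts on minima, on the nearest unit of mass, and on distances. -/

namespace Vale.Agent.P334

open Finset

theorem foldl_min_le_iff (l : List ℚ) (a b : ℚ) :
    b ≤ l.foldl min a ↔ b ≤ a ∧ ∀ x ∈ l, b ≤ x := by
  induction l generalizing a with
  | nil => simp
  | cons y l ih => simp [ih, and_assoc]

theorem foldl_min_mem (l : List ℚ) (a : ℚ) : l.foldl min a = a ∨ l.foldl min a ∈ l := by
  induction l generalizing a with
  | nil => simp
  | cons y l ih =>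
    rcases ih (min a y) with h | h
    · rcases min_choice a y with h' | h'
      · left; rw [List.foldl_cons, h, h']
      · right; rw [List.foldl_cons, h, h']; simp
    · right; exact List.mem_cons_of_mem _ h

theorem lmin_le {l : List ℚ} {a : ℚ} (h : a ∈ l) : lmin l ≤ a :=
  ((foldl_min_le_iff l _ _).1 le_rfl).2 a h

theorem lmin_mem {l : List ℚ} (h : l ≠ []) : lmin l ∈ l := by
  cases l with
  | nil => exact absurd rfl h
  | cons y l =>
    rcases foldl_min_mem (y :: l) y with h' | h'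
    · have : lmin (y :: l) = y := h'
      rw [this]; simp
    · exact h'

theorem le_lmin {l : List ℚ} (h : l ≠ []) {b : ℚ} (hb : ∀ a ∈ l, b ≤ a) : b ≤ lmin l :=
  hb _ (lmin_mem h)

theorem amin_spec {β : Type} [Inhabited β] (f : β → ℚ) {l : List β} (h : l ≠ []) :
    amin f l ∈ l ∧ f (amin f l) = lmin (l.map f) := by
  obtain ⟨b, hb, e⟩ := List.mem_map.1 (lmin_mem (l := l.map f) (by simpa using h))
  have hne : (l.filter fun b => decide (f b = lmin (l.map f))) ≠ [] :=
    List.ne_nil_of_mem (a := b) (by simp [hb, e])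
  have hm : amin f l ∈ l.filter fun b => decide (f b = lmin (l.map f)) := by
    unfold amin
    generalize (l.filter fun b => decide (f b = lmin (l.map f))) = L at hne
    cases L with
    | nil => exact absurd rfl hne
    | cons a L => simp
  simpa using hm

theorem amin_mem {β : Type} [Inhabited β] (f : β → ℚ) {l : List β} (h : l ≠ []) :
    amin f l ∈ l := (amin_spec f h).1

theorem amin_le {β : Type} [Inhabited β] (f : β → ℚ) {l : List β} {b : β} (h : b ∈ l) :
    f (amin f l) ≤ f b := by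
  rw [(amin_spec f (List.ne_nil_of_mem h)).2]
  exact lmin_le (List.mem_map_of_mem h)

/-! ### The nearest unit of mass -/

theorem mle_cons (p : ℚ × ℚ) (L : List (ℚ × ℚ)) (v : ℚ) :
    mle (p :: L) v = (if p.1 ≤ v then p.2 else 0) + mle L v := by
  unfold mle
  by_cases h : p.1 ≤ v <;> simp [h]

theorem mlt_cons (p : ℚ × ℚ) (L : List (ℚ × ℚ)) (v : ℚ) :
    mlt (p :: L) v = (if p.1 < v then p.2 else 0) + mlt L v := by
  unfold mlt
  by_cases h : p.1 < v <;> simp [h]

theorem mle_eq (L : List (ℚ × ℚ)) (v : ℚ) :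
    mle L v = (L.map fun p => if p.1 ≤ v then p.2 else 0).sum := by
  induction L with
  | nil => rfl
  | cons p L ih => rw [mle_cons, ih]; simp

theorem mlt_eq (L : List (ℚ × ℚ)) (v : ℚ) :
    mlt L v = (L.map fun p => if p.1 < v then p.2 else 0).sum := by
  induction L with
  | nil => rfl
  | cons p L ih => rw [mlt_cons, ih]; simp

/-- If the mass up to `v` is positive, it is attained at a value of the list. -/
theorem exists_mle_eq (L : List (ℚ × ℚ)) {P : ℚ → Prop} [DecidablePred P]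
    (hP : ∀ a b, a ≤ b → P b → P a) :
    (∀ p ∈ L, ¬ P p.1) ∨ ∃ p ∈ L, P p.1 ∧
      mle L p.1 = (L.map fun p => if P p.1 then p.2 else 0).sum := by
  by_cases h : ∀ p ∈ L, ¬ P p.1
  · exact Or.inl h
  · right
    push Not at h
    obtain ⟨p₀, hp₀, hP₀⟩ := h
    obtain ⟨p, hp, hmax⟩ := (L.toFinset.filter fun p => P p.1).exists_max_image Prod.fst
      ⟨p₀, by simp [hp₀, hP₀]⟩
    simp only [mem_filter, List.mem_toFinset] at hp hmax
    refine ⟨p, hp.1, hp.2, ?_⟩
    rw [mle_eq]
    congr 1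
    refine List.map_congr_left fun q hq => ?_
    by_cases hq' : P q.1
    · rw [if_pos hq', if_pos (hmax q ⟨hq, hq'⟩)]
    · rw [if_neg hq', if_neg (fun h => hq' (hP _ _ h hp.2))]

theorem lam_le {L : List (ℚ × ℚ)} {v : ℚ} (h : 1 ≤ mle L v) : lam L ≤ v := by
  rcases exists_mle_eq L (P := fun a => a ≤ v) (fun a b h1 h2 => h1.trans h2) with h' | ⟨p, hp, h1, h2⟩
  · rw [mle_eq, List.sum_eq_zero] at h
    · norm_num at h
    · intro x hx
      obtain ⟨p, hp, rfl⟩ := List.mem_map.1 hx
      rw [if_neg (h' p hp)]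
  · refine le_trans (lmin_le (List.mem_map.2 ⟨p, ?_, rfl⟩)) h1
    rw [← mle_eq] at h2
    simp [hp, h2, h]

theorem lam_spec {L : List (ℚ × ℚ)} (h1 : 1 ≤ (L.map Prod.snd).sum) :
    (∃ p ∈ L, p.1 = lam L) ∧ 1 ≤ mle L (lam L) := by
  rcases exists_mle_eq L (P := fun _ => True) (fun _ _ _ _ => trivial) with h' | ⟨p, hp, -, h2⟩
  · have : L = [] := List.eq_nil_iff_forall_not_mem.2 fun p hp => h' p hp trivial
    subst this
    norm_num at h1
  · have h3 : 1 ≤ mle L p.1 := by rw [h2]; simpa using h1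
    have hne : ((L.filter fun p => decide (1 ≤ mle L p.1)).map Prod.fst) ≠ [] :=
      List.ne_nil_of_mem (List.mem_map.2 ⟨p, by simp [hp, h3], rfl⟩)
    obtain ⟨q, hq, e⟩ := List.mem_map.1 (lmin_mem hne)
    simp only [List.mem_filter, decide_eq_true_eq] at hq
    have e' : q.1 = lam L := e
    exact ⟨⟨q, hq.1, e'⟩, e' ▸ hq.2⟩

theorem lam_mem {L : List (ℚ × ℚ)} (h1 : 1 ≤ (L.map Prod.snd).sum) : ∃ p ∈ L, p.1 = lam L :=
  (lam_spec h1).1

theorem mlt_lam_lt (L : List (ℚ × ℚ)) : mlt L (lam L) < 1 := by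
  rcases exists_mle_eq L (P := fun a => a < lam L) (fun a b h1 h2 => h1.trans_lt h2) with
    h' | ⟨p, hp, h1, h2⟩
  · rw [mlt_eq, List.sum_eq_zero]
    · norm_num
    · intro x hx
      obtain ⟨p, hp, rfl⟩ := List.mem_map.1 hx
      rw [if_neg (h' p hp)]
  · rw [mlt_eq, ← h2]
    by_contra h
    exact absurd (lam_le (not_lt.1 h)) (not_le.2 h1)

theorem le_lam_of_bet_pos {L : List (ℚ × ℚ)} {e : ℚ} (h : 0 < bet L e) : e ≤ lam L := by
  unfold bet at h
  by_contra h'
  rw [if_neg (by linarith), if_neg (by intro h''; linarith)] at h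
  exact lt_irrefl _ h

theorem lam_le_of_bet_lt {L : List (ℚ × ℚ)} {e : ℚ} (h : bet L e < 1) : lam L ≤ e := by
  unfold bet at h
  by_contra h'
  rw [if_pos (by linarith)] at h
  exact lt_irrefl _ h

theorem bet_of_lt {L : List (ℚ × ℚ)} {e : ℚ} (h : e < lam L) : bet L e = 1 := by
  unfold bet; rw [if_pos h]

theorem bet_of_gt {L : List (ℚ × ℚ)} {e : ℚ} (h : lam L < e) : bet L e = 0 := by
  unfold bet; rw [if_neg (by linarith), if_neg (by intro h'; linarith)]

theorem bet_nonneg {L : List (ℚ × ℚ)} (h1 : 1 ≤ (L.map Prod.snd).sum) (e : ℚ) : 0 ≤ bet L e := by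
  have h2 := (lam_spec h1).2
  have h3 := mlt_lam_lt L
  unfold bet
  split_ifs
  · norm_num
  · exact div_nonneg (by linarith) (by linarith)
  · exact le_rfl

theorem bet_le_one {L : List (ℚ × ℚ)} (h1 : 1 ≤ (L.map Prod.snd).sum) (e : ℚ) : bet L e ≤ 1 := by
  have h2 := (lam_spec h1).2
  have h3 := mlt_lam_lt L
  unfold bet
  split_ifs
  · norm_num
  · exact (div_le_one (by linarith)).2 (by linarith)
  · norm_num

theorem sum_bet {L : List (ℚ × ℚ)} (h1 : 1 ≤ (L.map Prod.snd).sum) :
    (L.map fun p => p.2 * bet L p.1).sum = 1 := by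
  have h2 := (lam_spec h1).2
  have h3 := mlt_lam_lt L
  set c := (1 - mlt L (lam L)) / (mle L (lam L) - mlt L (lam L)) with hc
  have key : ∀ L' : List (ℚ × ℚ), (L'.map fun p => p.2 * bet L p.1).sum =
      mlt L' (lam L) + c * (mle L' (lam L) - mlt L' (lam L)) := by
    intro L'
    induction L' with
    | nil => simp [mlt, mle]
    | cons p L' ih =>
      rw [List.map_cons, List.sum_cons, ih, mle_cons, mlt_cons]
      rcases lt_trichotomy p.1 (lam L) with h | h | h
      · rw [bet_of_lt h, if_pos h, if_pos h.le]; ring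
      · have : bet L p.1 = c := by unfold bet; rw [if_neg (by linarith), if_pos h]
        rw [this, if_neg (by linarith), if_pos h.le]; ring
      · rw [bet_of_gt h, if_neg (by linarith), if_neg (by linarith)]; ring
  rw [key, hc, div_mul_cancel₀ _ (by linarith)]; ring

theorem sum_map_range (n : ℕ) (f : ℕ → ℚ) : ((List.range n).map f).sum = ∑ i ∈ range n, f i := by
  induction n with
  | zero => simp
  | succ n ih => rw [List.range_succ, List.map_append, List.sum_append, ih, sum_range_succ]; simp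

theorem getD_map_range {β : Type} (n : ℕ) (f : ℕ → β) (b : β) (i : ℕ) :
    ((List.range n).map f).getD i b = if i < n then f i else b := by
  by_cases h : i < n
  · rw [if_pos h, List.getD_eq_getElem _ _ (by simpa using h)]; simp
  · rw [if_neg h, List.getD_eq_default _ _ (by simpa using h)]

/-- The total mass seen from a client. -/
theorem cl_mass (D : Mx) (y : List ℚ) (j : ℕ) :
    ((cl D y j).map Prod.snd).sum = ∑ i ∈ range D.length, y.getD i 0 := by
  rw [cl, List.map_map, sum_map_range]; rfl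

theorem xi_nonneg {D : Mx} {y : List ℚ} (h : 1 ≤ ∑ i ∈ range D.length, y.getD i 0) (j i : ℕ) :
    0 ≤ xi D y j i := bet_nonneg (by rwa [cl_mass]) _

theorem xi_le_one {D : Mx} {y : List ℚ} (h : 1 ≤ ∑ i ∈ range D.length, y.getD i 0) (j i : ℕ) :
    xi D y j i ≤ 1 := bet_le_one (by rwa [cl_mass]) _

theorem sum_xi {D : Mx} {y : List ℚ} (h : 1 ≤ ∑ i ∈ range D.length, y.getD i 0) (j : ℕ) :
    ∑ i ∈ range D.length, xi D y j i * y.getD i 0 = 1 := by
  have h1 := sum_bet (L := cl D y j) (by rwa [cl_mass])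
  rw [← h1]
  conv_rhs => rw [cl, List.map_map, sum_map_range]
  exact sum_congr rfl fun i _ => mul_comm _ _

/-! ### Distances -/

theorem Ok.nonneg {D : Mx} {J F : List ℕ} (h : Ok D J F) {i j : ℕ} (hi : i < D.length)
    (hj : j < D.length) : 0 ≤ dd D i j := by
  have h1 := h.tri i hi j hj i hi
  rw [h.refl i hi, h.symm j hj i hi] at h1
  linarith

theorem Ok.pos_len {D : Mx} {J F : List ℕ} (h : Ok D J F) : 0 < D.length := by
  obtain ⟨i, hi⟩ := List.exists_mem_of_ne_nil F h.neF
  exact Nat.zero_lt_of_lt (h.hF i hi)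

theorem dS_le (D : Mx) {O : List ℕ} {o : ℕ} (h : o ∈ O) (j : ℕ) : dS D O j ≤ dd D j o :=
  lmin_le (List.mem_map_of_mem h)

theorem dS_mem (D : Mx) {O : List ℕ} (h : O ≠ []) (j : ℕ) : ∃ o ∈ O, dS D O j = dd D j o := by
  obtain ⟨o, ho, e⟩ := List.mem_map.1 (lmin_mem (l := O.map (dd D j)) (by simpa using h))
  exact ⟨o, ho, e.symm⟩

theorem dS_eq_amin (D : Mx) {O : List ℕ} (h : O ≠ []) (j : ℕ) :
    dS D O j = dd D j (amin (dd D j) O) := (amin_spec _ h).2.symm

theorem dS_mono (D : Mx) {O O' : List ℕ} (h : O ≠ []) (hs : ∀ o ∈ O, o ∈ O') (j : ℕ) :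
    dS D O' j ≤ dS D O j := by
  obtain ⟨o, ho, e⟩ := dS_mem D h j
  rw [e]; exact dS_le D (hs o ho) j

theorem dS_cons (D : Mx) {O : List ℕ} (h : O ≠ []) (l j : ℕ) :
    dS D (l :: O) j = min (dS D O j) (dd D j l) := by
  refine le_antisymm (le_min (dS_mono D h (fun o ho => List.mem_cons_of_mem _ ho) j)
    (dS_le D (by simp) j)) ?_
  obtain ⟨o, ho, e⟩ := dS_mem D (O := l :: O) (by simp) j
  rw [e]
  rcases List.mem_cons.1 ho with rfl | ho
  · exact min_le_right _ _
  · exact (min_le_left _ _).trans (dS_le D ho j)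

theorem Ok.dS_nonneg {D : Mx} {J F : List ℕ} (h : Ok D J F) {O : List ℕ} (hO : O ≠ [])
    (hF : ∀ o ∈ O, o ∈ F) {j : ℕ} (hj : j < D.length) : 0 ≤ dS D O j := by
  obtain ⟨o, ho, e⟩ := dS_mem D hO j
  rw [e]; exact h.nonneg hj (h.hF o (hF o ho))

theorem Ok.dS_tri {D : Mx} {J F : List ℕ} (h : Ok D J F) {O : List ℕ} (hO : O ≠ [])
    (hF : ∀ o ∈ O, o ∈ F) {i j : ℕ} (hi : i < D.length) (hj : j < D.length) :
    dS D O j ≤ dd D j i + dS D O i := by
  obtain ⟨o, ho, e⟩ := dS_mem D hO i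
  rw [e]
  exact (dS_le D ho j).trans (h.tri j hj i hi o (h.hF o (hF o ho)))

theorem Ok.cost_nonneg {D : Mx} {J F : List ℕ} (h : Ok D J F) {O : List ℕ} (hO : O ≠ [])
    (hF : ∀ o ∈ O, o ∈ F) : 0 ≤ cost D J O :=
  List.sum_nonneg fun x hx => by
    obtain ⟨j, hj, rfl⟩ := List.mem_map.1 hx
    exact h.dS_nonneg hO hF (h.hJ j hj)

theorem cost_mono (D : Mx) (J : List ℕ) {O O' : List ℕ} (h : O ≠ []) (hs : ∀ o ∈ O, o ∈ O') :
    cost D J O' ≤ cost D J O :=
  List.sum_le_sum fun j _ => dS_mono D h hs j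

theorem length_ul (A B : List ℕ) : (ul A B).length = A.length * B.length := by
  induction A with
  | nil => simp [ul]
  | cons a A ih =>
    have : ul (a :: A) B = B ++ ul A B := by simp [ul]
    rw [this, List.length_append, ih, List.length_cons]; ring

theorem length_un (D : Mx) (c e : ℕ) : (un D c e).length = c * D.length ^ e := by
  induction e with
  | zero => simp [un]
  | succ e ih => rw [un, length_ul, ih, List.length_range]; ring

end Vale.Agent.P334
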