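import Vale.Agent.P334.Stmts2

/-! The price function: slope, monotonicity and Taylor bounds. -/

namespace Vale.Agent.P334

open Finset

/-- The Taylor polynomial of the limit price. -/
def P7 (m : ℚ) : ℚ :=
  1 + m - m ^ 2 / 3 + m ^ 3 / 12 - m ^ 4 / 60 + m ^ 5 / 360 - m ^ 6 / 2520 + m ^ 7 / 20160

namespace CN1Aux

theorem geo {x r : ℚ} (h : x * r = 1 - r) (n : ℕ) : x * ∑ t ∈ range n, r ^ (t + 1) = 1 - r ^ n := by
  induction n with
  | zero => simp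
  | succ n ih => rw [sum_range_succ, mul_add, ih]; linear_combination r ^ n * h

theorem geo' {x r : ℚ} (h : x * r = 1 - r) (n : ℕ) :
    x * ∑ t ∈ range n, ((t : ℚ) + 1) * r ^ (t + 2) =
      ∑ t ∈ range n, r ^ (t + 1) - n * r ^ (n + 1) := by
  induction n with
  | zero => simp
  | succ n ih =>
    rw [sum_range_succ, sum_range_succ, mul_add, ih]
    push_cast
    linear_combination ((n : ℚ) + 1) * r ^ (n + 1) * h

theorem rr {x : ℚ} (hx : 0 ≤ x) : x * (1 + x)⁻¹ = 1 - (1 + x)⁻¹ := by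
  have : (1 + x) ≠ 0 := by positivity
  field_simp
  ring

theorem mul_cN {E : ℕ} {m : ℚ} (hm : 0 ≤ m) :
    m * cN E m = 3 * m - 2 + 2 * ((1 + m / E)⁻¹) ^ E := by
  have h := geo (rr (x := m / E) (by positivity)) E
  unfold cN
  linear_combination (-2) * h

theorem exp_le {E : ℕ} (hE : 0 < E) {m : ℝ} (hm : 0 ≤ m) :
    Real.exp (-m) ≤ ((1 + m / E)⁻¹) ^ E := by
  have hE' : (0 : ℝ) < E := by exact_mod_cast hE
  have h1 : Real.exp (-(m / E)) ≤ (1 + m / E)⁻¹ := by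
    rw [Real.exp_neg]
    exact inv_anti₀ (by positivity) (by linarith [Real.add_one_le_exp (m / E)])
  calc Real.exp (-m) = Real.exp (-(m / E)) ^ E := by
        rw [← Real.exp_nat_mul]; congr 1; field_simp
    _ ≤ _ := by gcongr

theorem le_exp {E : ℕ} (hE : 0 < E) {m : ℝ} (hm : 0 ≤ m) (hm1 : m ≤ 1) :
    ((1 + m / E)⁻¹) ^ E ≤ Real.exp (-m) + m ^ 2 / E := by
  have hE' : (1 : ℝ) ≤ E := by exact_mod_cast hE
  have h1 : (1 + m / E)⁻¹ ≤ Real.exp ((m / E) ^ 2 - m / E) := by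
    have hx : 0 ≤ m / E := by positivity
    generalize m / E = x at hx
    refine le_trans ?_ (Real.add_one_le_exp _)
    rw [inv_le_iff_one_le_mul₀ (by positivity)]
    nlinarith [pow_nonneg hx 3]
  have h2 : ((1 + m / E)⁻¹) ^ E ≤ Real.exp (m ^ 2 / E - m) :=
    calc _ ≤ Real.exp ((m / E) ^ 2 - m / E) ^ E := by gcongr
      _ = _ := by rw [← Real.exp_nat_mul]; congr 1; field_simp
  have h3 : m ^ 2 / E ≤ m := (div_le_self (by positivity) hE').trans (by nlinarith)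
  have h4 : 0 ≤ m ^ 2 / E := by positivity
  generalize m ^ 2 / E = y at h2 h3 h4
  have h5 : Real.exp (y - m) ≤ 1 := Real.exp_le_one_iff.2 (by linarith)
  have h6 : Real.exp (-m) = Real.exp (y - m) * Real.exp (-y) := by
    rw [← Real.exp_add]; congr 1; ring
  have h7 := Real.add_one_le_exp (-y)
  have h8 := Real.exp_pos (y - m)
  nlinarith [mul_le_mul_of_nonneg_left h7 h8.le]

theorem taylor_lo {m : ℝ} (hm : 0 ≤ m) (hm1 : m ≤ 1) :
    1 - m + m ^ 2 / 2 - m ^ 3 / 6 + m ^ 4 / 24 - m ^ 5 / 120 + m ^ 6 / 720 - m ^ 7 / 5040 +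
      m ^ 8 / 40320 - m ^ 9 / 362880 ≤ Real.exp (-m) := by
  have h := Real.exp_bound (x := -m) (by rwa [abs_neg, abs_of_nonneg hm]) (n := 11) (by norm_num)
  rw [abs_neg, abs_of_nonneg hm] at h
  have h1 := (abs_le.1 h).1
  simp only [sum_range_succ, range_zero, sum_empty, Nat.factorial] at h1
  norm_num at h1
  have h2 : m ^ 11 ≤ m ^ 10 := pow_le_pow_of_le_one hm hm1 (by norm_num)
  have h3 : 0 ≤ m ^ 10 := by positivity
  linarith

theorem taylor_hi {m : ℝ} (hm : 0 ≤ m) (hm1 : m ≤ 1) :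
    Real.exp (-m) ≤ 1 - m + m ^ 2 / 2 - m ^ 3 / 6 + m ^ 4 / 24 - m ^ 5 / 120 + m ^ 6 / 720 -
      m ^ 7 / 5040 + m ^ 8 / 40320 := by
  have h := Real.exp_bound (x := -m) (by rwa [abs_neg, abs_of_nonneg hm]) (n := 10) (by norm_num)
  rw [abs_neg, abs_of_nonneg hm] at h
  have h1 := (abs_le.1 h).2
  simp only [sum_range_succ, range_zero, sum_empty, Nat.factorial] at h1
  norm_num at h1
  have h2 : m ^ 10 ≤ m ^ 9 := pow_le_pow_of_le_one hm hm1 (by norm_num)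
  have h3 : 0 ≤ m ^ 9 := by positivity
  linarith

theorem bern {r r' z : ℚ} (hr : 0 ≤ r) (hz : 0 ≤ z) (h : r * (1 + z * r) ≤ r') (t : ℕ) :
    z * (((t : ℚ) + 1) * r ^ (t + 2)) ≤ r' ^ (t + 1) - r ^ (t + 1) := by
  have h1 : 1 + ((t + 1 : ℕ) : ℚ) * (z * r) ≤ (1 + z * r) ^ (t + 1) :=
    one_add_mul_le_pow (by nlinarith [mul_nonneg hz hr]) _
  have h2 : (r * (1 + z * r)) ^ (t + 1) ≤ r' ^ (t + 1) := by gcongr
  have h3 := mul_le_mul_of_nonneg_left h1 (pow_nonneg hr (t + 1))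
  rw [mul_pow] at h2
  push_cast at h3
  have h4 : r ^ (t + 2) = r ^ (t + 1) * r := pow_succ _ _
  rw [h4]
  nlinarith

end CN1Aux

open CN1Aux

theorem cn_zero {E : ℕ} (hE : 10000 ≤ E) : cN E 0 = 1 := by
  have : (E : ℚ) ≠ 0 := by positivity
  simp only [cN, zero_div, add_zero, inv_one, one_pow, sum_const, card_range, nsmul_eq_mul, mul_one]
  field_simp
  norm_num

theorem cn_mono {E : ℕ} (_hE : 10000 ≤ E) :
    ∀ m' m : ℚ, 0 ≤ m' → m' ≤ m → cN E m' ≤ cN E m := by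
  intro m' m h0 h1
  have h2 : 0 ≤ m := h0.trans h1
  unfold cN
  gcongr

theorem cn_slope {E : ℕ} (hE : 10000 ≤ E) : ∀ m' m : ℚ, 0 ≤ m' → m' ≤ m → m ≤ 1 →
    bt m (cN E m) * (m - m') ≤ m * (cN E m - cN E m') := by
  intro m' m h0 h1 _
  have hm : 0 ≤ m := h0.trans h1
  have hE' : (0 : ℚ) < E := by positivity
  have hx : 0 ≤ m / E := by positivity
  have hx' : 0 ≤ m' / E := by positivity
  have hz : 0 ≤ (m - m') / E := div_nonneg (sub_nonneg.2 h1) hE'.le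
  have hr0 : 0 < (1 + m / E)⁻¹ := by positivity
  have hr1 : (1 + m / E)⁻¹ ≤ 1 := inv_le_one_of_one_le₀ (by linarith)
  have hb : (1 + m / E)⁻¹ * (1 + (m - m') / E * (1 + m / E)⁻¹) ≤ (1 + m' / E)⁻¹ := by
    rw [sub_div] at hz ⊢
    generalize m / E = x at hx hz ⊢
    generalize m' / E = x' at hx' hz ⊢
    rw [← sub_nonneg]
    have : (1 + x')⁻¹ - (1 + x)⁻¹ * (1 + (x - x') * (1 + x)⁻¹) =
        (x - x') ^ 2 / ((1 + x') * (1 + x) ^ 2) := by
      field_simp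
      ring
    rw [this]
    positivity
  have h3 := sum_le_sum fun t (_ : t ∈ range E) => bern hr0.le hz hb t
  have h4 := geo' (rr hx) E
  have h5 := mul_cN (E := E) hm
  have h6 : ((1 + m / E)⁻¹) ^ (E + 1) ≤ ((1 + m / E)⁻¹) ^ E :=
    pow_le_pow_of_le_one hr0.le hr1 (by omega)
  rw [← mul_sum, sum_sub_distrib] at h3
  have h7 : bt m (cN E m) = 3 - cN E m - 2 * ((1 + m / E)⁻¹) ^ E := by
    unfold bt
    linarith
  rw [h7]
  unfold cN
  generalize ∑ t ∈ range E, ((1 + m / E)⁻¹) ^ (t + 1) = S at h3 h4 ⊢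
  generalize ∑ t ∈ range E, ((1 + m' / E)⁻¹) ^ (t + 1) = S' at h3 ⊢
  generalize ∑ t ∈ range E, ((t : ℚ) + 1) * ((1 + m / E)⁻¹) ^ (t + 2) = T at h3 h4
  generalize ((1 + m / E)⁻¹) ^ (E + 1) = a at h4 h6
  generalize ((1 + m / E)⁻¹) ^ E = b at h6 ⊢
  have h8 := mul_le_mul_of_nonneg_left h3 (show 0 ≤ 2 * (m / E) by positivity)
  have h9 := mul_le_mul_of_nonneg_left h6 (sub_nonneg.2 h1)
  have h10 : 2 * (m / E) * ((m - m') / E * T) = (2 / E * S - 2 * a) * (m - m') := by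
    have : 2 * (m / E) * ((m - m') / E * T) = 2 * ((m - m') / E) * (m / E * T) := by ring
    rw [this, h4]
    field_simp
  rw [h10] at h8
  have h11 : m * (3 - 2 / E * S - (3 - 2 / E * S')) = 2 * (m / E) * (S' - S) := by ring
  rw [h11]
  nlinarith

theorem cn_top {E : ℕ} (hE : 10000 ≤ E) : (cN E 1 : ℝ) ≤ 1 + 2 / Real.exp 1 + 2 / E := by
  have h1 := mul_cN (E := E) zero_le_one
  have h2 := le_exp (E := E) (by omega) zero_le_one le_rfl
  rw [one_mul] at h1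
  rw [h1]
  push_cast
  rw [Real.exp_neg, one_pow] at h2
  have h3 : (2 : ℝ) / Real.exp 1 = 2 * (Real.exp 1)⁻¹ := div_eq_mul_inv _ _
  have h4 : (2 : ℝ) / E = 2 * (1 / E) := by ring
  linarith

theorem cn_core {E : ℕ} (hE : 10000 ≤ E) (m : ℚ) (h0 : 0 ≤ m) (h1 : m ≤ 1) :
    P7 m - m ^ 8 / 181440 ≤ cN E m ∧ cN E m ≤ P7 m + m / 5000 := by
  rcases h0.eq_or_lt with rfl | hm
  · rw [cn_zero hE]
    norm_num [P7]
  have h0' : (0 : ℝ) ≤ m := by exact_mod_cast h0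
  have h1' : (m : ℝ) ≤ 1 := by exact_mod_cast h1
  have hE' : (10000 : ℝ) ≤ E := by exact_mod_cast hE
  have h2 := exp_le (E := E) (by omega) h0'
  have h3 := le_exp (E := E) (by omega) h0' h1'
  have h4 := taylor_lo h0' h1'
  have h5 := taylor_hi h0' h1'
  have h6 : (m : ℝ) ^ 2 / E ≤ (m : ℝ) ^ 2 / 10000 := by gcongr
  constructor
  · refine le_of_mul_le_mul_left ?_ hm
    rw [mul_cN h0, ← Rat.cast_le (K := ℝ)]
    unfold P7
    push_cast
    linarith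
  · refine le_of_mul_le_mul_left ?_ hm
    rw [mul_cN h0, ← Rat.cast_le (K := ℝ)]
    unfold P7
    push_cast
    linarith

end Vale.Agent.P334
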