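import Mathlib

/-! A checker for piecewise linear inequalities on cones. -/

namespace Vale.Agent.P334

/-- The parameters at a control point. -/
structure Ctl (α : Type) where
  (S m m2 m3 c mc m2c cm1 pm pp bA bA2 bB bB2 eA eA2 eA3 eB eB3 a1 a12 a2p a2n b1 b12 b2p b2n mq
  om eE eN xm x1 x2 x3 x4 B0 B1 B2 B3 B4 B5 B6 : α)

/-- The data of a leaf. -/
structure Lf where
  (fL fU f3 f4 : Bool)
  (x1 x2 x3 x4 x5 x6 x7 x8 : ℕ)

/-- The data of a segment. -/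
structure Sg where
  (inf gU gL gN gG g1 g2 gE : Bool)
  (fa fd fl ft fn y1 y2 y3 : ℕ)

/-- A generator of a cone. -/
structure Ray where
  (A d l t s : ℕ)
  deriving DecidableEq

/-- Quantities that depend on the generator. -/
structure Geo (α : Type) where
  (A a5 a12 a30 d t l5 l8 s13 LP LN Ud : α)

/-- Quantities that depend on the generator and the control point. -/
structure Bs (α : Type) where
  (P0 N0 Hp Hn Gp Gn Zp Zn gl Ed Qd sg nu nA nB : α)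

/-- Quantities that depend on the point. -/
structure Pt (α : Type) where
  (e e3 Ne Ue W L eA e30 : α)

/-- Case distinction. -/
noncomputable def cnd {α : Type} (b : Bool) (x y : α) : α := Bool.rec y x b

section
variable {α : Type} (ad mu sb : α → α → α) (n : ℕ → α)

/-- The quantities of a generator. -/
noncomputable def geo (L : Lf) (a d l t s : α) : Geo α where
  A := mu (n 60) a
  a5 := mu (n 15) a
  a12 := mu (n 36) a
  a30 := mu (n 90) a
  d := mu (n 60) d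
  t := mu (n 60) t
  l5 := mu (n 300) l
  l8 := mu (n 480) l
  s13 := mu (n 780) s
  LP := cnd L.fL (mu (n 180) d) (n 0)
  LN := cnd L.fL (mu (n 60) t) (n 0)
  Ud := cnd L.fU (mu (n 180) d) (sb (mu (n 60) t) (mu (n 180) d))

/-- The quantities of a generator and a control point. -/
noncomputable def bs (c : Ctl α) (L : Lf) (G : Geo α) : Bs α where
  P0 := ad (ad (ad (ad (ad (ad (ad (mu c.pp G.Ud) (mu c.xm G.d)) (mu c.x1 (sb G.a5 G.d))) (mu
    c.x2 (sb G.a12 G.d))) (cnd L.f3 (mu c.x3 G.A) (n 0))) (cnd L.f4 (mu c.x4 G.a30) (n 0))) (mu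
    c.pm G.LN)) (mu (ad (mu (n L.x7) c.B3) (mu (n L.x8) c.B4)) G.A)
  N0 := ad (ad (ad (ad (ad (ad (mu c.xm G.A) (cnd L.f3 (mu c.x3 G.d) (n 0))) (cnd L.f4 (mu c.x4
    G.d) (n 0))) (mu c.pm G.LP)) (mu c.cm1 G.d)) (mu c.bA2 G.A)) (mu c.B6 G.A)
  Hp := ad (ad (mu c.bA (ad G.A G.d)) (mu c.eA G.Ud)) (mu c.a1 G.LN)
  Hn := mu c.a1 G.LP
  Gp := ad (mu (mu (n L.x4) c.B4) G.A) (mu (mu (n L.x5) c.B4) G.t)
  Gn := mu (mu (n L.x6) c.B4) G.t
  Zp := ad (ad (ad (ad (ad (ad (ad (mu c.m G.t) (mu c.a12 G.LN)) (mu c.eA2 G.Ud)) (mu (mu (n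
    L.x1) c.B1) G.s13)) (mu (mu (n L.x2) c.B2) G.s13)) (sb (ad (ad (mu c.bB (ad G.A G.d)) (mu
    c.eB G.Ud)) (mu c.b1 G.LN)) (ad (mu c.b1 G.LP) (mu (mu (n L.x1) c.B1) G.l5)))) (mu (mu (n
    L.x3) c.B4) G.A)) (mu (mu (n L.x6) c.B4) G.t)
  Zn := ad (ad (ad (ad (mu c.mc G.d) (mu c.a12 G.LP)) (mu c.bB2 G.A)) (mu (mu (n L.x4) c.B4)
    G.A)) (mu (mu (n L.x5) c.B4) G.t)
  gl := mu (mu (n L.x2) c.B2) G.l5
  Ed := mu c.eE G.d
  Qd := mu c.mq G.d
  sg := mu (n L.x3) c.B4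
  nu := ad (mu (n L.x7) c.B3) (mu (n L.x8) c.B4)
  nA := mu c.eN G.A
  nB := ad (mu c.mc G.A) (mu c.om G.t)

/-- The quantities of a point. -/
noncomputable def pt (g : Sg) (G : Geo α) (e : α) : Pt α where
  e := e
  e3 := mu (n 3) e
  Ne := sb (mu (n 3) e) G.t
  Ue := cnd g.gU (mu (n 3) e) (sb G.t (mu (n 3) e))
  W := sb (mu (n 6) e) G.t
  L := sb (mu (n 13) (ad G.d e)) G.l8
  eA := sb e G.A
  e30 := sb e G.a30

/-- The multiplier. -/
noncomputable def mul1 (c : Ctl α) (g : Sg) : α :=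
  ad (mu (n g.y1) c.B3) (mu (n g.y2) c.B5)

/-- The positive terms. -/
noncomputable def pos (c : Ctl α) (b : Bs α) (g : Sg) (G : Geo α) (p : Pt α) : α :=
  ad (ad (ad (ad (ad (ad (ad (ad (ad (ad (ad (ad (ad (ad b.P0 (mu (mu (n g.y3) c.B0) G.s13)) (mu
  c.a12 p.Ne)) (mu c.a2p p.Ue)) (cnd g.gL (mu c.a2n p.W) (n 0))) (sb (ad (ad b.Hp (mu c.eA3
  p.Ue)) (cnd g.gN (mu c.a1 G.t) (n 0))) (ad (ad b.Hn (cnd g.gN (mu c.a1 p.e3) (n 0))) (mu (mu (n
  g.y3) c.B0) G.l5)))) (sb (ad (ad (ad (ad b.Gp (mu c.b12 p.Ne)) (mu c.b2p p.Ue)) (cnd g.gL (mu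
  c.b2n p.W) (n 0))) (sb (mu c.eB3 p.Ue) b.gl)) (ad (ad b.Gn (cnd g.gL (mu c.b2n p.e3) (n 0)))
  (mu b.sg p.e)))) (sb (ad b.Zp (cnd g.gG b.Qd (n 0))) (ad (ad (ad b.Zn (cnd g.gG (mu c.m p.e) (n
  0))) (cnd g.gE b.Ed (n 0))) (mu (ad (mu (n g.y1) c.B3) (mu (n g.y2) c.B5)) G.l5)))) (mu (ad (mu
  (n g.y1) c.B3) (mu (n g.y2) c.B5)) p.L)) (cnd g.gE b.Ed (n 0))) (cnd g.g1 (mu c.x1 p.e) (n 0)))
  (cnd g.g2 (mu c.x2 p.e) (n 0))) (mu c.x3 p.eA)) (mu c.x4 p.e30)) (mu c.B6 p.e)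

/-- The negative terms. -/
noncomputable def neg (c : Ctl α) (b : Bs α) (g : Sg) (G : Geo α) (p : Pt α) : α :=
  ad (ad (ad (ad b.N0 (cnd g.gL (mu c.a2n p.e3) (n 0))) (cnd g.g1 (mu c.x1 G.a5) (n 0))) (cnd
  g.g2 (mu c.x2 G.a12) (n 0))) (mu b.nu p.e)

end

/-- Conjunction. -/
noncomputable def an (a b : Bool) : Bool := Bool.rec false b a

/-- All entries pass the test. -/
noncomputable def allL {β : Type} (f : β → Bool) (l : List β) : Bool :=
  List.rec true (fun a _ ih => Bool.rec false ih (f a)) l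

/-- The map of a list. -/
noncomputable def mapL {β γ : Type} (f : β → γ) (l : List β) : List γ :=
  List.rec [] (fun a _ ih => f a :: ih) l

/-- A digit. -/
def dg (n k w : ℕ) : ℕ := Nat.land (Nat.shiftRight n k) w

/-- A flag. -/
def fg (n k : ℕ) : Bool := Nat.ble 1 (Nat.land (Nat.shiftRight n k) 1)

/-- Decoding of a leaf. -/
def decL (n : ℕ) : Lf :=
  ⟨fg n 0, fg n 1, fg n 2, fg n 3, dg n 4 1048575, dg n 24 1048575, dg n 44 1048575,
    dg n 64 1048575, dg n 84 1048575, dg n 104 1048575, dg n 124 1048575, dg n 144 1048575⟩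

/-- Decoding of a segment. -/
def decS (n : ℕ) : Sg :=
  ⟨fg n 0, fg n 1, fg n 2, fg n 3, fg n 4, fg n 5, fg n 6, fg n 7, dg n 8 127, dg n 15 127,
    dg n 22 127, dg n 29 127, dg n 36 127, dg n 43 1048575, dg n 63 1048575, dg n 83 1048575⟩

/-- The upper end of a segment. -/
def fv (g : Sg) (r : Ray) : ℕ :=
  Nat.sub (Nat.add (Nat.add (Nat.mul g.fa r.A) (Nat.mul g.fd r.d))
    (Nat.add (Nat.mul g.fl r.l) (Nat.mul g.ft r.t))) (Nat.mul g.fn r.d)

/-- The test at one point and one control point. -/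
noncomputable def ev (g : Sg) (G : Geo ℕ) (p : Pt ℕ) (q : Ctl ℕ × Bs ℕ) : Bool :=
  an (Nat.ble (pos Nat.add Nat.mul Nat.sub (fun x => x) q.1 q.2 g G p)
      (neg Nat.add Nat.mul (fun x => x) q.1 q.2 g G p))
    (an (Nat.ble (mul1 Nat.add Nat.mul (fun x => x) q.1 g) q.1.S)
      (cnd g.gE true (Nat.ble (Nat.add (Nat.mul q.1.S p.e) q.2.nA) q.2.nB)))

/-- The test at one point. -/
noncomputable def evA (Q : List (Ctl ℕ × Bs ℕ)) (G : Geo ℕ) (g : Sg) (e : ℕ) : Bool :=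
  allL (ev g G (pt Nat.add Nat.mul Nat.sub (fun x => x) g G e)) Q

/-- The test at the upper end. -/
noncomputable def sgHi (Q : List (Ctl ℕ × Bs ℕ)) (G : Geo ℕ) (g : Sg) (ih : ℕ → Bool) (e : ℕ) :
    Bool := an (evA Q G g e) (ih e)

/-- The test of one segment. -/
noncomputable def sgOne (Q : List (Ctl ℕ × Bs ℕ)) (G : Geo ℕ) (r : Ray) (g : Sg) (ih : ℕ → Bool)
    (e : ℕ) : Bool := an (evA Q G g e) (cnd g.inf true (sgHi Q G g ih (fv g r)))

/-- The test of all segments over a generator. -/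
noncomputable def sgs (Q : List (Ctl ℕ × Bs ℕ)) (G : Geo ℕ) (r : Ray) (l : List ℕ) : ℕ → Bool :=
  List.rec (motive := fun _ => ℕ → Bool) (fun _ => false)
    (fun n _ ih => sgOne Q G r (decS n) ih) l

/-- The test in the unbounded direction. -/
noncomputable def axs (Q : List (Ctl ℕ × Bs ℕ)) (G : Geo ℕ) (l : List ℕ) : Bool :=
  List.rec false (fun n _ ih => cnd (decS n).inf (evA Q G (decS n) 1) ih) l

/-- The control points with their quantities. -/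
noncomputable def prs (C : List (Ctl ℕ)) (L : Lf) (G : Geo ℕ) : List (Ctl ℕ × Bs ℕ) :=
  mapL (fun c => (c, bs Nat.add Nat.mul Nat.sub (fun x => x) c L G)) C

/-- The quantities of a generator. -/
noncomputable def geoR (L : Lf) (r : Ray) : Geo ℕ :=
  geo Nat.mul Nat.sub (fun x => x) L r.A r.d r.l r.t r.s

/-- The test over a generator. -/
noncomputable def rayG (C : List (Ctl ℕ)) (L : Lf) (l : List ℕ) (r : Ray) (G : Geo ℕ) : Bool :=
  sgs (prs C L G) G r l 0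

/-- The test in the unbounded direction. -/
noncomputable def axG (C : List (Ctl ℕ)) (L : Lf) (l : List ℕ) (G : Geo ℕ) : Bool :=
  axs (prs C L G) G l

/-- The test of a leaf. -/
noncomputable def leafOK (C : List (Ctl ℕ)) (L : Lf) (l : List ℕ) (r0 r1 r2 r3 : Ray) : Bool :=
  an (an (an (rayG C L l r0 (geoR L r0)) (rayG C L l r1 (geoR L r1)))
    (an (rayG C L l r2 (geoR L r2)) (rayG C L l r3 (geoR L r3))))
    (axG C L l (geoR L ⟨0, 0, 0, 0, 0⟩))

/-- A positive combination of two generators. -/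
def cmb (a b : ℕ) (x y : Ray) : Ray :=
  ⟨Nat.add (Nat.mul a x.A) (Nat.mul b y.A), Nat.add (Nat.mul a x.d) (Nat.mul b y.d),
    Nat.add (Nat.mul a x.l) (Nat.mul b y.l), Nat.add (Nat.mul a x.t) (Nat.mul b y.t),
    Nat.add (Nat.mul a x.s) (Nat.mul b y.s)⟩

/-- Certificates. -/
inductive Tr where
  | f : ℕ → List ℕ → Tr
  | n : ℕ → ℕ → Tr → Tr → Tr
  | r : Tr → Tr
  | s : Tr → Tr

/-- The test of the two halves. -/
noncomputable def two (i j : Ray → Ray → Ray → Ray → Bool) (r0 r1 r2 r3 x : Ray) : Bool :=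
  an (i x r1 r2 r3) (j r0 x r2 r3)

/-- The test of a certificate. -/
noncomputable def chk (C : List (Ctl ℕ)) (T : Tr) : Ray → Ray → Ray → Ray → Bool :=
  Tr.rec (motive := fun _ => Ray → Ray → Ray → Ray → Bool)
    (fun h l => leafOK C (decL h) l)
    (fun a b _ _ i j r0 r1 r2 r3 => two i j r0 r1 r2 r3 (cmb (Nat.succ a) (Nat.succ b) r0 r1))
    (fun _ i r0 r1 r2 r3 => i r1 r2 r3 r0)
    (fun _ i r0 r1 r2 r3 => i r0 r2 r1 r3) T

end Vale.Agent.P334
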