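import Vale.Agent.P334.Client1

/-! The potential of a client does not increase on average. -/

namespace Vale.Agent.P334

open Finset

theorem psi_a {m a t : ℚ} (hm0 : 0 ≤ m) (hm : m ≤ 1) (ha : 0 ≤ a) (ht : 0 ≤ t) :
    psi m a t ≤ t - 49999 / 50000 * (m * t - 2 * a) := by
  unfold psi
  nlinarith [mul_nonneg (sub_nonneg.2 hm) ha, mul_nonneg (mul_nonneg hm0 hm0) ht]

theorem psi_b {m a t τ q X Y : ℚ} (hm0 : 0 ≤ m) (hm : m ≤ 1) (hτ : 0 ≤ τ) (ht : τ ≤ t)
    (hq0 : 0 ≤ q) (hq : q ≤ 1) (hX : 0 ≤ X) (hY : 0 ≤ Y) :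
    psi (m - q * X) (a - q * Y) τ - psi m a t ≤
      q * (X * ((1 - 1 / 50000 + 2 * m / 50000) * τ - (a - Y) / 4) -
        (399 / 200 - (1 - m) / 4) * Y) := by
  unfold psi
  have h1 : 0 ≤ (1 - m) * (1 + m / 50000) * (t - τ) :=
    mul_nonneg (mul_nonneg (by linarith) (by linarith)) (by linarith)
  have h2 : 0 ≤ q * X * (q * X) * τ := mul_nonneg (mul_self_nonneg _) hτ
  have h3 : 0 ≤ q * X * ((1 - q) * Y) :=
    mul_nonneg (mul_nonneg hq0 hX) (mul_nonneg (by linarith) hY)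
  nlinarith

theorem split_le {om oa x y q V ψ A Q B E₁ E₂ : ℚ} (hx : 0 ≤ x) (hxy : x ≤ y) (hq0 : 0 < q)
    (hq : q ≤ 1) (o1 : 1 - 1 / 100000 ≤ oa) (o2 : oa ≤ 1) (o3 : oa ≤ om)
    (o4 : om ≤ 1 + 1 / 100000) (hA : 0 ≤ A) (h1 : 0 ≤ E₁) (h2 : 0 ≤ E₂)
    (va : V ≤ A - (1 - q) * Q) (vb : V - ψ ≤ q * B) (b1 : B ≤ Q + E₁) (b2 : B ≤ E₂) :
    om * y / q * (V - ψ) ≤ x * (A - oa * ψ + E₁ + 2 / 100000 * E₂) + (y - x) * (om * B) := by
  have hoa : 0 ≤ oa := by linarith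
  have hW : 0 ≤ om * y / q - oa * x := by
    rw [sub_nonneg, le_div_iff₀ hq0]
    have h3 : oa * x ≤ om * y := mul_le_mul o3 hxy hx (by linarith)
    nlinarith [mul_nonneg (mul_nonneg hoa hx) (sub_nonneg.2 hq)]
  have e : (om * y / q - oa * x) * (q * B) = (om * y - q * oa * x) * B := by field_simp
  have a1 := mul_le_mul_of_nonneg_left vb hW
  have a2 : oa * x * (V - ψ) ≤ oa * x * (A - (1 - q) * Q - ψ) :=
    mul_le_mul_of_nonneg_left (by linarith) (mul_nonneg hoa hx)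
  have a3 : oa * x * A ≤ x * A := by nlinarith [mul_nonneg (sub_nonneg.2 o2) (mul_nonneg hx hA)]
  have a4 : (om - oa) * x * B ≤ (om - oa) * x * E₂ :=
    mul_le_mul_of_nonneg_left b2 (mul_nonneg (by linarith) hx)
  have a5 : (om - oa) * x * E₂ ≤ 2 / 100000 * x * E₂ :=
    mul_le_mul_of_nonneg_right (mul_le_mul_of_nonneg_right (by linarith) hx) h2
  have a6 : (1 - q) * oa * x * B ≤ (1 - q) * oa * x * (Q + E₁) :=
    mul_le_mul_of_nonneg_left b1 (mul_nonneg (mul_nonneg (by linarith) hoa) hx)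
  have a7 : (1 - q) * oa * x * E₁ ≤ 1 * x * E₁ :=
    mul_le_mul_of_nonneg_right (mul_le_mul_of_nonneg_right (by nlinarith) hx) h1
  rw [e] at a1
  nlinarith

variable {s : Finset ℕ} {x y d lm u q om V : ℕ → ℚ} {h : ℕ → ℕ → ℚ} {t : ℚ}

theorem Local.m0 (H : Local s x y d lm u q om V h t) : 0 ≤ ∑ i ∈ s, x i := sum_nonneg H.x0

theorem Local.a0 (H : Local s x y d lm u q om V h t) : 0 ≤ ∑ i ∈ s, x i * d i :=
  sum_nonneg fun i hi => mul_nonneg (H.x0 i hi) (H.d0 i hi)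

theorem Local.X0 (H : Local s x y d lm u q om V h t) {l : ℕ} (hl : l ∈ s) :
    0 ≤ ∑ i ∈ s, x i * h i l := sum_nonneg fun i hi => mul_nonneg (H.x0 i hi) (H.h0 i hi l hl)

theorem Local.X1 (H : Local s x y d lm u q om V h t) {l : ℕ} (hl : l ∈ s) :
    ∑ i ∈ s, x i * h i l ≤ 1 :=
  (sum_le_sum fun i hi => mul_le_of_le_one_right (H.x0 i hi) (H.h1 i hi l hl)).trans H.m1

/-- The unit cost of an event. -/
def unit (s : Finset ℕ) (x d : ℕ → ℚ) (h : ℕ → ℕ → ℚ) (t : ℚ) (i l : ℕ) : ℚ :=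
  dcy (∑ j ∈ s, x j) (∑ j ∈ s, x j * (1 - h j l) * d j) (min t (d l)) (d i)

theorem Local.term (H : Local s x y d lm u q om V h t) {l : ℕ} (hl : l ∈ s) :
    om l * y l / q l * (V l - psiV s x d t) ≤
      x l * (d l - (1 - (1 - ∑ i ∈ s, x i * h i l) / 100000) * psiV s x d t +
        ∑ i ∈ s, x i * (h i l * (7 / 100000 * d l + (2 - (399 / 200 - (1 - ∑ j ∈ s, x j) / 4)) * d i) -
          49999 / 50000 * ((1 - h i l) * max (d l - 2 * d i) 0))) +
      ∑ i ∈ s, x i * ((y l - x l) * h i l * (om l * unit s x d h t i l)) := by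
  have hx := H.x0 l hl
  have hxy := H.xy l hl
  rcases (hx.trans hxy).eq_or_lt with hy | hy
  · have : x l = 0 := by linarith
    simp [← hy, this]
  have m0 := H.m0
  have m1 := H.m1
  have X0 := H.X0 hl
  have X1 := H.X1 hl
  have q0 := H.q0 l hl
  have q1 := H.q1 l hl
  have hd := H.d0 l hl
  have τ0 : 0 ≤ min t (d l) := le_min H.t0 hd
  have τ1 : min t (d l) ≤ t := min_le_left _ _
  have τ2 : min t (d l) ≤ d l := min_le_right _ _
  have va := H.va l hl hy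
  have vb := H.vb l hl hy
  unfold unit
  generalize min t (d l) = τ at *
  set m := ∑ j ∈ s, x j with hm
  have hqh : ∀ i ∈ s, 0 ≤ 1 - q l * h i l := fun i hi => by
    have := H.h0 i hi l hl
    have := H.h1 i hi l hl
    nlinarith
  have key := split_le (V := V l) (ψ := psiV s x d t)
    (A := d l - 49999 / 50000 * ∑ i ∈ s, x i * ((1 - h i l) * max (d l - 2 * d i) 0))
    (Q := 49999 / 50000 * ∑ i ∈ s, x i * (h i l * max (τ - 2 * d i) 0))
    (B := ∑ i ∈ s, x i * h i l * dcy m (∑ j ∈ s, x j * (1 - h j l) * d j) τ (d i))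
    (E₁ := ∑ i ∈ s, x i * (h i l * (2 / 50000 * d l + (2 - (399 / 200 - (1 - m) / 4)) * d i)))
    (E₂ := ∑ i ∈ s, x i * (h i l * (3 / 2 * d l))) hx hxy q0 q1
    (oa := 1 - (1 - ∑ i ∈ s, x i * h i l) / 100000) (by linarith) (by linarith) (H.om0 l hl)
    (H.om1 l hl) ?_ ?_ ?_ ?_ ?_ ?_ ?_
  · refine key.trans (le_of_eq ?_)
    have e1 : ∑ i ∈ s, x i * (h i l * (7 / 100000 * d l +
        (2 - (399 / 200 - (1 - m) / 4)) * d i) -
          49999 / 50000 * ((1 - h i l) * max (d l - 2 * d i) 0)) =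
        ∑ i ∈ s, x i * (h i l * (2 / 50000 * d l + (2 - (399 / 200 - (1 - m) / 4)) * d i)) +
        2 / 100000 * ∑ i ∈ s, x i * (h i l * (3 / 2 * d l)) -
        49999 / 50000 * ∑ i ∈ s, x i * ((1 - h i l) * max (d l - 2 * d i) 0) := by
      simp only [mul_sum, ← sum_add_distrib, ← sum_sub_distrib]
      exact sum_congr rfl fun i _ => by ring
    have e2 : ∑ i ∈ s, x i * ((y l - x l) * h i l *
        (om l * dcy m (∑ j ∈ s, x j * (1 - h j l) * d j) τ (d i))) = (y l - x l) * (om l *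
        ∑ i ∈ s, x i * h i l * dcy m (∑ j ∈ s, x j * (1 - h j l) * d j) τ (d i)) := by
      simp only [mul_sum (s := s) (f := fun i => x i * h i l * dcy m _ τ (d i)), mul_sum]
      exact sum_congr rfl fun i _ => by ring
    rw [e1, e2]; ring
  · have : ∑ i ∈ s, x i * ((1 - h i l) * max (d l - 2 * d i) 0) ≤ ∑ i ∈ s, x i * d l :=
      sum_le_sum fun i hi => mul_le_mul_of_nonneg_left (by
        have h1 := H.h0 i hi l hl
        have h2 := H.d0 i hi
        have h3 : max (d l - 2 * d i) 0 ≤ d l := max_le (by linarith) hd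
        nlinarith [mul_nonneg h1 (le_max_right (d l - 2 * d i) 0)]) (H.x0 i hi)
    rw [← sum_mul] at this
    nlinarith
  · exact sum_nonneg fun i hi => mul_nonneg (H.x0 i hi) (mul_nonneg (H.h0 i hi l hl)
      (add_nonneg (by linarith) (mul_nonneg (by linarith) (H.d0 i hi))))
  · exact sum_nonneg fun i hi => mul_nonneg (H.x0 i hi) (mul_nonneg (H.h0 i hi l hl) (by linarith))
  · have n0 : ∀ i ∈ s, 0 ≤ if 2 * d i ≤ τ then x i * (1 - q l * h i l) else 0 := fun i hi => by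
      split_ifs
      · exact mul_nonneg (H.x0 i hi) (hqh i hi)
      · exact le_rfl
    refine va.trans ((psi_a (sum_nonneg n0) (le_trans (sum_le_sum fun i hi => ?_) m1)
      (sum_nonneg fun i hi => mul_nonneg (n0 i hi) (H.d0 i hi)) τ0).trans ?_)
    · have h1 := H.x0 i hi
      split_ifs
      · nlinarith [mul_nonneg h1 (mul_nonneg q0.le (H.h0 i hi l hl))]
      · exact h1
    · have h1 : ∑ i ∈ s, x i * ((1 - h i l) * max (d l - 2 * d i) 0) +
          (1 - q l) * ∑ i ∈ s, x i * (h i l * max (τ - 2 * d i) 0) ≤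
          (∑ i ∈ s, if 2 * d i ≤ τ then x i * (1 - q l * h i l) else 0) * τ -
          2 * ∑ i ∈ s, (if 2 * d i ≤ τ then x i * (1 - q l * h i l) else 0) * d i +
          m * (d l - τ) := by
        rw [hm]
        simp only [sum_mul, mul_sum, ← sum_add_distrib, ← sum_sub_distrib]
        refine sum_le_sum fun i hi => ?_
        have b1 : max (d l - 2 * d i) 0 ≤ max (τ - 2 * d i) 0 + (d l - τ) :=
          max_le (by linarith [le_max_left (τ - 2 * d i) 0])
            (by linarith [le_max_right (τ - 2 * d i) 0])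
        have b2 := mul_le_mul_of_nonneg_left b1
          (mul_nonneg (H.x0 i hi) (sub_nonneg.2 (H.h1 i hi l hl)))
        have b3 := mul_nonneg (mul_nonneg (H.x0 i hi) (H.h0 i hi l hl)) (sub_nonneg.2 τ2)
        split_ifs with hc
        · rw [max_eq_left (by linarith : 0 ≤ τ - 2 * d i)] at b2 ⊢
          nlinarith
        · rw [max_eq_right (by linarith : τ - 2 * d i ≤ 0)] at b2 ⊢
          nlinarith
      nlinarith [mul_nonneg (sub_nonneg.2 m1) (sub_nonneg.2 τ2)]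
  · have e1 : ∑ i ∈ s, x i * (1 - q l * h i l) = m - q l * ∑ i ∈ s, x i * h i l := by
      rw [hm, mul_sum, ← sum_sub_distrib]; exact sum_congr rfl fun i _ => by ring
    have e2 : ∑ i ∈ s, x i * (1 - q l * h i l) * d i =
        ∑ i ∈ s, x i * d i - q l * ∑ i ∈ s, x i * h i l * d i := by
      rw [mul_sum, ← sum_sub_distrib]; exact sum_congr rfl fun i _ => by ring
    have e3 : ∑ j ∈ s, x j * (1 - h j l) * d j =
        ∑ i ∈ s, x i * d i - ∑ i ∈ s, x i * h i l * d i := by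
      rw [← sum_sub_distrib]; exact sum_congr rfl fun i _ => by ring
    have h1 := psi_b (a := ∑ i ∈ s, x i * d i) m0 m1 τ0 τ1 q0.le q1 X0
      (Y := ∑ i ∈ s, x i * h i l * d i) (sum_nonneg fun i hi =>
        mul_nonneg (mul_nonneg (H.x0 i hi) (H.h0 i hi l hl)) (H.d0 i hi))
    unfold psiV at vb ⊢
    rw [e1, e2] at vb
    refine le_trans (by linarith) (h1.trans (le_of_eq ?_))
    rw [e3, sum_mul, mul_sum (a := 399 / 200 - (1 - m) / 4), ← sum_sub_distrib]
    congr 1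
    exact sum_congr rfl fun i _ => by unfold dcy; ring
  · rw [mul_sum, ← sum_add_distrib]
    refine sum_le_sum fun i hi => ?_
    have r0 : 0 ≤ ∑ j ∈ s, x j * (1 - h j l) * d j := sum_nonneg fun j hj =>
      mul_nonneg (mul_nonneg (H.x0 j hj) (sub_nonneg.2 (H.h1 j hj l hl))) (H.d0 j hj)
    have b1 : dcy m (∑ j ∈ s, x j * (1 - h j l) * d j) τ (d i) ≤ 49999 / 50000 * max (τ - 2 * d i) 0 +
        (2 / 50000 * d l + (2 - (399 / 200 - (1 - m) / 4)) * d i) := by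
      unfold dcy
      nlinarith [le_max_left (τ - 2 * d i) 0, H.d0 i hi, mul_nonneg (sub_nonneg.2 m1) τ0]
    nlinarith [mul_le_mul_of_nonneg_left b1 (mul_nonneg (H.x0 i hi) (H.h0 i hi l hl))]
  · refine sum_le_sum fun i hi => ?_
    have r0 : 0 ≤ ∑ j ∈ s, x j * (1 - h j l) * d j := sum_nonneg fun j hj =>
      mul_nonneg (mul_nonneg (H.x0 j hj) (sub_nonneg.2 (H.h1 j hj l hl))) (H.d0 j hj)
    have b1 : dcy m (∑ j ∈ s, x j * (1 - h j l) * d j) τ (d i) ≤ 3 / 2 * d l := by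
      unfold dcy
      nlinarith [H.d0 i hi, mul_nonneg (sub_nonneg.2 m1) τ0, mul_nonneg m0 (H.d0 i hi)]
    nlinarith [mul_le_mul_of_nonneg_left b1 (mul_nonneg (H.x0 i hi) (H.h0 i hi l hl))]

/-- Both bounds for the unit cost of the events that remove mass at `i`. -/
theorem Local.out (H : Local s x y d lm u q om V h t) {i : ℕ} (hi : i ∈ s) {C : ℚ}
    (h1 : ∀ l ∈ s, 0 < h i l → om l * unit s x d h t i l ≤ C)
    (h2 : 0 < u i → dcy (∑ j ∈ s, x j) (∑ j ∈ s, x j * d j) t (d i) ≤ C) :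
    ∑ l ∈ s, (y l - x l) * h i l * (om l * unit s x d h t i l) +
      u i * dcy (∑ j ∈ s, x j) (∑ j ∈ s, x j * d j) t (d i) ≤
      (1 - ∑ j ∈ s, x j + ∑ l ∈ s, x l * (1 - h i l)) * C := by
  have e : 1 - ∑ j ∈ s, x j + ∑ l ∈ s, x l * (1 - h i l) = ∑ l ∈ s, (y l - x l) * h i l + u i := by
    have := H.tot i hi
    simp only [mul_sub, sub_mul, sum_sub_distrib, mul_one]
    linarith
  rw [e, add_mul, sum_mul]
  refine add_le_add (sum_le_sum fun l hl => ?_) ?_
  · rcases (H.h0 i hi l hl).eq_or_lt with h0 | h0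
    · simp [← h0]
    · exact mul_le_mul_of_nonneg_left (h1 l hl h0) (mul_nonneg (sub_nonneg.2 (H.xy l hl)) h0.le)
  · rcases (H.u0 i hi).eq_or_lt with h0 | h0
    · simp [← h0]
    · exact mul_le_mul_of_nonneg_left (h2 h0) h0.le

theorem om_dcy {om m r τ e : ℚ} (o1 : 1 - 1 / 100000 ≤ om) (o2 : om ≤ 1 + 1 / 100000)
    (m0 : 0 ≤ m) (m1 : m ≤ 1) (hr : 0 ≤ r) (hτ : 0 ≤ τ) (he : 0 ≤ e) :
    om * dcy m r τ e ≤ (1 - 1 / 50000 + 2 * m / 50000) * ((1 + 1 / 100000) * τ) -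
      (1 - 1 / 100000) * r / 4 - (399 / 200 - (1 - m) / 4) * e + 2 / 100000 * e := by
  unfold dcy
  have h1 : 0 ≤ (1 + 1 / 100000 - om) * ((1 - 1 / 50000 + 2 * m / 50000) * τ) :=
    mul_nonneg (by linarith) (mul_nonneg (by linarith) hτ)
  have h2 : 0 ≤ (om - (1 - 1 / 100000)) * r := mul_nonneg (by linarith) hr
  have h3 : 0 ≤ (om - (1 - 1 / 100000)) * ((399 / 200 - (1 - m) / 4) * e) :=
    mul_nonneg (by linarith) (mul_nonneg (by linarith) he)
  nlinarith [mul_nonneg (sub_nonneg.2 m1) he]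

theorem Local.om_low (H : Local s x y d lm u q om V h t) {l : ℕ} (hl : l ∈ s) :
    1 - 1 / 100000 ≤ om l := by
  have := H.om0 l hl
  have := H.X0 hl
  linarith

theorem Local.r0 (H : Local s x y d lm u q om V h t) {l : ℕ} (hl : l ∈ s) :
    0 ≤ ∑ j ∈ s, x j * (1 - h j l) * d j := sum_nonneg fun j hj =>
  mul_nonneg (mul_nonneg (H.x0 j hj) (sub_nonneg.2 (H.h1 j hj l hl))) (H.d0 j hj)

theorem Local.u_one (H : Local s x y d lm u q om V h t) {i l : ℕ} (hi : i ∈ s) (hl : l ∈ s)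
    (h0 : 0 < h i l) : om l * unit s x d h t i l ≤
      (1 - 1 / 50000 + 2 * (∑ j ∈ s, x j) / 50000) * t +
      (6 / 100 - (399 / 200 - (1 - ∑ j ∈ s, x j) / 4)) * d i := by
  have m0 := H.m0
  have m1 := H.m1
  have hd := H.d0 i hi
  have r0 := H.r0 hl
  refine (om_dcy (H.om_low hl) (H.om1 l hl) m0 m1 r0 (le_min H.t0 (H.d0 l hl)) hd).trans ?_
  have h1 : (1 + 1 / 100000) * min t (d l) ≤ t + 51 / 1000 * d i := by
    have := min_le_left t (d l)
    have := min_le_right t (d l)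
    have := H.k1 i hi l hl h0
    have := H.k5 i hi
    have := H.t0
    linarith
  have h2 := mul_le_mul_of_nonneg_left h1
    (show 0 ≤ 1 - 1 / 50000 + 2 * (∑ j ∈ s, x j) / 50000 by linarith)
  nlinarith [mul_nonneg (sub_nonneg.2 m1) hd]

theorem Local.u_two (H : Local s x y d lm u q om V h t) {i l : ℕ} (hi : i ∈ s) (hl : l ∈ s)
    (h0 : 0 < h i l) : om l * unit s x d h t i l ≤
      d i + lm i - ∑ j ∈ s, x j * gG d lm i j - (399 / 200 - (1 - ∑ j ∈ s, x j) / 4) * d i +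
      (2 / 100000 * d i + (∑ j ∈ s, x j * d j) / 400000 + 53 / 100000 * (d i + lm i)) := by
  have m0 := H.m0
  have m1 := H.m1
  have hd := H.d0 i hi
  have hdl := H.d0 l hl
  have r0 := H.r0 hl
  have k1 := H.k1 i hi l hl h0
  have τ0 : 0 ≤ min t (d l) := le_min H.t0 hdl
  refine (om_dcy (H.om_low hl) (H.om1 l hl) m0 m1 r0 τ0 hd).trans ?_
  have r1 : ∑ j ∈ s, x j * (1 - h j l) * d j ≤ ∑ j ∈ s, x j * d j := sum_le_sum fun j hj => by
    nlinarith [mul_nonneg (mul_nonneg (H.x0 j hj) (H.h0 j hj l hl)) (H.d0 j hj)]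
  have h1 : ∑ j ∈ s, x j * gG d lm i j ≤
      (∑ j ∈ s, x j * (1 - h j l) * d j) / 4 + (∑ j ∈ s, x j) * (d i + lm i - d l) := by
    rw [sum_div, sum_mul, ← sum_add_distrib]
    refine sum_le_sum fun j hj => ?_
    have b0 := mul_nonneg (sub_nonneg.2 (H.h1 j hj l hl)) (H.d0 j hj)
    have b1 : gG d lm i j ≤ (1 - h j l) * d j / 4 + (d i + lm i - d l) := by
      by_cases hc : 1 / 2 < h j l
      · have := H.k2 j hj l hl hc
        exact (min_le_right _ _).trans (max_le (by linarith) (by linarith))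
      · refine (min_le_left _ _).trans ?_
        nlinarith [mul_nonneg (show 0 ≤ 1 / 2 - h j l by linarith) (H.d0 j hj)]
    nlinarith [mul_le_mul_of_nonneg_left b1 (H.x0 j hj)]
  have τ2 := min_le_right t (d l)
  nlinarith [mul_nonneg (sub_nonneg.2 m1) (sub_nonneg.2 k1), mul_nonneg (sub_nonneg.2 m1) τ0]

theorem mix {m π t a e l Γ C : ℚ} (m0 : 0 ≤ m) (m1 : m ≤ 1) (p0 : 0 ≤ π) (p1 : π ≤ 1)
    (t0 : 0 ≤ t) (a0 : 0 ≤ a) (e0 : 0 ≤ e) (l0 : 0 ≤ l) (g0 : 0 ≤ Γ)
    (c1 : C ≤ (1 - 1 / 50000 + 2 * m / 50000) * t + (6 / 100 - (399 / 200 - (1 - m) / 4)) * e)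
    (c2 : C ≤ e + l - Γ - (399 / 200 - (1 - m) / 4) * e +
      (2 / 100000 * e + a / 400000 + 53 / 100000 * (e + l))) :
    (1 - m + π) * C + (1 - m) * (1 + m / 50000) * t / 100000 * π ≤
      (1 - m) * ((1 - 1 / 50000 + 2 * m / 50000) * t + (6 / 100 - (399 / 200 - (1 - m) / 4)) * e) +
      π * (l - e - Γ + (2 - (399 / 200 - (1 - m) / 4)) * e + 56 / 100000 * (e + l) +
        3 / 100000 * e + a / 300000) := by
  set U := (1 - 1 / 50000 + 2 * m / 50000) * t + (6 / 100 - (399 / 200 - (1 - m) / 4)) * e with hU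
  set N := e + l + (2 / 100000 * e + a / 400000 + 53 / 100000 * (e + l)) with hN
  have N0 : 0 ≤ N := by rw [hN]; linarith
  have h1 : C + (1 + m / 50000) * t / 100000 * π ≤ U + 2 / 100000 * π * N := by
    have b1 := mul_le_mul_of_nonneg_left c1 (show 0 ≤ 1 - 2 / 100000 * π by linarith)
    have b2 := mul_le_mul_of_nonneg_left c2 (show 0 ≤ 2 / 100000 * π by linarith)
    have b3 : (1 + m / 50000) * t - 2 * U + 2 * (e + l - Γ - (399 / 200 - (1 - m) / 4) * e +
      (2 / 100000 * e + a / 400000 + 53 / 100000 * (e + l))) ≤ 2 * N := by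
      rw [hU, hN]; nlinarith [mul_nonneg m0 t0]
    nlinarith [mul_le_mul_of_nonneg_left b3 p0]
  have h2 := mul_le_mul_of_nonneg_left h1 (sub_nonneg.2 m1)
  have h3 := mul_le_mul_of_nonneg_left c2 p0
  have h4 : 0 ≤ m * (π * N) := mul_nonneg m0 (mul_nonneg p0 N0)
  have h5 : e + l - Γ - (399 / 200 - (1 - m) / 4) * e +
      (2 / 100000 * e + a / 400000 + 53 / 100000 * (e + l)) + 2 / 100000 * N ≤
      l - e - Γ + (2 - (399 / 200 - (1 - m) / 4)) * e + 56 / 100000 * (e + l) +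
        3 / 100000 * e + a / 300000 := by
    rw [hN]; linarith
  nlinarith [mul_le_mul_of_nonneg_left h5 p0]

theorem pair_le {H a b l Γ A σ : ℚ} (h0 : 0 ≤ H) (h1 : H ≤ 1) (a0 : 0 ≤ a) (b0 : 0 ≤ b)
    (A0 : 0 ≤ A) (k4 : H < 1 → l ≤ 11 / 10 * (a + b)) :
    H * (7 / 100000 * b + σ * a) - 49999 / 50000 * ((1 - H) * max (b - 2 * a) 0) +
      (1 - H) * (l - a - Γ + σ * a + 56 / 100000 * (a + l) + 3 / 100000 * a + A / 300000) ≤
      (1 + 71 / 100000) * b + (σ + 121 / 100000) * a + A / 300000 -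
        (b - (1 - H) * (l - a - max (b - 2 * a) 0) + (1 - H) * Γ) := by
  have p1 : max (b - 2 * a) 0 ≤ b := max_le (by linarith) b0
  have p0 := le_max_right (b - 2 * a) 0
  generalize max (b - 2 * a) 0 = p at *
  have h2 : (1 - H) * l ≤ 11 / 10 * (a + b) := by
    rcases h1.eq_or_lt with rfl | h2
    · linarith
    · nlinarith [k4 h2, mul_nonneg h0 (add_nonneg a0 b0)]
  nlinarith [mul_nonneg h0 p0, mul_nonneg h0 a0, mul_nonneg h0 A0, mul_nonneg (sub_nonneg.2 h1) b0]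

theorem final_le {m a t P ψ T₁ T₂ O W₁ W₂ S : ℚ} (m0 : 0 ≤ m) (m1 : m ≤ 1) (a0 : 0 ≤ a)
    (t0 : 0 ≤ t) (P0 : 0 ≤ P)
    (hψ : ψ = (399 / 200 - (1 - m) / 4) * a + (1 - m) * (1 + m / 50000) * t)
    (h1 : T₁ ≤ a - (m - (m - P) / 100000) * ψ + W₁ + O)
    (h2 : O + T₂ + (1 - m) * (1 + m / 50000) * t / 100000 * (m ^ 2 - P) ≤
      (1 - m) * ((1 - 1 / 50000 + 2 * m / 50000) * t * m +
        (6 / 100 - (399 / 200 - (1 - m) / 4)) * a) + W₂)
    (h3 : W₁ + W₂ ≤ (1 + 71 / 100000) * (m * a) +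
      (2 - (399 / 200 - (1 - m) / 4) + 121 / 100000) * (a * m) + a / 300000 * (m * m) - S)
    (h4 : m ^ 2 * a / 80 ≤ S) : T₁ + T₂ ≤ 0 := by
  have c1 : 0 ≤ m * (1 - m) ^ 2 * t * (1 - m / 50000) :=
    mul_nonneg (mul_nonneg (mul_nonneg m0 (sq_nonneg _)) t0) (by linarith)
  have c2 : 0 ≤ P * ((399 / 200 - (1 - m) / 4) * a) := mul_nonneg P0 (mul_nonneg (by linarith) a0)
  have c3 : 1 - m * (399 / 200 - (1 - m) / 4) + m / 100000 * (399 / 200 - (1 - m) / 4) +
      (1 - m) * (6 / 100 - (399 / 200 - (1 - m) / 4)) + (1 + 71 / 100000) * m +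
      (2 - (399 / 200 - (1 - m) / 4) + 121 / 100000) * m + m * m / 300000 - m ^ 2 / 80 ≤ 0 := by
    nlinarith [mul_nonneg m0 (sub_nonneg.2 m1)]
  have c4 := mul_nonneg (neg_nonneg.2 c3) a0
  rw [hψ] at h1
  linarith

theorem client_stmt : ClientStmt := by
  intro s x y d lm u q om V h t H
  have m0 := H.m0
  have m1 := H.m1
  have a0 := H.a0
  have t0 := H.t0
  have gain := H.gain
  have h1 := sum_le_sum fun l hl => H.term (l := l) hl
  set m := ∑ j ∈ s, x j with hm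
  set a := ∑ j ∈ s, x j * d j with ha
  set Γ := fun i => ∑ j ∈ s, x j * gG d lm i j with hΓ
  set σ := 2 - (399 / 200 - (1 - m) / 4) with hσ
  set Z := fun i => lm i - d i - Γ i + σ * d i + 56 / 100000 * (d i + lm i) +
    3 / 100000 * d i + a / 300000 with hZ
  have h2 : ∑ i ∈ s, x i * (∑ l ∈ s, (y l - x l) * h i l * (om l * unit s x d h t i l) +
      u i * dcy m a t (d i) +
      (1 - m) * (1 + m / 50000) * t / 100000 * ∑ l ∈ s, x l * (1 - h i l)) ≤
      ∑ i ∈ s, x i * ((1 - m) * ((1 - 1 / 50000 + 2 * m / 50000) * t +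
        (6 / 100 - (399 / 200 - (1 - m) / 4)) * d i) + (∑ l ∈ s, x l * (1 - h i l)) * Z i) := by
    refine sum_le_sum fun i hi => mul_le_mul_of_nonneg_left ?_ (H.x0 i hi)
    have g0 : 0 ≤ Γ i := sum_nonneg fun j hj => mul_nonneg (H.x0 j hj) (gG_nonneg (H.d0 j hj))
    have g1 : Γ i ≤ a / 8 := by
      rw [ha, sum_div]
      exact sum_le_sum fun j hj => by
        have b1 : gG d lm i j ≤ d j / 8 := min_le_left _ _
        nlinarith [mul_le_mul_of_nonneg_left b1 (H.x0 j hj)]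
    have hd := H.d0 i hi
    have hl := H.lm0 i hi
    refine le_trans (add_le_add_left (H.out hi
      (fun l hl h0 => le_min (H.u_one hi hl h0) (H.u_two hi hl h0)) (fun h0 => le_min ?_ ?_)) _)
      (mix m0 m1 (sum_nonneg fun l hl => mul_nonneg (H.x0 l hl) (sub_nonneg.2 (H.h1 i hi l hl)))
        (le_trans (sum_le_sum fun l hl => ?_) m1) t0 a0 hd hl g0 (min_le_left _ _)
        (min_le_right _ _))
    · unfold dcy; linarith
    · have := H.k6 i hi h0
      unfold dcy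
      nlinarith [mul_nonneg (sub_nonneg.2 m1) t0]
    · nlinarith [mul_nonneg (H.x0 l hl) (H.h0 i hi l hl)]
  have h3 : ∑ i ∈ s, ∑ l ∈ s, x i * x l * (h i l * (7 / 100000 * d l + σ * d i) -
      49999 / 50000 * ((1 - h i l) * max (d l - 2 * d i) 0) + (1 - h i l) * Z i) ≤
      ∑ i ∈ s, ∑ l ∈ s, x i * x l * ((1 + 71 / 100000) * d l + (σ + 121 / 100000) * d i +
        a / 300000 - (dfc d lm h i l + (1 - h i l) * Γ i)) :=
    sum_le_sum fun i hi => sum_le_sum fun l hl => mul_le_mul_of_nonneg_left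
      (pair_le (H.h0 i hi l hl) (H.h1 i hi l hl) (H.d0 i hi) (H.d0 l hl) a0 (H.k4 i hi l hl))
      (mul_nonneg (H.x0 i hi) (H.x0 l hl))
  have hψ : psiV s x d t = (399 / 200 - (1 - m) / 4) * a + (1 - m) * (1 + m / 50000) * t := rfl
  set P := ∑ i ∈ s, ∑ l ∈ s, x i * x l * h i l with hP
  have P0 : 0 ≤ P := sum_nonneg fun i hi => sum_nonneg fun l hl =>
    mul_nonneg (mul_nonneg (H.x0 i hi) (H.x0 l hl)) (H.h0 i hi l hl)
  have e1 : ∑ l ∈ s, (x l * (d l - (1 - (1 - ∑ i ∈ s, x i * h i l) / 100000) * psiV s x d t +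
        ∑ i ∈ s, x i * (h i l * (7 / 100000 * d l + σ * d i) -
          49999 / 50000 * ((1 - h i l) * max (d l - 2 * d i) 0))) +
      ∑ i ∈ s, x i * ((y l - x l) * h i l * (om l * unit s x d h t i l))) =
      a - (m - (m - P) / 100000) * psiV s x d t +
      ∑ i ∈ s, ∑ l ∈ s, x i * x l * (h i l * (7 / 100000 * d l + σ * d i) -
        49999 / 50000 * ((1 - h i l) * max (d l - 2 * d i) 0)) +
      ∑ i ∈ s, x i * ∑ l ∈ s, (y l - x l) * h i l * (om l * unit s x d h t i l) := by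
    rw [sum_add_distrib, sum_comm (f := fun l i => x i * ((y l - x l) * h i l * _)),
      sum_comm (f := fun i l => x i * x l * (h i l * _ - _)), hP,
      sum_comm (f := fun i l => x i * x l * h i l)]
    congr 1
    · rw [ha, hm, ← sum_sub_distrib, sum_div, ← sum_sub_distrib, sum_mul, ← sum_sub_distrib,
        ← sum_add_distrib]
      refine sum_congr rfl fun l _ => ?_
      have b1 : ∑ i ∈ s, x i * x l * h i l = x l * ∑ i ∈ s, x i * h i l := by
        rw [mul_sum]; exact sum_congr rfl fun i _ => by ring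
      rw [b1, mul_add, mul_sum]
      congr 1
      · ring
      · exact sum_congr rfl fun i _ => by ring
    · exact sum_congr rfl fun i _ => (mul_sum _ _ _).symm
  have e2 : ∑ i ∈ s, x i * ∑ l ∈ s, x l * (1 - h i l) = m ^ 2 - P := by
    rw [hP, hm, sq, sum_mul_sum, ← sum_sub_distrib]
    refine sum_congr rfl fun i _ => ?_
    rw [mul_sum, ← sum_sub_distrib]
    exact sum_congr rfl fun l _ => by ring
  have e3 : ∑ i ∈ s, x i * (∑ l ∈ s, (y l - x l) * h i l * (om l * unit s x d h t i l) +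
      u i * dcy m a t (d i) +
      (1 - m) * (1 + m / 50000) * t / 100000 * ∑ l ∈ s, x l * (1 - h i l)) =
      ∑ i ∈ s, x i * ∑ l ∈ s, (y l - x l) * h i l * (om l * unit s x d h t i l) +
      ∑ i ∈ s, u i * x i * dcy m a t (d i) +
      (1 - m) * (1 + m / 50000) * t / 100000 * (m ^ 2 - P) := by
    rw [← e2, mul_sum, ← sum_add_distrib, ← sum_add_distrib]
    exact sum_congr rfl fun i _ => by ring
  have e4 : ∑ i ∈ s, x i * ((1 - m) * ((1 - 1 / 50000 + 2 * m / 50000) * t +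
        (6 / 100 - (399 / 200 - (1 - m) / 4)) * d i) + (∑ l ∈ s, x l * (1 - h i l)) * Z i) =
      (1 - m) * ((1 - 1 / 50000 + 2 * m / 50000) * t * m +
        (6 / 100 - (399 / 200 - (1 - m) / 4)) * a) +
      ∑ i ∈ s, ∑ l ∈ s, x i * x l * ((1 - h i l) * Z i) := by
    have b1 : ∀ c₁ c₂ c₃ : ℚ, c₁ * (c₂ * m + c₃ * a) = ∑ i ∈ s, x i * (c₁ * (c₂ + c₃ * d i)) := by
      intro c₁ c₂ c₃
      rw [hm, ha]
      simp only [mul_sum, ← sum_add_distrib]
      exact sum_congr rfl fun i _ => by ring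
    rw [b1, ← sum_add_distrib]
    refine sum_congr rfl fun i _ => ?_
    rw [mul_add (x i), sum_mul (s := s) (f := fun l => x l * (1 - h i l)),
      mul_sum (s := s) (a := x i)]
    congr 1
    exact sum_congr rfl fun l _ => by ring
  have e5 : ∑ i ∈ s, ∑ l ∈ s, x i * x l * ((1 + 71 / 100000) * d l + (σ + 121 / 100000) * d i +
        a / 300000 - (dfc d lm h i l + (1 - h i l) * Γ i)) =
      (1 + 71 / 100000) * (m * a) + (σ + 121 / 100000) * (a * m) + a / 300000 * (m * m) -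
      ∑ i ∈ s, ∑ l ∈ s, x i * x l * (dfc d lm h i l + (1 - h i l) * Γ i) := by
    have b1 : m * a = ∑ i ∈ s, ∑ l ∈ s, x i * (x l * d l) := sum_mul_sum _ _ _ _
    have b2 : a * m = ∑ i ∈ s, ∑ l ∈ s, x i * d i * x l := sum_mul_sum _ _ _ _
    have b3 : m * m = ∑ i ∈ s, ∑ l ∈ s, x i * x l := sum_mul_sum _ _ _ _
    rw [b1, b2, b3]
    simp only [mul_sum, ← sum_add_distrib, ← sum_sub_distrib]
    exact sum_congr rfl fun i _ => sum_congr rfl fun l _ => by ring
  rw [e1] at h1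
  rw [e3, e4] at h2
  rw [e5] at h3
  have e6 : ∑ i ∈ s, ∑ l ∈ s, x i * x l * (h i l * (7 / 100000 * d l + σ * d i) -
      49999 / 50000 * ((1 - h i l) * max (d l - 2 * d i) 0) + (1 - h i l) * Z i) =
      ∑ i ∈ s, ∑ l ∈ s, x i * x l * (h i l * (7 / 100000 * d l + σ * d i) -
        49999 / 50000 * ((1 - h i l) * max (d l - 2 * d i) 0)) +
      ∑ i ∈ s, ∑ l ∈ s, x i * x l * ((1 - h i l) * Z i) := by
    simp only [← sum_add_distrib]
    exact sum_congr rfl fun i _ => sum_congr rfl fun l _ => by ring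
  rw [e6] at h3
  exact final_le m0 m1 a0 t0 P0 hψ h1 h2 h3 gain

end Vale.Agent.P334
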