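import Vale.Agent.P334.Stmts

/-! The gain of a client. -/

namespace Vale.Agent.P334

open Finset

/-- The deficit of a pair. -/
def dfc (d lm : ℕ → ℚ) (h : ℕ → ℕ → ℚ) (i l : ℕ) : ℚ :=
  d l - (1 - h i l) * (lm i - d i - max (d l - 2 * d i) 0)

/-- The gain of a pair. -/
def gG (d lm : ℕ → ℚ) (i i' : ℕ) : ℚ :=
  min (d i' / 8) (max (d i + lm i - d i' - 10 / 11 * lm i') 0)

theorem dfc_low {a b l H : ℚ} (ha : 0 ≤ a) (hb : 0 ≤ b) (h0 : 0 ≤ H) (h1 : H ≤ 1)
    (k3 : H < 1 / 2 → l ≤ a + b) (k4 : H < 1 → l ≤ 11 / 10 * (a + b)) :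
    (H < 1 / 2 ∧ max (b - 2 * a) 0 ≤ b - (1 - H) * (l - a - max (b - 2 * a) 0)) ∨
      9 / 20 * b - 1 / 20 * a ≤ b - (1 - H) * (l - a - max (b - 2 * a) 0) := by
  have hp : 0 ≤ max (b - 2 * a) 0 := le_max_right _ _
  have hp' : max (b - 2 * a) 0 ≤ b := max_le (by linarith) hb
  generalize max (b - 2 * a) 0 = p at *
  by_cases hH : H < 1 / 2
  · left
    have := k3 hH
    refine ⟨hH, ?_⟩
    have h2 : (1 - H) * (l - a - p) ≤ (1 - H) * (b - p) :=
      mul_le_mul_of_nonneg_left (by linarith) (by linarith)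
    nlinarith [mul_nonneg h0 (sub_nonneg.2 hp')]
  · right
    rcases h1.eq_or_lt with rfl | h1'
    · linarith
    · have := k4 h1'
      have h2 : (1 - H) * (l - a - p) ≤ (1 - H) * (1 / 10 * a + 11 / 10 * b) :=
        mul_le_mul_of_nonneg_left (by linarith) (by linarith)
      have h3 : (1 - H) * (1 / 10 * a + 11 / 10 * b) ≤ 1 / 2 * (1 / 10 * a + 11 / 10 * b) :=
        mul_le_mul_of_nonneg_right (by linarith) (by linarith)
      linarith

theorem gG_nonneg {d lm : ℕ → ℚ} {i i' : ℕ} (h : 0 ≤ d i') : 0 ≤ gG d lm i i' :=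
  le_min (by linarith) (le_max_right _ _)

theorem sym_sum (s : Finset ℕ) (x : ℕ → ℚ) (hx : ∀ i ∈ s, 0 ≤ x i) (F : ℕ → ℕ → ℚ) (c : ℚ)
    (h : ∀ i ∈ s, ∀ j ∈ s, 2 * c ≤ F i j + F j i) :
    c * (∑ i ∈ s, x i) ^ 2 ≤ ∑ i ∈ s, ∑ j ∈ s, x i * x j * F i j := by
  have h1 : ∑ i ∈ s, ∑ j ∈ s, x i * x j * F j i = ∑ i ∈ s, ∑ j ∈ s, x i * x j * F i j := by
    rw [sum_comm]
    exact sum_congr rfl fun i _ => sum_congr rfl fun j _ => by ring
  have h2 : ∑ i ∈ s, ∑ j ∈ s, x i * x j * (2 * c) ≤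
      ∑ i ∈ s, ∑ j ∈ s, (x i * x j * F i j + x i * x j * F j i) :=
    sum_le_sum fun i hi => sum_le_sum fun j hj => by
      rw [← mul_add]
      exact mul_le_mul_of_nonneg_left (h i hi j hj) (mul_nonneg (hx i hi) (hx j hj))
  simp only [sum_add_distrib] at h2
  have h3 : ∑ i ∈ s, ∑ j ∈ s, x i * x j * (2 * c) = 2 * (c * (∑ i ∈ s, x i) ^ 2) := by
    rw [sq, sum_mul_sum]
    simp only [mul_sum]
    exact sum_congr rfl fun i _ => sum_congr rfl fun j _ => by ring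
  linarith

variable {s : Finset ℕ} {x y d lm u q om V : ℕ → ℚ} {h : ℕ → ℕ → ℚ} {t : ℚ}

theorem Local.dfc_cases (H : Local s x y d lm u q om V h t) {i l : ℕ} (hi : i ∈ s) (hl : l ∈ s) :
    (h i l < 1 / 2 ∧ max (d l - 2 * d i) 0 ≤ dfc d lm h i l) ∨
      9 / 20 * d l - 1 / 20 * d i ≤ dfc d lm h i l :=
  dfc_low (H.d0 i hi) (H.d0 l hl) (H.h0 i hi l hl) (H.h1 i hi l hl) (H.k3 i hi l hl)
    (H.k4 i hi l hl)

theorem Local.dfc_sym (H : Local s x y d lm u q om V h t) {i l : ℕ} (hi : i ∈ s) (hl : l ∈ s) :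
    0 ≤ dfc d lm h i l + dfc d lm h l i := by
  have h1 := H.d0 i hi
  have h2 := H.d0 l hl
  have a1 := le_max_left (d l - 2 * d i) 0
  have a2 := le_max_right (d l - 2 * d i) 0
  have a3 := le_max_left (d i - 2 * d l) 0
  have a4 := le_max_right (d i - 2 * d l) 0
  rcases H.dfc_cases hi hl with ⟨-, b⟩ | b <;> rcases H.dfc_cases hl hi with ⟨-, c⟩ | c <;>
    linarith

theorem Local.dfc_small (H : Local s x y d lm u q om V h t) {i l : ℕ} (hi : i ∈ s) (hl : l ∈ s)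
    (hs : dfc d lm h i l + dfc d lm h l i < d l / 20) :
    h i l < 1 / 2 ∧ 19 / 40 * d l ≤ d i ∧ d l ≤ lm i := by
  have h1 := H.d0 i hi
  have h2 := H.d0 l hl
  have a1 := le_max_left (d l - 2 * d i) 0
  have a2 := le_max_right (d l - 2 * d i) 0
  have a3 := le_max_left (d i - 2 * d l) 0
  have a4 := le_max_right (d i - 2 * d l) 0
  rcases H.dfc_cases hi hl with ⟨b0, b⟩ | b <;> rcases H.dfc_cases hl hi with ⟨-, c⟩ | c
  · refine ⟨b0, by linarith, ?_⟩
    have h3 : dfc d lm h i l < d l / 20 := by linarith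
    have h4 := H.h0 i hi l hl
    unfold dfc at h3
    generalize max (d l - 2 * d i) 0 = p at *
    by_contra h5
    by_cases h6 : 0 ≤ lm i - d i - p
    · nlinarith [mul_nonneg h4 h6]
    · nlinarith [mul_nonneg (show 0 ≤ 1 - h i l by linarith) (show 0 ≤ -(lm i - d i - p) by linarith)]
  · exfalso; linarith
  · exfalso; linarith
  · exfalso; linarith

theorem Local.point (H : Local s x y d lm u q om V h t) {i j l : ℕ} (hi : i ∈ s) (hj : j ∈ s)
    (hl : l ∈ s) : 2 * (d l / 80) ≤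
      ((dfc d lm h i l + dfc d lm h l i) / 2 + (1 - h i l) * gG d lm i j) +
      ((dfc d lm h j l + dfc d lm h l j) / 2 + (1 - h j l) * gG d lm j i) := by
  have a1 := H.dfc_sym hi hl
  have a2 := H.dfc_sym hj hl
  have g1 : 0 ≤ gG d lm i j := gG_nonneg (H.d0 j hj)
  have g2 : 0 ≤ gG d lm j i := gG_nonneg (H.d0 i hi)
  have b1 := mul_nonneg (sub_nonneg.2 (H.h1 i hi l hl)) g1
  have b2 := mul_nonneg (sub_nonneg.2 (H.h1 j hj l hl)) g2
  have hd := H.d0 l hl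
  by_contra hc
  obtain ⟨c1, c2, c3⟩ := H.dfc_small hi hl (by linarith)
  obtain ⟨e1, e2, e3⟩ := H.dfc_small hj hl (by linarith)
  rcases le_total (d i + lm i) (d j + lm j) with h1 | h1
  · have : 19 / 320 * d l ≤ gG d lm j i :=
      le_min (by linarith) (le_max_of_le_left (by linarith))
    nlinarith [mul_nonneg (show 0 ≤ 1 / 2 - h j l by linarith) g2]
  · have : 19 / 320 * d l ≤ gG d lm i j :=
      le_min (by linarith) (le_max_of_le_left (by linarith))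
    nlinarith [mul_nonneg (show 0 ≤ 1 / 2 - h i l by linarith) g1]

theorem Local.gain (H : Local s x y d lm u q om V h t) :
    (∑ i ∈ s, x i) ^ 2 * (∑ i ∈ s, x i * d i) / 80 ≤ ∑ i ∈ s, ∑ l ∈ s, x i * x l *
      (dfc d lm h i l + (1 - h i l) * ∑ j ∈ s, x j * gG d lm i j) := by
  have h0 := sym_sum s x H.x0 (dfc d lm h) 0 fun i hi j hj => by
    simpa using H.dfc_sym hi hj
  rw [zero_mul] at h0
  have h1 : ∑ l ∈ s, x l * (d l / 80 * (∑ i ∈ s, x i) ^ 2) ≤ ∑ l ∈ s, x l *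
      ∑ i ∈ s, ∑ j ∈ s, x i * x j *
        ((dfc d lm h i l + dfc d lm h l i) / 2 + (1 - h i l) * gG d lm i j) :=
    sum_le_sum fun l hl => mul_le_mul_of_nonneg_left
      (sym_sum s x H.x0 _ _ fun i hi j hj => H.point hi hj hl) (H.x0 l hl)
  have e1 : ∑ l ∈ s, x l * (d l / 80 * (∑ i ∈ s, x i) ^ 2) =
      (∑ i ∈ s, x i) ^ 2 * (∑ i ∈ s, x i * d i) / 80 := by
    rw [mul_sum, sum_div]
    exact sum_congr rfl fun i _ => by ring
  have e2 : ∀ l, x l * ∑ i ∈ s, ∑ j ∈ s, x i * x j *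
      ((dfc d lm h i l + dfc d lm h l i) / 2 + (1 - h i l) * gG d lm i j) =
      (∑ j ∈ s, x j) / 2 * ∑ i ∈ s, x i * x l * dfc d lm h i l +
      (∑ j ∈ s, x j) / 2 * ∑ i ∈ s, x l * x i * dfc d lm h l i +
      ∑ i ∈ s, x i * x l * ((1 - h i l) * ∑ j ∈ s, x j * gG d lm i j) := by
    intro l
    simp only [mul_sum, ← sum_add_distrib]
    refine sum_congr rfl fun i _ => ?_
    simp only [sum_div, sum_mul, ← sum_add_distrib]
    exact sum_congr rfl fun j _ => by ring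
  simp only [e2, sum_add_distrib, ← mul_sum] at h1
  rw [e1, sum_comm (f := fun l i => x i * x l * dfc d lm h i l),
    sum_comm (f := fun l i => x i * x l * ((1 - h i l) * ∑ j ∈ s, x j * gG d lm i j))] at h1
  simp only [mul_add, sum_add_distrib]
  nlinarith [mul_nonneg (sub_nonneg.2 H.m1) h0]

end Vale.Agent.P334
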