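import Mathlib

namespace Vale.Agent.P334

/-- An instance of metric `k`-median: a rational metric on the points `0, …, n - 1`, the clients
`J`, the candidate facilities `F`, and `k` with `1 ≤ k ≤ |F|`. -/
structure Inst where
  n : ℕ
  d : Fin n → Fin n → ℚ
  J : Finset (Fin n)
  F : Finset (Fin n)
  k : ℕ
  d_eq_zero : ∀ x y, d x y = 0 ↔ x = y
  d_symm : ∀ x y, d x y = d y x
  d_triangle : ∀ x y z, d x z ≤ d x y + d y z
  one_le : 1 ≤ k
  le_card : k ≤ F.card

/-- The total distance of the clients to their nearest facility in the nonempty set `S`. -/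
def Inst.cost (I : Inst) (S : Finset (Fin I.n)) (hS : S.Nonempty) : ℚ :=
  ∑ j ∈ I.J, S.inf' hS (fun i => I.d j i)

/-- The optimum: the least cost of a set `S ⊆ F` with `1 ≤ |S| ≤ k`. -/
noncomputable def Inst.opt (I : Inst) : ℝ :=
  sInf {c : ℝ | ∃ (S : Finset (Fin I.n)) (hS : S.Nonempty), S ⊆ I.F ∧ S.card ≤ I.k ∧
    c = I.cost S hS}

/-- The instance as a list of numbers: `n`, `k`, the indicator vectors of `J` and of `F`, and the
distances row by row, each as numerator and denominator (distances are nonnegative). -/
def Inst.nums (I : Inst) : List ℕ :=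
  [I.n, I.k] ++ (List.ofFn fun x => if x ∈ I.J then 1 else 0) ++
    (List.ofFn fun x => if x ∈ I.F then 1 else 0) ++
    (List.ofFn fun x => (List.ofFn fun y => [(I.d x y).num.natAbs, (I.d x y).den]).flatten).flatten

/-- The binary code of a list of natural numbers: every binary digit `b` is written `1 b`, and
every number is followed by `0`. -/
def code (l : List ℕ) : List Bool :=
  l.flatMap fun a => a.bits.flatMap (fun b => [true, b]) ++ [false]

/-- A polynomial-time `c`-approximation exists: a deterministic polynomial-time machine (finite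
control, finitely many stacks, finite alphabets) reads the binary code of the instance and
outputs a list whose set of entries is a set `S ⊆ F` with `1 ≤ |S| ≤ k` and
`cost S ≤ c * OPT`. -/
def HasApprox (c : ℝ) : Prop :=
  ∃ f : Inst → List ℕ,
    (∃ M : Turing.TM2ComputableInPolyTime (fun I : Inst => code I.nums) code f,
      ∀ s : M.tm.K, Finite (M.tm.Γ s)) ∧
    ∀ I : Inst, ∃ (S : Finset (Fin I.n)) (hS : S.Nonempty), (f I).toFinset = S.image Fin.val ∧
      S ⊆ I.F ∧ S.card ≤ I.k ∧ (I.cost S hS : ℝ) ≤ c * I.opt

end Vale.Agent.P334
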