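import Vale.Agent.P334.Sound
import Vale.Agent.P334.Stmts2

/-! From the checked conditions to the inequality for pairs. -/

namespace Vale.Agent.P334

theorem mul_le_ts {h Y P N γ l s : ℚ} (h0 : 0 ≤ h) (h1 : h ≤ 1) (hl : h * l ≤ s) (hγ : 0 ≤ γ)
    (hY : Y ≤ P - N) : h * Y ≤ γ * s + ts P (N + γ * l) := by
  have a1 := mul_le_mul_of_nonneg_left hY h0
  have a2 := mul_le_mul_of_nonneg_left hl hγ
  have a3 := mul_le_mul_of_nonneg_left (le_max_left (P - (N + γ * l)) 0) h0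
  have a4 := mul_le_mul_of_nonneg_right h1 (le_max_right (P - (N + γ * l)) 0)
  unfold ts; linarith

theorem key0 {kcm1 kpm kpp kbA kbA2 kbB kbB2 keA keA2 keA3 keB keB3 ka1 ka12 ka2p
    ka2n kb1 kb12 kb2p kb2n km kmc kmq keE kxm kx1 kx2 kx3 kx4 gA gB gp sg ra rp rn nu nn mu
    A a5 a12 a30 d t l5 l8 s13 e LP LN Ud Ne Ue f3A f3d f4A f4d Nt N3 LW L3 Gd Ge Ed e1 e2 A1 A2
    nd pd ne pe h w z f : ℚ}
    (pkpm : 0 ≤ kpm) (pkpp : 0 ≤ kpp) (pkeA : 0 ≤ keA) (pkeA2 : 0 ≤ keA2) (pkeA3 : 0 ≤ keA3)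
    (pkeB : 0 ≤ keB) (pkeB3 : 0 ≤ keB3) (pka1 : 0 ≤ ka1) (pka12 : 0 ≤ ka12) (pka2p : 0 ≤ ka2p)
    (pka2n : 0 ≤ ka2n) (pkb1 : 0 ≤ kb1) (pkb12 : 0 ≤ kb12) (pkb2p : 0 ≤ kb2p) (pkb2n : 0 ≤ kb2n)
    (pkx1 : 0 ≤ kx1) (pkx2 : 0 ≤ kx2) (pkx3 : 0 ≤ kx3) (pkx4 : 0 ≤ kx4) (pgA : 0 ≤ gA) (pgB : 0 ≤
    gB) (pgp : 0 ≤ gp) (pmu : 0 ≤ mu)
    (mu1 : mu ≤ 1) (hL : LP - LN ≤ nd) (hU : pd ≤ Ud) (h3 : f3d - f3A ≤ max (d - A) 0)
    (h4 : f4d - f4A ≤ max (d - a30) 0) (hN : N3 - Nt ≤ ne) (hNe : ne ≤ Ne) (hUe : pe ≤ Ue)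
    (hW : L3 - LW ≤ pe) (hG : km * Ge - kmq * Gd ≤ max (km * e - kmq * d) 0)
    (hE : f * (1 - w) * (keE * d) ≤ (1 - w) * (keE * Ed)) (h1 : A1 - e1 ≤ max (a5 - e) 0)
    (h2 : A2 - e2 ≤ max (a12 - e) 0) (h0 : 0 ≤ h) (h0' : h ≤ 1) (hl : h * l5 ≤ s13)
    (w0 : 0 ≤ w) (w1 : w ≤ 1) (z0 : 0 ≤ z)
    (hw : w * l5 ≤ ts (((13 : ℕ) : ℚ) * (d + e)) l8 + z)
    (H :
      kpp * Ud + kxm * d + kx1 * ts a5 d + kx2 * ts a12 d + kx3 * f3A + kx4 * f4A + kpm * LN + nu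
      * A + gA * s13 + ka12 * Ne + ka2p * Ue + ka2n * LW + ts (kbA * (A + d) + keA * Ud + ka1 *
      LN + keA3 * Ue + ka1 * Nt) (ka1 * LP + ka1 * N3 + gA * l5) + ts (ra * A + rp * t + kb12 *
      Ne + kb2p * Ue + kb2n * LW + ts (keB3 * Ue) (gp * l5)) (rn * t + kb2n * L3 + sg * e) + ts
      (km * t + ka12 * LN + keA2 * Ud + gB * s13 + gp * s13 + ts (kbB * (A + d) + keB * Ud + kb1
      * LN) (kb1 * LP + gB * l5) + sg * A + rn * t + kmq * Gd) (kmc * d + ka12 * LP + kbB2 * A +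
      ra * A + rp * t + km * Ge + keE * Ed + mu * l5) + mu * ts (((13 : ℕ) : ℚ) * (d + e)) l8 +
      keE * Ed + kx1 * e1 + kx2 * e2 + kx3 * ts e A + kx4 * ts e a30 + nn * e - (kxm * A + kx3 *
      f3d + kx4 * f4d + kpm * LP + kcm1 * d + kbA2 * A + nn * A + ka2n * L3 + kx1 * A1 + kx2 * A2
      + nu * e) ≤ 0) :
    -kcm1 * d - kpm * nd + kpp * pd - kbA2 * A + (ka12 * ne + (ka2p - ka2n) * pe +
      h * (kbA * (A + d) + keA * pd - ka1 * nd + keA3 * pe - ka1 * ne)) +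
      max (kb12 * ne + (kb2p - kb2n) * pe + h * (keB3 * pe) - sg * (e - A) -
        (sg * A - ra * A - rp * t + rn * t + gp * s13)) 0 +
      w * (km * t - kmc * d - ka12 * nd + keA2 * pd - kbB2 * A +
        h * (kbB * (A + d) + keB * pd - kb1 * nd) +
        (sg * A - ra * A - rp * t + rn * t + gp * s13) - max (km * e - kmq * d) 0) +
      f * (1 - w) * (keE * d) ≤
    (-kxm * d - kx1 * max (a5 - d) 0 - kx2 * max (a12 - d) 0 + kx3 * max (d - A) 0 +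
      kx4 * max (d - a30) 0) -
    (-kxm * e - kx1 * max (a5 - e) 0 - kx2 * max (a12 - e) 0 + kx3 * max (e - A) 0 +
      kx4 * max (e - a30) 0) + (nu - nn - kxm) * (e - A) + z := by
  have M := @mul_le_mul_of_nonneg_left ℚ _ _ _
  have t1 := mul_le_ts (Y := kbA * (A + d) + keA * pd - ka1 * nd + keA3 * pe - ka1 * ne)
    (P := kbA * (A + d) + keA * Ud + ka1 * LN + keA3 * Ue + ka1 * Nt) (N := ka1 * LP + ka1 * N3)
    h0 h0' hl pgA (by linarith [M hU pkeA, M hL pka1, M hUe pkeA3, M hN pka1])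
  have t2 := mul_le_ts (Y := kbB * (A + d) + keB * pd - kb1 * nd)
    (P := kbB * (A + d) + keB * Ud + kb1 * LN) (N := kb1 * LP)
    h0 h0' hl pgB (by linarith [M hU pkeB, M hL pkb1])
  have t3 := mul_le_ts (Y := keB3 * pe) (P := keB3 * Ue) (N := 0)
    h0 h0' hl pgp (by linarith [M hUe pkeB3])
  rw [zero_add] at t3
  generalize ts (kbB * (A + d) + keB * Ud + kb1 * LN) (kb1 * LP + gB * l5) = HB at *
  generalize ts (keB3 * Ue) (gp * l5) = HC at *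
  generalize ts (((13 : ℕ) : ℚ) * (d + e)) l8 = L at *
  have t4 : max (kb12 * ne + (kb2p - kb2n) * pe + h * (keB3 * pe) - sg * (e - A) -
      (sg * A - ra * A - rp * t + rn * t + gp * s13)) 0 ≤
      ts (ra * A + rp * t + kb12 * Ne + kb2p * Ue + kb2n * LW + HC)
        (rn * t + kb2n * L3 + sg * e) :=
    max_le_max (by linarith [M hNe pkb12, M hUe pkb2p, M hW pkb2n]) le_rfl
  have t5 := mul_le_ts (Y := km * t - kmc * d - ka12 * nd + keA2 * pd - kbB2 * A +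
      h * (kbB * (A + d) + keB * pd - kb1 * nd) +
      (sg * A - ra * A - rp * t + rn * t + gp * s13) - max (km * e - kmq * d) 0 - keE * Ed)
    (P := km * t + ka12 * LN + keA2 * Ud + gB * s13 + gp * s13 + HB + sg * A + rn * t + kmq * Gd)
    (N := kmc * d + ka12 * LP + kbB2 * A + ra * A + rp * t + km * Ge + keE * Ed)
    w0 w1 hw pmu (by linarith [M hL pka12, M hU pkeA2])
  have t6 := mul_le_mul_of_nonneg_right mu1 z0
  unfold ts at *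
  linarith [M hL pkpm, M hU pkpp, M hNe pka12, M hUe pka2p, M hW pka2n, M h1 pkx1, M h2 pkx2,
    M h3 pkx3, M h4 pkx4]

theorem cnd_mul (b : Bool) (k x : ℚ) : cnd b (k * x) ((0 : ℕ) : ℚ) = k * cnd b x ((0 : ℕ) : ℚ) := by
  cases b <;> simp [cnd]

theorem cnd_sub (b : Bool) (x y : ℚ) :
    cnd b x ((0 : ℕ) : ℚ) - cnd b y ((0 : ℕ) : ℚ) ≤ max (x - y) 0 := by
  cases b <;> simp [cnd]

theorem np_le_cnd (b : Bool) {t d x : ℚ} (h : x = 3 * d) : np t d ≤ cnd b x (ts t x) := by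
  subst h
  cases b
  · exact min_le_left _ _
  · exact min_le_right _ _

theorem np_nonneg' {t d : ℚ} (h : 0 ≤ d) : 0 ≤ np t d := le_min (le_max_right _ _) (by linarith)

theorem cnd_le_np (b : Bool) {t e : ℚ} (h : 0 ≤ e) :
    cnd b (((3 : ℕ) : ℚ) * e) ((0 : ℕ) : ℚ) - cnd b (ts (((6 : ℕ) : ℚ) * e) t) ((0 : ℕ) : ℚ) ≤
      np t e := by
  cases b
  · simpa [cnd] using np_nonneg' h
  · have h1 := le_max_left (6 * e - t) 0
    have h2 := le_max_right (6 * e - t) 0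
    have h3 := le_max_left (t - 3 * e) 0
    simp only [cnd, ts, Nat.cast_ofNat]
    exact le_min (by linarith) (by linarith)

/-- The linear relations between the parameters. -/
def RelN (c : Ctl ℕ) : Prop :=
  c.cm1 + c.S = c.c ∧ 22 * c.pm + c.m = c.S ∧ 10 * c.pp + c.m2 = c.m ∧ 2 * c.bA = c.bA2 ∧ c.bA2 +
  c.bB2 + c.c + c.mc = c.S + 3 * c.m ∧ 2 * c.bB = c.bB2 ∧ c.bB2 + c.mc + c.m2c = c.m + 3 * c.m2 ∧
  20 * c.eA + c.m3 = c.m2 ∧ c.eA2 = 2 * c.eA ∧ c.eA3 = 3 * c.eA ∧ 20 * c.eB = c.m3 ∧ c.eB3 = 3 *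
  c.eB ∧ 44 * c.a1 + c.m2 = c.m ∧ c.a12 = 2 * c.a1 ∧ 10 * c.a2p + 3 * c.m2 = 10 * c.a2n + c.m + 2
  * c.m3 ∧ 44 * c.b1 = c.m2 ∧ c.b12 = 2 * c.b1 ∧ 10 * c.b2p + 2 * c.m3 = 10 * c.b2n + c.m2 ∧ 23 *
  c.mq = 22 * c.mc + 3 * c.m ∧ c.om + c.m = c.S ∧ c.eE + c.mc = c.mq + 6 * c.eA ∧ 1000 * c.eN =
  6000 * c.eA + c.m2

instance (c : Ctl ℕ) : Decidable (RelN c) := by unfold RelN; infer_instance

/-- The linear relations between the parameters. -/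
def RelQ (K : ℕ → ℚ) : Prop :=
  K 7 + K 0 = K 4 ∧ 22 * K 8 + K 1 = K 0 ∧ 10 * K 9 + K 2 = K 1 ∧ 2 * K 10 = K 11 ∧ K 11 + K 13 +
  K 4 + K 5 = K 0 + 3 * K 1 ∧ 2 * K 12 = K 13 ∧ K 13 + K 5 + K 6 = K 1 + 3 * K 2 ∧ 20 * K 14 + K
  3 = K 2 ∧ K 15 = 2 * K 14 ∧ K 16 = 3 * K 14 ∧ 20 * K 17 = K 3 ∧ K 18 = 3 * K 17 ∧ 44 * K 19 + K
  2 = K 1 ∧ K 20 = 2 * K 19 ∧ 10 * K 21 + 3 * K 2 = 10 * K 22 + K 1 + 2 * K 3 ∧ 44 * K 23 = K 2 ∧
  K 24 = 2 * K 23 ∧ 10 * K 25 + 2 * K 3 = 10 * K 26 + K 2 ∧ 23 * K 27 = 22 * K 5 + 3 * K 1 ∧ K 28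
  + K 1 = K 0 ∧ K 29 + K 5 = K 27 + 6 * K 14 ∧ 1000 * K 30 = 6000 * K 14 + K 2

theorem RelN.cast {c : Ctl ℕ} (h : RelN c) : RelQ (vec c) := by
  unfold RelN at h
  qify at h
  exact h

/-- The moments of a control point. -/
def MomN (S x y z u v : ℕ) (c : Ctl ℕ) : Prop :=
  c.S = S ∧ 96 * c.m = S * (x + y + z) ∧ 3072 * c.m2 = S * (x * y + x * z + y * z) ∧
  32768 * c.m3 = S * (x * y * z) ∧ 10000 * c.c = u * c.S + v * c.m ∧
  10000 * c.mc = u * c.m + v * c.m2 ∧ 10000 * c.m2c = u * c.m2 + v * c.m3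

instance (S x y z u v : ℕ) (c : Ctl ℕ) : Decidable (MomN S x y z u v c) := by
  unfold MomN; infer_instance

/-- The moments of a vector. -/
def MomQ (S x y z u v : ℚ) (K : ℕ → ℚ) : Prop :=
  K 0 = S ∧ 96 * K 1 = S * (x + y + z) ∧ 3072 * K 2 = S * (x * y + x * z + y * z) ∧
  32768 * K 3 = S * (x * y * z) ∧ 10000 * K 4 = u * K 0 + v * K 1 ∧
  10000 * K 5 = u * K 1 + v * K 2 ∧ 10000 * K 6 = u * K 2 + v * K 3

theorem MomN.cast {S x y z u v : ℕ} {c : Ctl ℕ} (h : MomN S x y z u v c) :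
    MomQ S x y z u v (vec c) := by
  unfold MomN at h
  qify at h
  exact h

/-- The closed cone generated by the control points. -/
def Hull (C : List (Ctl ℕ)) (K : ℕ → ℚ) : Prop :=
  ∀ f, Cv f → (∀ c ∈ C, f (vec c) ≤ 0) → f K ≤ 0

theorem Hull.comb {C : List (Ctl ℕ)} {K K' : ℕ → ℚ} {a b : ℚ} (ha : 0 ≤ a) (hb : 0 ≤ b)
    (h : Hull C K) (h' : Hull C K') : Hull C fun i => a * K i + b * K' i := fun f hf hc =>
  (hf a b K K' ha hb).trans (add_nonpos (mul_nonpos_of_nonneg_of_nonpos ha (h f hf hc))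
    (mul_nonpos_of_nonneg_of_nonpos hb (h' f hf hc)))

theorem Hull.base {C : List (Ctl ℕ)} {c : Ctl ℕ} (h : c ∈ C) : Hull C (vec c) :=
  fun _ _ hc => hc c h

theorem Hull.nonneg {C : List (Ctl ℕ)} {K : ℕ → ℚ} (h : Hull C K) (i : ℕ) : 0 ≤ K i := by
  have := h (fun K => -1 * K i) ((Ln.co i).cm _).cv fun c _ => by linarith [vec_nonneg c i]
  linarith

theorem Hull.ok {C : List (Ctl ℕ)} {K p : ℕ → ℚ} (h : Hull C K) {L : Lf} {g : Sg}
    (hc : ∀ c ∈ C, OK L g (vec c) p) : OK L g K p :=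
  ⟨h _ (cv_phi_K L g p) fun c h' => (hc c h').1, h _ (ln_mu g).cv fun c h' => (hc c h').2.1,
    fun h1 => h _ (ln_nr_K p).cv fun c h' => (hc c h').2.2 h1⟩

theorem RelQ.comb {K K' : ℕ → ℚ} (a b : ℚ) (h : RelQ K) (h' : RelQ K') :
    RelQ fun i => a * K i + b * K' i := by
  obtain ⟨p0, p1, p2, p3, p4, p5, p6, p7, p8, p9, p10, p11, p12, p13, p14, p15, p16, p17, p18, p19, p20, p21⟩ := h
  obtain ⟨q0, q1, q2, q3, q4, q5, q6, q7, q8, q9, q10, q11, q12, q13, q14, q15, q16, q17, q18, q19, q20, q21⟩ := h'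
  refine ⟨?_, ?_, ?_, ?_, ?_, ?_, ?_, ?_, ?_, ?_, ?_, ?_, ?_, ?_, ?_, ?_, ?_, ?_, ?_, ?_, ?_, ?_⟩
  · linear_combination a * p0 + b * q0
  · linear_combination a * p1 + b * q1
  · linear_combination a * p2 + b * q2
  · linear_combination a * p3 + b * q3
  · linear_combination a * p4 + b * q4
  · linear_combination a * p5 + b * q5
  · linear_combination a * p6 + b * q6
  · linear_combination a * p7 + b * q7
  · linear_combination a * p8 + b * q8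
  · linear_combination a * p9 + b * q9
  · linear_combination a * p10 + b * q10
  · linear_combination a * p11 + b * q11
  · linear_combination a * p12 + b * q12
  · linear_combination a * p13 + b * q13
  · linear_combination a * p14 + b * q14
  · linear_combination a * p15 + b * q15
  · linear_combination a * p16 + b * q16
  · linear_combination a * p17 + b * q17
  · linear_combination a * p18 + b * q18
  · linear_combination a * p19 + b * q19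
  · linear_combination a * p20 + b * q20
  · linear_combination a * p21 + b * q21

theorem MomQ.comb {S x x' y z u v θ : ℚ} {K K' : ℕ → ℚ} (h : MomQ S x y z u v K)
    (h' : MomQ S x' y z u v K') :
    MomQ S y z ((1 - θ) * x + θ * x') u v fun i => (1 - θ) * K i + θ * K' i := by
  obtain ⟨p0, p1, p2, p3, p4, p5, p6⟩ := h
  obtain ⟨q0, q1, q2, q3, q4, q5, q6⟩ := h'
  refine ⟨?_, ?_, ?_, ?_, ?_, ?_, ?_⟩
  · linear_combination (1 - θ) * p0 + θ * q0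
  · linear_combination (1 - θ) * p1 + θ * q1
  · linear_combination (1 - θ) * p2 + θ * q2
  · linear_combination (1 - θ) * p3 + θ * q3
  · linear_combination (1 - θ) * p4 + θ * q4
  · linear_combination (1 - θ) * p5 + θ * q5
  · linear_combination (1 - θ) * p6 + θ * q6

theorem MomQ.rot {S x y z u v : ℚ} {K : ℕ → ℚ} (h : MomQ S x y z u v K) : MomQ S y z x u v K := by
  obtain ⟨p0, p1, p2, p3, p4, p5, p6⟩ := h
  exact ⟨p0, by linear_combination p1, by linear_combination p2, by linear_combination p3, p4, p5,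
    p6⟩

theorem curve {C : List (Ctl ℕ)} {S x y u v θ : ℚ} (h0 : 0 ≤ θ) (h1 : θ ≤ 1)
    {K0 K1 K2 K3 : ℕ → ℚ} (a0 : Hull C K0 ∧ RelQ K0 ∧ MomQ S x x x u v K0)
    (a1 : Hull C K1 ∧ RelQ K1 ∧ MomQ S y x x u v K1)
    (a2 : Hull C K2 ∧ RelQ K2 ∧ MomQ S y y x u v K2)
    (a3 : Hull C K3 ∧ RelQ K3 ∧ MomQ S y y y u v K3) :
    ∃ K, Hull C K ∧ RelQ K ∧
      MomQ S ((1 - θ) * x + θ * y) ((1 - θ) * x + θ * y) ((1 - θ) * x + θ * y) u v K := by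
  have cb : ∀ {K K' : ℕ → ℚ} {p q : ℚ}, Hull C K ∧ RelQ K ∧ MomQ S x p q u v K →
      Hull C K' ∧ RelQ K' ∧ MomQ S y p q u v K' → ∃ K, Hull C K ∧ RelQ K ∧
        MomQ S p q ((1 - θ) * x + θ * y) u v K := fun h h' =>
    ⟨_, h.1.comb (sub_nonneg.2 h1) h0 h'.1, h.2.1.comb _ _ h'.2.1, h.2.2.comb h'.2.2⟩
  obtain ⟨L0, b0⟩ := cb a0 a1
  obtain ⟨L1, b1⟩ := cb ⟨a1.1, a1.2.1, a1.2.2.rot.rot⟩ a2
  obtain ⟨L2, b2⟩ := cb ⟨a2.1, a2.2.1, a2.2.2.rot.rot⟩ a3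
  obtain ⟨M0, c0⟩ := cb b0 b1
  obtain ⟨M1, c1⟩ := cb (p := y) (q := (1 - θ) * x + θ * y) ⟨b1.1, b1.2.1, by
    obtain ⟨p0, p1, p2, p3, p4, p5, p6⟩ := b1.2.2
    exact ⟨p0, by linear_combination p1, by linear_combination p2, by linear_combination p3, p4,
      p5, p6⟩⟩ b2
  exact cb c0 c1

theorem cert_of_hull {C : List (Ctl ℕ)} {K : ℕ → ℚ} {m c : ℚ} (hK : Hull C K) (hr : RelQ K)
    (k0 : K 0 = 1) (k1 : K 1 = m) (k2 : K 2 = m ^ 2) (k3 : K 3 = m ^ 3) (k4 : K 4 = c)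
    (k5 : K 5 = m * c) (k6 : K 6 = m ^ 2 * c)
    (hg : ∀ a d l t : ℚ, 0 ≤ a → 0 ≤ d → 0 ≤ l → 0 ≤ t → t ≤ d + l → Gd C a d l t (d + l - t)) :
    CertAt m c := by
  intro A hA
  have P := hK.nonneg
  refine ⟨fun x => -K 31 * x - K 32 * max (A / 4 - x) 0 - K 33 * max (3 * A / 5 - x) 0 +
    K 34 * max (x - A) 0 + K 35 * max (x - 3 * A / 2) 0, fun d l t hd hl ht hs => ?_⟩
  obtain ⟨L, hL⟩ := hg (A / 60) (d / 60) (l / 60) (t / 60) (by linarith) (by linarith)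
    (by linarith) (by linarith) (by linarith)
  refine ⟨L.x3 * K 40, L.x3 * K 40 * A - L.x4 * K 40 * A - L.x5 * K 40 * t + L.x6 * K 40 * t +
    L.x2 * K 38 * (13 * (d + l - t)), L.x7 * K 39 + L.x8 * K 40 - K 42 - K 31, ?_⟩
  intro h e w z f h0 h1 hh e0 w0 w1 z0 hw f1 hf
  obtain ⟨g, hg⟩ := hL e e0
  obtain ⟨o1, o2, o3⟩ := hK.ok hg
  obtain ⟨p0, p1, p2, p3, p4, p5, p6, p7, p8, p9, p10, p11, p12, p13, p14, p15, p16, p17, p18, p19, p20, p21⟩ := hr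
  have e1 : ∀ x : ℚ, ((60 : ℕ) : ℚ) * (x / 60) = x := fun x => by push_cast; ring
  have e2 : ((15 : ℕ) : ℚ) * (A / 60) = A / 4 := by push_cast; ring
  have e3 : ((36 : ℕ) : ℚ) * (A / 60) = 3 * A / 5 := by push_cast; ring
  have e4 : ((90 : ℕ) : ℚ) * (A / 60) = 3 * A / 2 := by push_cast; ring
  have e5 : ((300 : ℕ) : ℚ) * (l / 60) = l * 5 := by push_cast; ring
  have e6 : ((480 : ℕ) : ℚ) * (l / 60) = l * 8 := by push_cast; ring
  have e7 : ((780 : ℕ) : ℚ) * (d / 60 + l / 60 - t / 60) = 13 * (d + l - t) := by push_cast; ring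
  have e8 : ((180 : ℕ) : ℚ) * (d / 60) = d + d + d := by push_cast; ring
  simp only [Phi, pos, neg, bsQ, bs, toC, geoQ, geo, ptQ, pt, pv, e1, e2, e3, e4, e5, e6, e7,
    e8] at o1
  simp only [cnd_mul _ (K _)] at o1
  have N := fun (n : ℕ) (i : ℕ) => mul_nonneg (Nat.cast_nonneg n : (0 : ℚ) ≤ n) (P i)
  have hE : f * (1 - w) * (K 29 * d) ≤ (1 - w) * (K 29 * cnd g.gE d ((0 : ℕ) : ℚ)) := by
    have b0 := mul_nonneg (sub_nonneg.2 w1) (mul_nonneg (P 29) hd)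
    cases hb : g.gE with
    | true => exact (mul_assoc _ _ _).trans_le (mul_le_of_le_one_left b0 f1)
    | false =>
      have b1 := o3 hb
      simp only [Nr, pv] at b1
      have b2 : f ≤ 0 := not_lt.1 fun h' => by
        have b3 := hf h'
        have b4 : K 30 = 3 * m ^ 2 * (1 - m) / 10 + m ^ 2 / 1000 := by
          linear_combination p21 / 1000 + 3 / 10 * p7 + (3 / 10 + 1 / 1000) * k2 - 3 / 10 * k3
        have b5 : K 28 = 1 - m := by linear_combination p19 + k0 - k1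
        rw [k0, b4, b5, k5] at b1
        linarith
      simpa [cnd, mul_assoc] using mul_nonpos_of_nonpos_of_nonneg b2 b0
  have hG : K 1 * cnd g.gG e ((0 : ℕ) : ℚ) - K 27 * cnd g.gG d ((0 : ℕ) : ℚ) ≤
      max (K 1 * e - K 27 * d) 0 := by
    rw [← cnd_mul, ← cnd_mul]; exact cnd_sub _ _ _
  have key := key0 (nd := nm t d) (pd := np t d) (ne := nm t e) (pe := np t e)
    (P 8) (P 9) (P 14) (P 15) (P 16) (P 17) (P 18) (P 19) (P 20) (P 21) (P 22) (P 23) (P 24) (P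
    25) (P 26) (P 32) (P 33) (P 34) (P 35)
    (N _ _) (N _ _) (N _ _) (add_nonneg (N _ _) (N _ _)) (by unfold Mu at o2; linarith)
    ((cnd_sub _ _ _).trans (le_of_eq (by unfold nm; congr 1; ring))) (np_le_cnd _ (by ring))
    (cnd_sub _ _ _) (cnd_sub _ _ _) (cnd_sub _ _ _) le_rfl (np_le_cnd _ rfl) (cnd_le_np _ e0) hG hE
    (cnd_sub _ _ _) (cnd_sub _ _ _) h0 h1 (by linarith) w0 w1 z0
    (by
      have : ts (((13 : ℕ) : ℚ) * (d + e)) (l * 8) = max (13 * (d + e) - 8 * l) 0 := by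
        unfold ts; congr 1; push_cast; ring
      linarith) o1
  refine le_trans (le_of_eq ?_) key
  have m0 : 0 ≤ m := k1 ▸ P 1
  have q7 : K 7 = c - 1 := by linear_combination p0 + k4 - k0
  have q8 : K 8 = (1 - m) / 22 := by linear_combination p1 / 22 + k0 / 22 - k1 / 22
  have q9 : K 9 = m * (1 - m) / 10 := by linear_combination p2 / 10 + k1 / 10 - k2 / 10
  have q13 : K 13 = m * bt m c := by
    unfold bt; linear_combination p6 + k1 + 3 * k2 - k5 - k6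
  have q11 : K 11 = (1 - m) * bt m c := by
    have := q13; unfold bt at *; linear_combination p4 - this + k0 + 3 * k1 - k4 - k5
  have q10 : K 10 = (1 - m) * bt m c / 2 := by linear_combination p3 / 2 + q11 / 2
  have q12 : K 12 = m * bt m c / 2 := by linear_combination p5 / 2 + q13 / 2
  have q14 : K 14 = m ^ 2 * (1 - m) / 20 := by linear_combination p7 / 20 + k2 / 20 - k3 / 20
  have q17 : K 17 = m ^ 3 / 20 := by linear_combination p10 / 20 + k3 / 20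
  have q19 : K 19 = m * (1 - m) / 44 := by linear_combination p12 / 44 + k1 / 44 - k2 / 44
  have q21 : K 21 - K 22 = m * (1 - m) * (1 - 2 * m) / 10 := by
    linear_combination p14 / 10 + k1 / 10 + k3 / 5 - 3 / 10 * k2
  have q23 : K 23 = m ^ 2 / 44 := by linear_combination p15 / 44 + k2 / 44
  have q25 : K 25 - K 26 = m ^ 2 * (1 - 2 * m) / 10 := by
    linear_combination p17 / 10 + k2 / 10 - k3 / 5
  have q27 : K 27 = m * ((22 * c + 3) / 23) := by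
    linear_combination p18 / 23 + 22 / 23 * k5 + 3 / 23 * k1
  have q29 : K 29 = m * ((22 * c + 3) / 23 - c + 3 * m * (1 - m) / 10) := by
    linear_combination p20 + q27 + 6 * q14 - k5
  have q : max (m * e - m * ((22 * c + 3) / 23) * d) 0 =
      m * max (e - (22 * c + 3) / 23 * d) 0 := by
    rw [mul_max_of_nonneg _ _ m0, mul_zero]; congr 1; ring
  rw [p8, p9, p11, p13, p16, q7, q8, q9, q10, q11, q12, q13, q14, q17, q19, q21, q23, q25, q27, q29,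
    k1, k5, q]
  unfold lhs cA cH cG
  congr 2
  · congr 1
    · ring
    · congr 1; ring
  · ring

theorem cert_of_ctl {S : ℕ} {I : ℕ × ℕ × ℕ × ℕ × ℕ × ℕ} {c0 c1 c2 c3 c4 c5 c6 c7 : Ctl ℕ}
    {C : List (Ctl ℕ)} (hC : C = [c0, c1, c2, c3, c4, c5, c6, c7])
    (h : 0 < S ∧ I.1 < I.2.1 ∧ (RelN c0 ∧ RelN c1 ∧ RelN c2 ∧ RelN c3 ∧ RelN c4 ∧ RelN c5 ∧
      RelN c6 ∧ RelN c7) ∧ (MomN S I.1 I.1 I.1 I.2.2.1 I.2.2.2.1 c0 ∧
      MomN S I.2.1 I.1 I.1 I.2.2.1 I.2.2.2.1 c1 ∧ MomN S I.2.1 I.2.1 I.1 I.2.2.1 I.2.2.2.1 c2 ∧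
      MomN S I.2.1 I.2.1 I.2.1 I.2.2.1 I.2.2.2.1 c3) ∧
      MomN S I.1 I.1 I.1 I.2.2.2.2.1 I.2.2.2.2.2 c4 ∧
      MomN S I.2.1 I.1 I.1 I.2.2.2.2.1 I.2.2.2.2.2 c5 ∧
      MomN S I.2.1 I.2.1 I.1 I.2.2.2.2.1 I.2.2.2.2.2 c6 ∧
      MomN S I.2.1 I.2.1 I.2.1 I.2.2.2.2.1 I.2.2.2.2.2 c7)
    (r : ConeOK C ⟨1, 0, 0, 0, 0⟩ ⟨0, 1, 0, 0, 1⟩ ⟨0, 0, 1, 0, 1⟩ ⟨0, 1, 0, 1, 0⟩)
    (r' : ConeOK C ⟨1, 0, 0, 0, 0⟩ ⟨0, 0, 1, 0, 1⟩ ⟨0, 1, 0, 1, 0⟩ ⟨0, 0, 1, 1, 0⟩)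
    {m c : ℚ} (hI : EnvI I m c) : CertAt m c := by
  obtain ⟨x, y, u, v, u', v'⟩ := I
  obtain ⟨hS, hxy, ⟨r0, r1, r2, r3, r4, r5, r6, r7⟩, ⟨m0, m1, m2, m3⟩, m4, m5, m6, m7⟩ := h
  obtain ⟨i1, i2, i3, i4⟩ := hI
  simp only at *
  have hS' : (0 : ℚ) < S := by exact_mod_cast hS
  have hxy' : (0 : ℚ) < y - x := sub_pos.2 (by exact_mod_cast hxy)
  have b : ∀ c ∈ [c0, c1, c2, c3, c4, c5, c6, c7], Hull C (vec c) := fun c hc =>
    Hull.base (hC ▸ hc)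
  have t0 : 0 ≤ (32 * m - x) / (y - x) := div_nonneg (by linarith) hxy'.le
  have t1 : (32 * m - x) / (y - x) ≤ 1 := (div_le_one hxy').2 (by linarith)
  have e : (1 - (32 * m - x) / (y - x)) * x + (32 * m - x) / (y - x) * y = 32 * m := by
    field_simp; ring
  obtain ⟨K, a1, a2, a3⟩ := curve t0 t1 ⟨b c0 (by simp), r0.cast, m0.cast⟩
    ⟨b c1 (by simp), r1.cast, m1.cast⟩ ⟨b c2 (by simp), r2.cast, m2.cast⟩
    ⟨b c3 (by simp), r3.cast, m3.cast⟩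
  obtain ⟨K', a4, a5, a6⟩ := curve t0 t1 ⟨b c4 (by simp), r4.cast, m4.cast⟩
    ⟨b c5 (by simp), r5.cast, m5.cast⟩ ⟨b c6 (by simp), r6.cast, m6.cast⟩
    ⟨b c7 (by simp), r7.cast, m7.cast⟩
  rw [e] at a3 a6
  obtain ⟨p0, p1, p2, p3, p4, p5, p6⟩ := a3
  obtain ⟨q0, q1, q2, q3, q4, q5, q6⟩ := a6
  obtain ⟨φ, f0, f1, f2⟩ : ∃ φ : ℚ, 0 ≤ φ ∧ φ ≤ 1 ∧
      (1 - φ) * (u + v * m) + φ * (u' + v' * m) = 10000 * c := by
    rcases (i3.trans i4).eq_or_lt with h | h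
    · exact ⟨0, le_rfl, zero_le_one, by linarith⟩
    · have h' := sub_pos.2 h
      have h2 := div_mul_cancel₀ (10000 * c - (u + v * m)) h'.ne'
      exact ⟨(10000 * c - (u + v * m)) / (u' + v' * m - (u + v * m)),
        div_nonneg (by linarith) h'.le, (div_le_one h').2 (by linarith), by linear_combination h2⟩
  obtain ⟨s, hs⟩ : ∃ s : ℚ, s * S = 1 := ⟨(S : ℚ)⁻¹, inv_mul_cancel₀ hS'.ne'⟩
  have s0 : 0 ≤ s := by
    by_contra h
    nlinarith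
  have k1 : K 1 = S * m := by linear_combination p1 / 96
  have k2 : K 2 = S * m ^ 2 := by linear_combination p2 / 3072
  have k3 : K 3 = S * m ^ 3 := by linear_combination p3 / 32768
  have l1 : K' 1 = S * m := by linear_combination q1 / 96
  have l2 : K' 2 = S * m ^ 2 := by linear_combination q2 / 3072
  have l3 : K' 3 = S * m ^ 3 := by linear_combination q3 / 32768
  simp only [p0, q0, k1, k2, k3, l1, l2, l3] at p4 p5 p6 q4 q5 q6
  refine cert_of_hull (a1.comb (mul_nonneg s0 (sub_nonneg.2 f1)) (mul_nonneg s0 f0) a4)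
    (a2.comb _ _ a5) ?_ ?_ ?_ ?_ ?_ ?_ ?_ fun a d l t => gd_of_roots r r'
  · rw [p0, q0]; linear_combination hs
  · rw [k1, l1]; linear_combination m * hs
  · rw [k2, l2]; linear_combination m ^ 2 * hs
  · rw [k3, l3]; linear_combination m ^ 3 * hs
  · linear_combination s * (1 - φ) / 10000 * p4 + s * φ / 10000 * q4 + s * S / 10000 * f2 + c * hs
  · linear_combination s * (1 - φ) / 10000 * p5 + s * φ / 10000 * q5 + m * s * S / 10000 * f2 +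
      m * c * hs
  · linear_combination s * (1 - φ) / 10000 * p6 + s * φ / 10000 * q6 +
      m ^ 2 * s * S / 10000 * f2 + m ^ 2 * c * hs

end Vale.Agent.P334
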