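import Vale.Agent.P334.Stmts

/-! The regret bound of the multiplicative weights method. -/

namespace Vale.Agent.P334

open Finset

/-- The radii of one round. -/
def rad (D : Mx) (J : List ℕ) (y : List ℚ) : List (ℕ × ℚ) := J.map fun j => (j, lam (cl D y j))

/-- The history after `t` rounds. -/
def hist (D : Mx) (J F : List ℕ) (k : ℕ) (c : ℚ) (t : ℕ) : List (List (ℕ × ℚ)) :=
  (mwStep D J F k c)^[t] []

/-- The total weight. -/
def tw (D : Mx) (F : List ℕ) (c : ℚ) (H : List (List (ℕ × ℚ))) : ℚ :=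
  ∑ l ∈ range D.length, wt D F c H l

/-- The mean gain. -/
def mg (D : Mx) (F : List ℕ) (c : ℚ) (H : List (List (ℕ × ℚ))) (R : List (ℕ × ℚ)) : ℚ :=
  (∑ i ∈ range D.length, wt D F c H i * gain D R i) / tw D F c H

theorem foldl_const_iter {α β : Type} (f : α → α) (U : List β) (a : α) :
    U.foldl (fun H _ => f H) a = f^[U.length] a := by
  induction U generalizing a with
  | nil => rfl
  | cons u U ih => rw [List.foldl_cons, ih, List.length_cons, Function.iterate_succ_apply]

theorem hist_succ (D : Mx) (J F : List ℕ) (k : ℕ) (c : ℚ) (t : ℕ) :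
    hist D J F k c (t + 1) = rad D J (yv D F k c (hist D J F k c t)) :: hist D J F k c t := by
  unfold hist
  rw [Function.iterate_succ_apply']
  rfl

theorem length_hist (D : Mx) (J F : List ℕ) (k : ℕ) (c : ℚ) (t : ℕ) :
    (hist D J F k c t).length = t := by
  induction t with
  | zero => rfl
  | succ t ih => rw [hist_succ, List.length_cons, ih]

theorem drop_hist (D : Mx) (J F : List ℕ) (k : ℕ) (c : ℚ) (s t : ℕ) :
    (hist D J F k c (t + s)).drop s = hist D J F k c t := by
  induction s with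
  | zero => rfl
  | succ s ih => rw [← add_assoc, hist_succ, List.drop_succ_cons, ih]

theorem mwHist_eq (D : Mx) (J F : List ℕ) (k : ℕ) (r : ℚ) :
    mwHist D J F k r = hist D J F k (mwC D r) (un D (10 ^ 10) 7).length :=
  foldl_const_iter _ _ _

theorem gain_nonneg (D : Mx) (R : List (ℕ × ℚ)) (i : ℕ) : 0 ≤ gain D R i :=
  List.sum_nonneg fun x hx => by
    obtain ⟨p, -, rfl⟩ := List.mem_map.1 hx
    exact le_max_right _ _

theorem wt_pos (D : Mx) {F : List ℕ} {c : ℚ} (hc : 0 ≤ c) (H : List (List (ℕ × ℚ))) {i : ℕ}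
    (hi : i ∈ F) : 0 < wt D F c H i := by
  unfold wt
  rw [if_pos hi]
  refine List.prod_pos fun x hx => ?_
  obtain ⟨R, -, rfl⟩ := List.mem_map.1 hx
  have := mul_nonneg hc (gain_nonneg D R i)
  linarith

theorem wt_off (D : Mx) {F : List ℕ} (c : ℚ) (H : List (List (ℕ × ℚ))) {i : ℕ}
    (hi : i ∉ F) : wt D F c H i = 0 := by
  unfold wt
  rw [if_neg hi]

theorem wt_nonneg (D : Mx) (F : List ℕ) {c : ℚ} (hc : 0 ≤ c) (H : List (List (ℕ × ℚ))) (i : ℕ) :
    0 ≤ wt D F c H i := by
  by_cases hi : i ∈ F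
  · exact (wt_pos D hc H hi).le
  · rw [wt_off D c H hi]

theorem wt_cons (D : Mx) (F : List ℕ) (c : ℚ) (R : List (ℕ × ℚ)) (H : List (List (ℕ × ℚ)))
    (i : ℕ) : wt D F c (R :: H) i = (1 + c * gain D R i) * wt D F c H i := by
  unfold wt
  split_ifs <;> simp

theorem wt_le_tw {D : Mx} (F : List ℕ) {c : ℚ} (hc : 0 ≤ c) (H : List (List (ℕ × ℚ))) {i : ℕ}
    (hi : i < D.length) : wt D F c H i ≤ tw D F c H :=
  single_le_sum (f := wt D F c H) (fun l _ => wt_nonneg D F hc H l) (mem_range.2 hi)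

theorem tw_pos {D : Mx} {J F : List ℕ} (h : Ok D J F) {c : ℚ} (hc : 0 ≤ c)
    (H : List (List (ℕ × ℚ))) : 0 < tw D F c H := by
  obtain ⟨i, hi⟩ := List.exists_mem_of_ne_nil F h.neF
  exact (wt_pos D hc H hi).trans_le (wt_le_tw F hc H (h.hF i hi))

theorem tw_nil (D : Mx) (F : List ℕ) (c : ℚ) : tw D F c [] ≤ D.length := by
  unfold tw
  calc ∑ l ∈ range D.length, wt D F c [] l ≤ ∑ _l ∈ range D.length, (1 : ℚ) :=
        sum_le_sum fun l _ => by
          unfold wt
          split_ifs <;> simp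
    _ = D.length := by simp

theorem tw_cons {D : Mx} {J F : List ℕ} (h : Ok D J F) {c : ℚ} (hc : 0 ≤ c) (R : List (ℕ × ℚ))
    (H : List (List (ℕ × ℚ))) : tw D F c (R :: H) = tw D F c H * (1 + c * mg D F c H R) := by
  have hW := (tw_pos h hc H).ne'
  have e : tw D F c (R :: H) =
      tw D F c H + c * ∑ i ∈ range D.length, wt D F c H i * gain D R i := by
    unfold tw
    rw [mul_sum, ← sum_add_distrib]
    exact sum_congr rfl fun i _ => by rw [wt_cons]; ring
  rw [e, mg]
  field_simp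

theorem mg_nonneg {D : Mx} {J F : List ℕ} (h : Ok D J F) {c : ℚ} (hc : 0 ≤ c)
    (H : List (List (ℕ × ℚ))) (R : List (ℕ × ℚ)) : 0 ≤ mg D F c H R :=
  div_nonneg (sum_nonneg fun i _ => mul_nonneg (wt_nonneg D F hc H i) (gain_nonneg D R i))
    (tw_pos h hc H).le

theorem yv_getD (D : Mx) (F : List ℕ) (k : ℕ) (c : ℚ) (H : List (List (ℕ × ℚ))) (i : ℕ) :
    (yv D F k c H).getD i 0 = if i < D.length then k * wt D F c H i / tw D F c H else 0 :=
  getD_map_range _ _ _ _

theorem yv_nonneg {D : Mx} {J F : List ℕ} (h : Ok D J F) (k : ℕ) {c : ℚ} (hc : 0 ≤ c)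
    (H : List (List (ℕ × ℚ))) (i : ℕ) : 0 ≤ (yv D F k c H).getD i 0 := by
  rw [yv_getD]
  split_ifs
  · exact div_nonneg (mul_nonneg (Nat.cast_nonneg k) (wt_nonneg D F hc H i)) (tw_pos h hc H).le
  · exact le_rfl

theorem yv_off (D : Mx) {F : List ℕ} (k : ℕ) (c : ℚ) (H : List (List (ℕ × ℚ))) {i : ℕ}
    (hi : i ∉ F) : (yv D F k c H).getD i 0 = 0 := by
  rw [yv_getD, wt_off D c H hi]
  simp

theorem yv_sum {D : Mx} {J F : List ℕ} (h : Ok D J F) (k : ℕ) {c : ℚ} (hc : 0 ≤ c)
    (H : List (List (ℕ × ℚ))) : ∑ i ∈ range D.length, (yv D F k c H).getD i 0 = k := by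
  have hW := (tw_pos h hc H).ne'
  rw [sum_congr rfl fun i hi => by rw [yv_getD, if_pos (mem_range.1 hi)], ← sum_div, ← mul_sum]
  change k * tw D F c H / tw D F c H = k
  field_simp

theorem yv_gain {D : Mx} (F : List ℕ) (k : ℕ) (c : ℚ) (H : List (List (ℕ × ℚ)))
    (R : List (ℕ × ℚ)) :
    ∑ i ∈ range D.length, (yv D F k c H).getD i 0 * gain D R i = k * mg D F c H R := by
  rw [mg, sum_div, mul_sum]
  exact sum_congr rfl fun i hi => by rw [yv_getD, if_pos (mem_range.1 hi)]; ring

theorem gain_rad (D : Mx) (J : List ℕ) (y : List ℚ) (i : ℕ) :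
    gain D (rad D J y) i = (J.map fun j => max (lam (cl D y j) - dd D j i) 0).sum := by
  unfold gain rad
  rw [List.map_map]
  rfl

theorem gain_le {D : Mx} {J F : List ℕ} (h : Ok D J F) {r : ℚ} (hb : Bdd D r) {y : List ℚ}
    (hy : 1 ≤ ∑ i ∈ range D.length, y.getD i 0) {i : ℕ} (hi : i < D.length) :
    gain D (rad D J y) i ≤ 3 * (D.length : ℚ) ^ 2 * r := by
  have hr := hb.1
  have hB : (0 : ℚ) ≤ 3 * D.length * r := by positivity
  rw [gain_rad]
  have h1 : (J.map fun j => max (lam (cl D y j) - dd D j i) 0).sum ≤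
      (J.map fun _ => (3 * D.length * r : ℚ)).sum := by
    refine List.sum_le_sum fun j hj => max_le ?_ hB
    obtain ⟨p, hp, e⟩ := lam_mem (L := cl D y j) (by rwa [cl_mass])
    obtain ⟨l, hl, rfl⟩ := List.mem_map.1 hp
    have h2 := hb.2 j (h.hJ j hj) l (List.mem_range.1 hl)
    have h3 := h.nonneg (h.hJ j hj) hi
    rw [← e]
    simp only
    linarith
  have h2 : (J.map fun _ => (3 * D.length * r : ℚ)).sum = J.length * (3 * D.length * r) := by
    simp
  have h3 : (J.length : ℚ) ≤ D.length := by exact_mod_cast h.lenJ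
  calc _ ≤ _ := h1
    _ = _ := h2
    _ ≤ D.length * (3 * D.length * r) := mul_le_mul_of_nonneg_right h3 hB
    _ = _ := by ring

theorem client_lp (D : Mx) {y : List ℚ} (hy : 1 ≤ ∑ i ∈ range D.length, y.getD i 0) (j : ℕ) :
    ∑ i ∈ range D.length, xi D y j i * y.getD i 0 * dd D j i = lam (cl D y j) -
      ∑ i ∈ range D.length, y.getD i 0 * max (lam (cl D y j) - dd D j i) 0 := by
  have h1 := sum_xi hy j
  have h2 : lam (cl D y j) = ∑ i ∈ range D.length, xi D y j i * y.getD i 0 * lam (cl D y j) := by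
    rw [← sum_mul, h1, one_mul]
  rw [eq_sub_iff_add_eq, ← sum_add_distrib]
  conv_rhs => rw [h2]
  refine sum_congr rfl fun i _ => ?_
  unfold xi
  rcases lt_trichotomy (dd D j i) (lam (cl D y j)) with h | h | h
  · rw [bet_of_lt h, max_eq_left (by linarith)]; ring
  · rw [h, sub_self, max_self]; ring
  · rw [bet_of_gt h, max_eq_right (by linarith)]; ring

theorem sum_list_comm (J : List ℕ) (s : Finset ℕ) (f : ℕ → ℕ → ℚ) :
    (J.map fun j => ∑ i ∈ s, f j i).sum = ∑ i ∈ s, (J.map fun j => f j i).sum := by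
  induction J with
  | nil => simp
  | cons j J ih => simp [ih, sum_add_distrib]

theorem list_list_comm (J S : List ℕ) (f : ℕ → ℕ → ℚ) :
    (J.map fun j => (S.map fun i => f j i).sum).sum =
      (S.map fun i => (J.map fun j => f j i).sum).sum := by
  induction J with
  | nil => simp
  | cons j J ih => simp [ih, List.sum_map_add]

theorem list_sum_sub (J : List ℕ) (f g : ℕ → ℚ) :
    (J.map fun j => f j - g j).sum = (J.map f).sum - (J.map g).sum := by
  induction J with
  | nil => simp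
  | cons j J ih => simp only [List.map_cons, List.sum_cons, ih]; ring

theorem lpv_eq (D : Mx) (J : List ℕ) {y : List ℚ} (hy : 1 ≤ ∑ i ∈ range D.length, y.getD i 0) :
    lpv D J y = (J.map fun j => lam (cl D y j)).sum -
      ∑ i ∈ range D.length, y.getD i 0 * gain D (rad D J y) i := by
  unfold lpv
  rw [List.map_congr_left fun j _ => client_lp D hy j, list_sum_sub, sum_list_comm]
  congr 1
  exact sum_congr rfl fun i _ => by rw [gain_rad, List.sum_map_mul_left]

theorem cost_ge (D : Mx) (J : List ℕ) (y : List ℚ) {S : List ℕ} (hS : S ≠ []) :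
    (J.map fun j => lam (cl D y j)).sum - (S.map (gain D (rad D J y))).sum ≤ cost D J S := by
  have e : (S.map (gain D (rad D J y))).sum =
      (J.map fun j => (S.map fun i => max (lam (cl D y j) - dd D j i) 0).sum).sum := by
    rw [list_list_comm]
    exact congrArg List.sum (List.map_congr_left fun i _ => gain_rad D J y i)
  rw [e, ← list_sum_sub]
  refine List.sum_le_sum fun j _ => ?_
  obtain ⟨o, ho, e⟩ := dS_mem D hS j
  have h1 : max (lam (cl D y j) - dd D j o) 0 ≤
      (S.map fun i => max (lam (cl D y j) - dd D j i) 0).sum :=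
    List.single_le_sum (fun x hx => by
      obtain ⟨i, -, rfl⟩ := List.mem_map.1 hx
      exact le_max_right _ _) _ (List.mem_map_of_mem ho)
  have h2 := le_max_left (lam (cl D y j) - dd D j o) 0
  rw [e]
  linarith

theorem round_le {D : Mx} {J F : List ℕ} (h : Ok D J F) {k : ℕ} (hk : 1 ≤ k) {c : ℚ} (hc : 0 ≤ c)
    (H : List (List (ℕ × ℚ))) {S : List ℕ} (hS : S ≠ []) (hSk : S.length ≤ k) :
    lpv D J (yv D F k c H) - cost D J S ≤ (S.map fun o => gain D (rad D J (yv D F k c H)) o -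
      mg D F c H (rad D J (yv D F k c H))).sum := by
  have hy : 1 ≤ ∑ i ∈ range D.length, (yv D F k c H).getD i 0 := by
    rw [yv_sum h k hc]; exact_mod_cast hk
  have h1 := lpv_eq D J hy
  have h2 := cost_ge D J (yv D F k c H) hS
  have h3 := mg_nonneg h hc H (rad D J (yv D F k c H))
  have h4 : (S.length : ℚ) ≤ k := by exact_mod_cast hSk
  rw [yv_gain] at h1
  rw [list_sum_sub]
  have h5 : (S.map fun _ => mg D F c H (rad D J (yv D F k c H))).sum =
      S.length * mg D F c H (rad D J (yv D F k c H)) := by simp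
  rw [h5]
  have h6 := mul_le_mul_of_nonneg_right h4 h3
  linarith

theorem log_one_add_ge {x : ℝ} (hx : 0 ≤ x) : x - x ^ 2 ≤ Real.log (1 + x) := by
  have h1 := Real.one_sub_inv_le_log_of_pos (x := 1 + x) (by linarith)
  have h2 : x - x ^ 2 ≤ 1 - (1 + x)⁻¹ := by
    have h3 : (1 + x)⁻¹ ≤ 1 - x + x ^ 2 := by
      rw [inv_eq_one_div, div_le_iff₀ (by linarith)]
      nlinarith [pow_nonneg hx 3]
    linarith
  linarith

theorem log_tw_le {D : Mx} {J F : List ℕ} (h : Ok D J F) (k : ℕ) {c : ℚ} (hc : 0 ≤ c) (T : ℕ) :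
    Real.log (tw D F c (hist D J F k c T) : ℝ) ≤ D.length + ∑ t ∈ range T,
      ((c * mg D F c (hist D J F k c t) (rad D J (yv D F k c (hist D J F k c t))) : ℚ) : ℝ) := by
  induction T with
  | zero =>
    have h1 : (0 : ℝ) < (tw D F c [] : ℝ) := by exact_mod_cast tw_pos h hc []
    have h2 : (tw D F c [] : ℝ) ≤ D.length := by exact_mod_cast tw_nil D F c
    have h3 := Real.log_le_sub_one_of_pos h1
    change Real.log (tw D F c [] : ℝ) ≤ _
    rw [sum_range_zero]
    linarith
  | succ T ih =>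
    have h1 : (0 : ℝ) < (tw D F c (hist D J F k c T) : ℝ) := by exact_mod_cast tw_pos h hc _
    rw [hist_succ, tw_cons h hc, sum_range_succ]
    generalize hx : c * mg D F c (hist D J F k c T) (rad D J (yv D F k c (hist D J F k c T))) = x
    have h0 : 0 ≤ x := hx ▸ mul_nonneg hc (mg_nonneg h hc _ _)
    have h2 : (0 : ℝ) < 1 + (x : ℝ) := by
      have : (0 : ℝ) ≤ x := by exact_mod_cast h0
      linarith
    have h3 := Real.log_le_sub_one_of_pos h2
    rw [Rat.cast_mul, Rat.cast_add, Rat.cast_one, Real.log_mul h1.ne' h2.ne']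
    linarith

theorem log_wt_ge (D : Mx) (J : List ℕ) {F : List ℕ} (k : ℕ) {c : ℚ} (hc : 0 ≤ c) {o : ℕ}
    (ho : o ∈ F) (T : ℕ) :
    ∑ t ∈ range T, ((c * gain D (rad D J (yv D F k c (hist D J F k c t))) o -
      (c * gain D (rad D J (yv D F k c (hist D J F k c t))) o) ^ 2 : ℚ) : ℝ) ≤
      Real.log (wt D F c (hist D J F k c T) o : ℝ) := by
  induction T with
  | zero =>
    have : wt D F c (hist D J F k c 0) o = 1 := by
      change wt D F c [] o = 1
      unfold wt
      rw [if_pos ho]; rfl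
    rw [this]; simp
  | succ T ih =>
    have h1 : (0 : ℝ) < (wt D F c (hist D J F k c T) o : ℝ) := by
      exact_mod_cast wt_pos D hc _ ho
    rw [hist_succ, wt_cons, sum_range_succ]
    generalize hx : c * gain D (rad D J (yv D F k c (hist D J F k c T))) o = x
    have h0 : (0 : ℝ) ≤ x := by
      have : 0 ≤ x := hx ▸ mul_nonneg hc (gain_nonneg _ _ _)
      exact_mod_cast this
    have h3 := log_one_add_ge h0
    rw [Rat.cast_mul, Rat.cast_add, Rat.cast_one, Real.log_mul (by linarith) h1.ne', Rat.cast_sub,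
      Rat.cast_pow]
    linarith

theorem regret {D : Mx} {J F : List ℕ} (h : Ok D J F) {r : ℚ} (hb : Bdd D r) {k : ℕ} (hk : 1 ≤ k)
    {c : ℚ} (hc : 0 ≤ c) {o : ℕ} (ho : o ∈ F) (T : ℕ) :
    c * ∑ t ∈ range T, (gain D (rad D J (yv D F k c (hist D J F k c t))) o -
      mg D F c (hist D J F k c t) (rad D J (yv D F k c (hist D J F k c t)))) ≤
      D.length + T * (c * (3 * (D.length : ℚ) ^ 2 * r)) ^ 2 := by
  have h1 := log_tw_le h k hc T
  have h2 := log_wt_ge D J k hc ho T
  have h3 : Real.log (wt D F c (hist D J F k c T) o : ℝ) ≤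
      Real.log (tw D F c (hist D J F k c T) : ℝ) :=
    Real.log_le_log (by exact_mod_cast wt_pos D hc _ ho)
      (by exact_mod_cast wt_le_tw F hc _ (h.hF o ho))
  have h4 := (h2.trans h3).trans h1
  rw [← Rat.cast_sum, ← Rat.cast_sum, ← Rat.cast_natCast, ← Rat.cast_add, Rat.cast_le] at h4
  have h5 : ∑ t ∈ range T, (c * gain D (rad D J (yv D F k c (hist D J F k c t))) o) ^ 2 ≤
      ∑ _t ∈ range T, (c * (3 * (D.length : ℚ) ^ 2 * r)) ^ 2 := by
    refine sum_le_sum fun t _ => pow_le_pow_left₀ (mul_nonneg hc (gain_nonneg _ _ _))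
      (mul_le_mul_of_nonneg_left (gain_le h hb ?_ (h.hF o ho)) hc) 2
    rw [yv_sum h k hc]; exact_mod_cast hk
  rw [sum_const, card_range, nsmul_eq_mul] at h5
  rw [sum_sub_distrib, ← mul_sum, ← mul_sum] at h4
  rw [sum_sub_distrib, mul_sub]
  linarith

theorem exists_round {D : Mx} {J F : List ℕ} (h : Ok D J F) {r : ℚ} (hb : Bdd D r) {k : ℕ}
    (hk : 1 ≤ k) (hkn : k ≤ D.length) {S : List ℕ} (hS : Sol F S) (hSk : S.length ≤ k) {T : ℕ}
    (hT : (T : ℚ) = 10 ^ 10 * (D.length : ℚ) ^ 7) :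
    ∃ t < T, lpv D J (yv D F k (mwC D r) (hist D J F k (mwC D r) t)) ≤ cost D J S + r / 10000 := by
  have hr := hb.1
  have hn : (0 : ℚ) < D.length := by exact_mod_cast h.pos_len
  have hc : 0 < mwC D r := by unfold mwC; positivity
  have hTp : (0 : ℚ) < T := by rw [hT]; positivity
  by_contra hne
  push Not at hne
  have hT0 : (range T).Nonempty := nonempty_range_iff.2 (by
    rintro rfl
    simp at hTp)
  have h1 : ∑ _t ∈ range T, r / 10000 < ∑ t ∈ range T,
      (S.map fun o => gain D (rad D J (yv D F k (mwC D r) (hist D J F k (mwC D r) t))) o -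
        mg D F (mwC D r) (hist D J F k (mwC D r) t)
          (rad D J (yv D F k (mwC D r) (hist D J F k (mwC D r) t)))).sum :=
    sum_lt_sum_of_nonempty hT0 fun t ht => by
      have h2 := round_le h hk hc.le (hist D J F k (mwC D r) t) hS.1 hSk
      have h3 := hne t (mem_range.1 ht)
      linarith
  rw [← sum_list_comm, sum_const, card_range, nsmul_eq_mul] at h1
  have h2 := mul_lt_mul_of_pos_left h1 hc
  rw [← List.sum_map_mul_left] at h2
  have h3 := List.sum_le_sum (l := S) fun o ho => regret h hb hk hc.le (hS.2 o ho) T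
  have h4 := h2.trans_le h3
  generalize hB : (D.length : ℚ) + T * (mwC D r * (3 * (D.length : ℚ) ^ 2 * r)) ^ 2 = B at h4
  have hB0 : 0 ≤ B := by rw [← hB]; positivity
  have h5 : (S.map fun _ => B).sum = S.length * B := by simp
  have h6 : (S.length : ℚ) ≤ D.length := by exact_mod_cast hSk.trans hkn
  have h7 := mul_le_mul_of_nonneg_right h6 hB0
  have h8 : (D.length : ℚ) * B = 2 * (D.length : ℚ) ^ 2 := by
    rw [← hB, hT, mwC]
    field_simp
    norm_num
  have h9 : mwC D r * (T * (r / 10000)) = 10 / 3 * (D.length : ℚ) ^ 2 := by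
    rw [hT, mwC]
    field_simp
    norm_num
  have h10 : (0 : ℚ) < (D.length : ℚ) ^ 2 := by positivity
  linarith

theorem mw_stmt : MWStmt := by
  intro D J F k r h hb hk hkn
  have hr := hb.1
  have hn : (0 : ℚ) < D.length := by exact_mod_cast h.pos_len
  have hc : 0 < mwC D r := by unfold mwC; positivity
  obtain ⟨T, hTe, hT⟩ : ∃ T : ℕ, mwHist D J F k r = hist D J F k (mwC D r) T ∧
      (T : ℚ) = 10 ^ 10 * (D.length : ℚ) ^ 7 :=
    ⟨_, mwHist_eq D J F k r, by rw [length_un]; push_cast; ring⟩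
  have hT0 : 0 < T := by
    have : (0 : ℚ) < T := by rw [hT]; positivity
    exact_mod_cast this
  have hmw : mw D J F k r = amin (lpv D J) ((List.range T).map fun t =>
      yv D F k (mwC D r) ((hist D J F k (mwC D r) T).drop (t + 1))) := by
    unfold mw
    rw [hTe, length_hist]
  have hne : ((List.range T).map fun t =>
      yv D F k (mwC D r) ((hist D J F k (mwC D r) T).drop (t + 1))) ≠ [] :=
    List.ne_nil_of_mem (List.mem_map_of_mem (List.mem_range.2 hT0))
  obtain ⟨t, -, e⟩ := List.mem_map.1 (amin_mem (lpv D J) hne)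
  rw [← hmw] at e
  refine ⟨fun i => e ▸ yv_nonneg h k hc.le _ i, fun i hi => e ▸ yv_off D k _ _ hi,
    e ▸ yv_sum h k hc.le _, fun S hS hSk => ?_⟩
  obtain ⟨s, hs, hle⟩ := exists_round h hb hk hkn hS hSk hT
  refine le_trans ?_ hle
  rw [hmw]
  refine amin_le _ (List.mem_map.2 ⟨T - s - 1, List.mem_range.2 (by omega), ?_⟩)
  have e2 := drop_hist D J F k (mwC D r) (T - s - 1 + 1) s
  rw [show s + (T - s - 1 + 1) = T by omega] at e2
  rw [e2]

end Vale.Agent.P334
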