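import Vale.Agent.Lib.PolyTime.More
import Vale.Agent.P334.Basic

/-! Polynomial-time arithmetic of rational numbers. -/

namespace Vale.Agent.P334

open Vale.Agent.Lib.PolyTime

/-- The height of a rational number. -/
def ht (q : ℚ) : ℕ := max (Nat.size q.num.natAbs) (Nat.size q.den)

theorem rp_abs (z : ℤ) : z.natAbs = z.toNat + (-z).toNat := by omega

theorem rp_size_mul (a b : ℕ) : Nat.size (a * b) ≤ Nat.size a + Nat.size b := by
  rw [Nat.size_le, pow_add]
  exact Nat.mul_lt_mul'' (Nat.lt_size_self a) (Nat.lt_size_self b)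

theorem rp_size_add {a b k : ℕ} (ha : Nat.size a ≤ k) (hb : Nat.size b ≤ k) :
    Nat.size (a + b) ≤ k + 1 := by
  rw [Nat.size_le] at *
  rw [pow_succ]
  omega

theorem rp_ht_mkRat (n : ℤ) {d : ℕ} (hd : d ≠ 0) :
    ht (mkRat n d) ≤ max (Nat.size n.natAbs) (Nat.size d) := by
  rw [ht, Rat.num_mkRat, Rat.den_mkRat, if_neg hd, if_neg hd]
  exact max_le_max (Nat.size_le_size (Int.natAbs_ediv_le_natAbs _ _))
    (Nat.size_le_size (Nat.div_le_self _ _))

instance encRat : Enc ℚ where
  enc q := enc (q.num.toNat, (-q.num).toNat, q.den)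
  sz q := 5 * ht q + 5
  size_le q := by
    have h := Enc.size_le (q.num.toNat, (-q.num).toNat, q.den)
    have h1 : Nat.size q.num.toNat ≤ Nat.size q.num.natAbs := Nat.size_le_size (by omega)
    have h2 : Nat.size (-q.num).toNat ≤ Nat.size q.num.natAbs := Nat.size_le_size (by omega)
    simp only [sz_pair, sz_nat] at h
    unfold ht
    omega
  inj a b h := by
    have h1 := Enc.inj h
    simp only [Prod.mk.injEq] at h1
    exact Rat.ext (by omega) h1.2.2

theorem sz_rat (q : ℚ) : sz q = 5 * ht q + 5 := rfl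
theorem sz_rat_add (a b : ℚ) : sz (a + b) ≤ sz a + sz b := by
  have h := rp_ht_mkRat (a.num * b.den + b.num * a.den) (mul_ne_zero a.den_nz b.den_nz)
  rw [← Rat.add_def'] at h
  have h1 := rp_size_mul a.num.natAbs b.den
  have h2 := rp_size_mul b.num.natAbs a.den
  have h3 := rp_size_mul a.den b.den
  have h4 : Nat.size (a.num * b.den + b.num * a.den).natAbs ≤ ht a + ht b + 1 := by
    refine le_trans (Nat.size_le_size (Int.natAbs_add_le _ _)) (rp_size_add ?_ ?_)
    · rw [Int.natAbs_mul, Int.natAbs_natCast]; unfold ht; omega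
    · rw [Int.natAbs_mul, Int.natAbs_natCast]; unfold ht; omega
  have h5 : Nat.size a.den + Nat.size b.den ≤ ht a + ht b := by unfold ht; omega
  simp only [sz_rat]
  omega
theorem sz_rat_mul (a b : ℚ) : sz (a * b) ≤ sz a + sz b := by
  have h := rp_ht_mkRat (a.num * b.num) (mul_ne_zero a.den_nz b.den_nz)
  rw [← Rat.mul_def', Int.natAbs_mul] at h
  have h1 := rp_size_mul a.num.natAbs b.num.natAbs
  have h3 := rp_size_mul a.den b.den
  have h5 : Nat.size a.den + Nat.size b.den ≤ ht a + ht b := by unfold ht; omega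
  have h6 : Nat.size a.num.natAbs + Nat.size b.num.natAbs ≤ ht a + ht b := by unfold ht; omega
  simp only [sz_rat]
  omega

variable {α β : Type} [Enc α] [Enc β]

theorem rp_foldr_bits {σ : Type} (n : ℕ) (g : Bool → σ → σ) (h : ℕ → σ)
    (hs : ∀ b k, g b (h k) = h (2 * k + b.toNat)) : n.bits.foldr g (h 0) = h n := by
  induction n using Nat.binaryRec' with
  | zero => simp
  | bit b k hk ih =>
    rw [Nat.bits_append_bit k b hk, List.foldr_cons, ih, hs, Nat.bit_val]

theorem rp_size_dbl {s t : ℕ} (h : t ≤ s + s + 1) : Nat.size t ≤ Nat.size s + 1 := by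
  rw [Nat.size_le, pow_succ]
  have := Nat.lt_size_self s
  omega

@[fun_prop] theorem pt_ndiv {f g : α → ℕ} (hf : PT f) (hg : PT g) : PT (fun a => f a / g a) := by
  have h := PT.foldr_add (f := fun a (b : Bool) (s : ℕ × ℕ) =>
      (s.1 + s.1 + (if b = true then 1 else 0), s.2 + s.2 +
        if g a ≠ 0 ∧ g a * (s.2 + s.2 + 1) ≤ s.1 + s.1 + (if b = true then 1 else 0) then 1 else 0))
    (i := fun _ => (0, 0)) (by fun_prop) hf.bits (by fun_prop) (PB.const 3)
    (fun a s y _ => by
      have h1 : Nat.size (s.1 + s.1 + (if y = true then 1 else 0)) ≤ Nat.size s.1 + 1 :=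
        rp_size_dbl (by split_ifs <;> omega)
      have h2 : Nat.size (s.2 + s.2 + if g a ≠ 0 ∧ g a * (s.2 + s.2 + 1) ≤
          s.1 + s.1 + (if y = true then 1 else 0) then 1 else 0) ≤ Nat.size s.2 + 1 :=
        rp_size_dbl (by split_ifs <;> omega)
      rw [sz_pair, sz_prod, sz_nat, sz_nat, sz_nat, sz_nat]
      omega)
  refine h.snd.congr fun a => ?_
  have key := rp_foldr_bits (f a) (fun (b : Bool) (s : ℕ × ℕ) =>
      (s.1 + s.1 + (if b = true then 1 else 0), s.2 + s.2 +
        if g a ≠ 0 ∧ g a * (s.2 + s.2 + 1) ≤ s.1 + s.1 + (if b = true then 1 else 0) then 1 else 0))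
      (fun k => (k, k / g a)) fun b k => by
    have e : (if b = true then 1 else 0) = b.toNat := by cases b <;> rfl
    have h2 : b.toNat ≤ 1 := Bool.toNat_le b
    rw [e]
    refine Prod.ext (by dsimp only; omega) ?_
    dsimp only
    rcases Nat.eq_zero_or_pos (g a) with h0 | h0
    · simp [h0]
    have h1 := Nat.mod_lt k h0
    have h3 := Nat.div_add_mod k (g a)
    generalize k / g a = q at *
    symm
    split_ifs with h4
    · refine Nat.div_eq_of_lt_le ?_ ?_ <;> nlinarith [h4.2]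
    · have h5 := not_le.1 fun h => h4 ⟨h0.ne', h⟩
      refine Nat.div_eq_of_lt_le ?_ ?_ <;> nlinarith [Nat.zero_le (k % g a), Nat.zero_le b.toNat]
  rw [Nat.zero_div] at key
  rw [key]

/-- One step of the Euclidean algorithm. -/
def rpStep (s : ℕ × ℕ) : ℕ × ℕ := if s.2 = 0 then s else (s.2, s.1 % s.2)

theorem rp_step_gcd (s : ℕ × ℕ) : Nat.gcd (rpStep s).1 (rpStep s).2 = Nat.gcd s.1 s.2 := by
  unfold rpStep
  split_ifs
  · rfl
  · rw [Nat.gcd_comm s.1, Nat.gcd_rec s.2 s.1, Nat.gcd_comm]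

theorem rp_step_half (s : ℕ × ℕ) : 2 * (rpStep (rpStep s)).2 ≤ s.2 := by
  obtain ⟨a, b⟩ := s
  by_cases h : b = 0
  · simp [rpStep, h]
  by_cases h' : a % b = 0
  · simp [rpStep, h, h']
  have h1 := Nat.mod_lt a (Nat.pos_of_ne_zero h)
  have h2 := Nat.mod_lt b (Nat.pos_of_ne_zero h')
  have h3 := Nat.mod_le (b - a % b) (a % b)
  rw [← Nat.mod_eq_sub_mod h1.le] at h3
  simp only [rpStep, h, h', if_false]
  omega

theorem rp_iter (k : ℕ) : ∀ s : ℕ × ℕ, s.2 < 2 ^ k → (rpStep^[k + k] s).1 = Nat.gcd s.1 s.2 := by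
  induction k with
  | zero =>
    intro s h
    have : s.2 = 0 := by omega
    simp [this]
  | succ k ih =>
    intro s h
    have h1 := rp_step_half s
    rw [show k + 1 + (k + 1) = k + k + 1 + 1 by ring, Function.iterate_succ_apply,
      Function.iterate_succ_apply, ih _ (by rw [pow_succ] at h; omega), rp_step_gcd, rp_step_gcd]

theorem rp_iter_le (k c : ℕ) : ∀ s : ℕ × ℕ, s.1 ≤ c → s.2 ≤ c →
    (rpStep^[k] s).1 ≤ c ∧ (rpStep^[k] s).2 ≤ c := by
  induction k with
  | zero => exact fun s h1 h2 => ⟨h1, h2⟩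
  | succ k ih =>
    intro s h1 h2
    rw [Function.iterate_succ_apply]
    refine ih _ ?_ ?_ <;> unfold rpStep <;> split_ifs
    exacts [h1, h2, h2, (Nat.mod_le _ _).trans h1]

@[fun_prop] theorem pt_gcd {f g : α → ℕ} (hf : PT f) (hg : PT g) :
    PT (fun a => Nat.gcd (f a) (g a)) := by
  have h := PT.iterate (f := fun _ : α => rpStep)
    (n := fun a => (g a).bits.length + (g a).bits.length) (i := fun a => (f a, g a))
    (B := fun a => 3 * sz (f a + g a) + 1) (by unfold rpStep; fun_prop) (by fun_prop)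
    (hg.bits.pb_length.add hg.bits.pb_length) (by fun_prop) ((hf.add hg).szb.lin 3 1)
    fun a k _ => by
      obtain ⟨h1, h2⟩ := rp_iter_le k (f a + g a) (f a, g a) (Nat.le_add_right _ _)
        (Nat.le_add_left _ _)
      have h3 := sz_nat_mono h1
      have h4 := sz_nat_mono h2
      rw [sz_prod]
      omega
  refine h.fst.congr fun a => (rp_iter _ (f a, g a) ?_).symm
  rw [Nat.size_eq_bits_len]
  exact Nat.lt_size_self _

theorem rp_of {f : α → ℚ} (h : PT fun a => ((f a).num.toNat, (-(f a).num).toNat, (f a).den)) :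
    PT f :=
  PT.of_enc h.encN (fun _ => rfl) ((h.szb.lin 5 5).of_le fun a => by
    have h1 : Nat.size (f a).num.natAbs ≤
        max (Nat.size (f a).num.toNat) (Nat.size (-(f a).num).toNat) := by
      rcases le_total 0 (f a).num with h | h
      · exact le_max_of_le_left (Nat.size_le_size (by omega))
      · exact le_max_of_le_right (Nat.size_le_size (by omega))
    simp only [sz_rat, sz_pair, sz_nat, ht]
    omega)

theorem rp_pos {f : α → ℚ} (hf : PT f) : PT fun a => (f a).num.toNat :=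
  hf.encN.fstN.congr fun _ => (fstN_pr _ _).symm

theorem rp_neg {f : α → ℚ} (hf : PT f) : PT fun a => (-(f a).num).toNat :=
  hf.encN.sndN.fstN.congr fun a => by
    change _ = fstN (sndN (pr _ (pr _ _)))
    rw [sndN_pr, fstN_pr]
    rfl

theorem rp_den {f : α → ℚ} (hf : PT f) : PT fun a => (f a).den :=
  hf.encN.sndN.sndN.congr fun a => by
    change _ = sndN (sndN (pr _ (pr _ _)))
    rw [sndN_pr, sndN_pr]
    rfl

theorem rp_toNat_div (z : ℤ) (g : ℕ) (h : (g : ℤ) ∣ z) : (z / g).toNat = z.toNat / g := by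
  obtain ⟨c, rfl⟩ := h
  rcases Nat.eq_zero_or_pos g with h0 | h0
  · simp [h0]
  rw [Int.mul_ediv_cancel_left _ (by omega)]
  rcases le_total 0 c with hc | hc
  · rw [Int.toNat_mul (by omega) hc, Int.toNat_natCast, Nat.mul_div_cancel_left _ h0]
  · rw [Int.toNat_of_nonpos hc, Int.toNat_of_nonpos (mul_nonpos_of_nonneg_of_nonpos (by omega) hc),
      Nat.zero_div]

theorem rp_mk {p n d : α → ℕ} (hp : PT p) (hn : PT n) (hd : PT d) :
    PT fun a => ((p a : ℚ) - n a) / d a := by
  have h : PT fun a => if d a = 0 then ((0 : ℕ), (0 : ℕ), (1 : ℕ)) else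
      ((p a - n a) / Nat.gcd (d a) (p a - n a + (n a - p a)),
        (n a - p a) / Nat.gcd (d a) (p a - n a + (n a - p a)),
        d a / Nat.gcd (d a) (p a - n a + (n a - p a))) := by fun_prop
  refine rp_of (h.congr fun a => ?_)
  have e : ((p a : ℚ) - n a) / d a = mkRat ((p a : ℤ) - n a) (d a) := by
    rw [Rat.mkRat_eq_div]; push_cast; rfl
  have e1 : ((p a : ℤ) - n a).natAbs = p a - n a + (n a - p a) := by omega
  rw [e, Rat.num_mkRat, Rat.den_mkRat]
  split_ifs with h0
  · rfl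
  have hg : ((Nat.gcd (d a) ((p a : ℤ) - n a).natAbs : ℕ) : ℤ) ∣ (p a : ℤ) - n a :=
    Int.natCast_dvd.2 (Nat.gcd_dvd_right _ _)
  rw [← Int.neg_ediv_of_dvd hg, rp_toNat_div _ _ hg, rp_toNat_div _ _ (dvd_neg.2 hg), e1]
  congr 3 <;> omega

theorem rp_num (q : ℚ) : (q.num : ℚ) = (q.num.toNat : ℚ) - ((-q.num).toNat : ℚ) := by
  have h : q.num = (q.num.toNat : ℤ) - ((-q.num).toNat : ℤ) := by omega
  exact_mod_cast congrArg (fun z : ℤ => (z : ℚ)) h

theorem rp_eq (q : ℚ) : q = ((q.num.toNat : ℚ) - ((-q.num).toNat : ℚ)) / q.den := by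
  rw [← rp_num, Rat.num_div_den]

@[fun_prop] theorem pt_cast {f : α → ℕ} (hf : PT f) : PT (fun a => (f a : ℚ)) :=
  (rp_mk hf (PT.const 0) (PT.const 1)).congr fun _ => by simp
@[fun_prop] theorem pt_add {f g : α → ℚ} (hf : PT f) (hg : PT g) : PT (fun a => f a + g a) := by
  refine (rp_mk (((rp_pos hf).mul (rp_den hg)).add ((rp_pos hg).mul (rp_den hf)))
    (((rp_neg hf).mul (rp_den hg)).add ((rp_neg hg).mul (rp_den hf)))
    ((rp_den hf).mul (rp_den hg))).congr fun a => ?_
  have h1 : ((f a).den : ℚ) ≠ 0 := Nat.cast_ne_zero.2 (f a).den_nz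
  have h2 : ((g a).den : ℚ) ≠ 0 := Nat.cast_ne_zero.2 (g a).den_nz
  conv_lhs => rw [rp_eq (f a), rp_eq (g a)]
  push_cast
  field_simp
  ring
@[fun_prop] theorem pt_neg {f : α → ℚ} (hf : PT f) : PT (fun a => - f a) :=
  (rp_mk (rp_neg hf) (rp_pos hf) (rp_den hf)).congr fun a => by
    conv_lhs => rw [rp_eq (f a)]
    ring
@[fun_prop] theorem pt_sub {f g : α → ℚ} (hf : PT f) (hg : PT g) : PT (fun a => f a - g a) :=
  (pt_add hf (pt_neg hg)).congr fun _ => sub_eq_add_neg _ _
@[fun_prop] theorem pt_mul {f g : α → ℚ} (hf : PT f) (hg : PT g) : PT (fun a => f a * g a) := by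
  refine (rp_mk (((rp_pos hf).mul (rp_pos hg)).add ((rp_neg hf).mul (rp_neg hg)))
    (((rp_pos hf).mul (rp_neg hg)).add ((rp_neg hf).mul (rp_pos hg)))
    ((rp_den hf).mul (rp_den hg))).congr fun a => ?_
  conv_lhs => rw [rp_eq (f a), rp_eq (g a)]
  push_cast
  rw [div_mul_div_comm]
  ring

theorem rp_inv {f : α → ℚ} (hf : PT f) : PT (fun a => (f a)⁻¹) := by
  have h1 := rp_pos hf
  have h2 := rp_neg hf
  have h3 := rp_den hf
  refine (rp_mk (p := fun a => if 0 < (f a).num.toNat then (f a).den else 0)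
    (n := fun a => if 0 < (-(f a).num).toNat then (f a).den else 0)
    (PT.ite ((PT.const 0).lt h1) h3 (PT.const 0)) (PT.ite ((PT.const 0).lt h2) h3 (PT.const 0))
    (h1.add h2)).congr fun a => ?_
  conv_lhs => rw [rp_eq (f a)]
  rcases lt_trichotomy (f a).num 0 with h | h | h
  · have e1 : (f a).num.toNat = 0 := by omega
    have e2 : 0 < (-(f a).num).toNat := by omega
    rw [e1, if_neg (lt_irrefl 0), if_pos e2]
    simp [neg_div]
  · simp [h]
  · have e1 : (-(f a).num).toNat = 0 := by omega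
    have e2 : 0 < (f a).num.toNat := by omega
    rw [e1, if_neg (lt_irrefl 0), if_pos e2]
    simp

@[fun_prop] theorem pt_div {f g : α → ℚ} (hf : PT f) (hg : PT g) : PT (fun a => f a / g a) :=
  (pt_mul hf (rp_inv hg)).congr fun _ => div_eq_mul_inv _ _
@[fun_prop] theorem pt_le {f g : α → ℚ} (hf : PT f) (hg : PT g) : PT (fun a => f a ≤ g a) :=
  ((rp_pos (pt_sub hf hg)).eq (PT.const 0)).congr fun a => by
    rw [Int.toNat_eq_zero, Rat.num_nonpos, sub_nonpos]
@[fun_prop] theorem pt_lt {f g : α → ℚ} (hf : PT f) (hg : PT g) : PT (fun a => f a < g a) :=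
  (pt_le hg hf).not.congr fun _ => propext not_le.symm
@[fun_prop] theorem pt_min {f g : α → ℚ} (hf : PT f) (hg : PT g) :
    PT (fun a => min (f a) (g a)) :=
  (PT.ite (pt_le hf hg) hf hg).congr fun _ => min_def _ _
@[fun_prop] theorem pt_max {f g : α → ℚ} (hf : PT f) (hg : PT g) :
    PT (fun a => max (f a) (g a)) :=
  (PT.ite (pt_le hf hg) hg hf).congr fun _ => max_def _ _
@[fun_prop] theorem pt_floor {f : α → ℚ} (hf : PT f) : PT (fun a => ⌊f a⌋₊) := by
  refine (pt_ndiv (rp_pos hf) (rp_den hf)).congr fun a => ?_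
  rcases le_total 0 (f a).num with h | h
  · have e : (-(f a).num).toNat = 0 := by omega
    conv_lhs => rw [rp_eq (f a), e]
    rw [Nat.cast_zero, sub_zero, Nat.floor_div_eq_div]
  · rw [Nat.floor_of_nonpos (Rat.num_nonpos.1 h), Int.toNat_of_nonpos h, Nat.zero_div]
@[fun_prop] theorem pt_sum {l : α → List ℚ} (hl : PT l) : PT (fun a => (l a).sum) :=
  (PT.foldl_add (f := fun _ (s y : ℚ) => s + y) (i := fun _ => 0) (by fun_prop) hl (PT.const _)
    hl.szb fun _ s y hy => (sz_rat_add s y).trans (Nat.add_le_add_left (sz_mem hy) _)).congr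
    fun _ => List.sum_eq_foldl
@[fun_prop] theorem pt_prod {l : α → List ℚ} (hl : PT l) : PT (fun a => (l a).prod) :=
  (PT.foldl_add (f := fun _ (s y : ℚ) => s * y) (i := fun _ => 1) (by fun_prop) hl (PT.const _)
    hl.szb fun _ s y hy => (sz_rat_mul s y).trans (Nat.add_le_add_left (sz_mem hy) _)).congr
    fun _ => List.prod_eq_foldl
theorem pt_powc {f : α → ℚ} (hf : PT f) (c : ℕ) : PT (fun a => f a ^ c) := by
  induction c with
  | zero => exact (PT.const 1).congr fun _ => pow_zero _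
  | succ c ih => exact (pt_mul ih hf).congr fun _ => pow_succ _ _
theorem pt_powl [Inhabited β] {f : α → ℚ} {l : α → List β} (hf : PT f) (hl : PT l) :
    PT (fun a => f a ^ (l a).length) :=
  (pt_prod (PT.map (f := fun a (_ : β) => f a) (hf.comp PT.id.fst) hl)).congr fun _ => by simp
theorem pt_range [Inhabited β] {l : α → List β} (hl : PT l) :
    PT (fun a => List.range (l a).length) := PT.range hl.length hl.pb_length
theorem pt_fsum [Inhabited β] {l : α → List β} {f : α → ℕ → ℚ}
    (hf : PT (fun p : α × ℕ => f p.1 p.2)) (hl : PT l) :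
    PT (fun a => ∑ i ∈ Finset.range (l a).length, f a i) :=
  (pt_sum (PT.map hf (pt_range hl))).congr fun _ => rfl
@[fun_prop] theorem pt_lmin {l : α → List ℚ} (hl : PT l) : PT (fun a => lmin (l a)) :=
  PT.foldl_add (f := fun _ (s y : ℚ) => min s y) (by fun_prop) hl (hl.headD (PT.const 0))
    hl.szb fun _ s y hy => by
      have := sz_mem hy
      rw [min_def]
      split_ifs <;> omega
@[fun_prop] theorem pt_amin [Inhabited β] {f : α → β → ℚ} {l : α → List β}
    (hf : PT (fun p : α × β => f p.1 p.2)) (hl : PT l) : PT (fun a => amin (f a) (l a)) := by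
  have h1 : PT fun q : α × β => lmin ((l q.1).map (f q.1)) :=
    (pt_lmin (PT.map hf hl)).comp PT.id.fst
  exact (PT.filter (p := fun a b => decide (f a b = lmin ((l a).map (f a))))
    (hf.eq h1).decide hl).headI

end Vale.Agent.P334
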