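import Vale.Agent.P334.Stmts

/-! From `k + O(1)` facilities to `k` facilities. -/

namespace Vale.Agent.P334

open Finset

theorem rd_filter (J : List ℕ) (p : ℕ → Prop) [DecidablePred p] (g : ℕ → ℚ) :
    ((J.filter fun j => decide (p j)).map g).sum = (J.map fun j => if p j then g j else 0).sum := by
  induction J with
  | nil => rfl
  | cons j J ih => by_cases h : p j <;> simp [h, ih]

theorem rd_fiber (J : List ℕ) (s : Finset ℕ) (a : ℕ → ℕ) (g : ℕ → ℕ → ℚ)
    (h : ∀ j ∈ J, a j ∈ s) : (J.map fun j => g j (a j)).sum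
      = ∑ i ∈ s, (J.map fun j => if a j = i then g j i else 0).sum := by
  induction J with
  | nil => simp
  | cons j J ih =>
    simp only [List.map_cons, List.sum_cons, Finset.sum_add_distrib]
    rw [ih fun x hx => h x (List.mem_cons_of_mem _ hx), Finset.sum_ite_eq,
      if_pos (h j List.mem_cons_self)]

theorem rd_mem_lists {F : List ℕ} (L : List ℕ) (h : ∀ x ∈ L, x ∈ F) : L ∈ lists F L.length := by
  induction L with
  | nil => exact List.mem_singleton_self _
  | cons a L ih =>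
    exact List.mem_flatMap.2 ⟨L, ih fun x hx => h x (List.mem_cons_of_mem _ hx),
      List.mem_map.2 ⟨a, h a List.mem_cons_self, rfl⟩⟩

theorem rd_pad {F : List ℕ} {A : Finset ℕ} {w t : ℕ} (hA : ∀ x ∈ A, x ∈ F) (hw : w ∈ F)
    (ht : A.card < t) : ∃ L ∈ lists F t, ∀ x, x ∈ L ↔ x ∈ A ∨ x = w := by
  have h1 : ∀ x, x ∈ A.toList ++ List.replicate (t - A.card) w ↔ x ∈ A ∨ x = w := fun x => by
    rw [List.mem_append, Finset.mem_toList, List.mem_replicate]
    exact or_congr_right (and_iff_right (by omega))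
  refine ⟨_, ?_, h1⟩
  have h2 := rd_mem_lists (F := F) (A.toList ++ List.replicate (t - A.card) w) fun x hx => by
    rcases (h1 x).1 hx with h | h
    · exact hA x h
    · exact h ▸ hw
  rwa [List.length_append, Finset.length_toList, List.length_replicate,
    Nat.add_sub_cancel' ht.le] at h2

/-- The recentering step. -/
theorem rd_lloyd {D : Mx} {J F S W : List ℕ} (hD : Ok D J F) (hS : Sol F S) {w : ℕ → ℕ}
    (hwF : ∀ o ∈ S, w o ∈ F)
    (hw : ∀ o ∈ S, ∀ o' ∈ S, o' ≠ o → 10 * dd D o (w o) ≤ dd D o o')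
    (hW : ∀ x, x ∈ W ↔ ∃ o ∈ S, w o = x) : cost D J (lloyd D J F W) ≤ 3 / 2 * cost D J S := by
  obtain ⟨o0, ho0⟩ := List.exists_mem_of_ne_nil S hS.1
  have hW0 : W ≠ [] := List.ne_nil_of_mem ((hW _).2 ⟨o0, ho0, rfl⟩)
  choose! og hog hog' using fun x => (hW x).1
  obtain ⟨m, hm⟩ : ∃ m : ℕ → ℕ, m = fun i => amin (fun f =>
    ((J.filter fun j => decide (amin (dd D j) W = i)).map fun j => dd D j f).sum) F := ⟨_, rfl⟩
  have ha : ∀ j ∈ J, amin (dd D j) W ∈ W.toFinset := fun j _ =>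
    List.mem_toFinset.2 (amin_mem _ hW0)
  have h1 : cost D J (lloyd D J F W) ≤ (J.map fun j => dd D j (m (amin (dd D j) W))).sum :=
    List.sum_le_sum fun j _ => dS_le D (by
      rw [lloyd, ← hm]
      exact List.mem_map_of_mem (amin_mem _ hW0)) j
  have h2 : (J.map fun j => dd D j (m (amin (dd D j) W))).sum
      ≤ (J.map fun j => dd D j (og (amin (dd D j) W))).sum := by
    rw [rd_fiber J _ _ (fun j i => dd D j (m i)) ha, rd_fiber J _ _ (fun j i => dd D j (og i)) ha]
    refine Finset.sum_le_sum fun i hi => ?_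
    rw [← rd_filter J (fun j => amin (dd D j) W = i), ← rd_filter J (fun j => amin (dd D j) W = i),
      hm]
    exact amin_le (fun f =>
      ((J.filter fun j => decide (amin (dd D j) W = i)).map fun j => dd D j f).sum)
      (hS.2 _ (hog i (List.mem_toFinset.1 hi)))
  refine (h1.trans h2).trans ?_
  rw [cost, ← List.sum_map_mul_left]
  refine List.sum_le_sum fun j hj => ?_
  obtain ⟨o1, ho1, e⟩ := dS_mem D hS.1 j
  have hx := amin_mem (dd D j) hW0
  have h3 := amin_le (dd D j) ((hW _).2 ⟨o1, ho1, rfl⟩)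
  have ho2 := hog _ hx
  rw [← hog' _ hx] at h3
  rw [e]
  generalize og (amin (dd D j) W) = o2 at ho2 h3
  have lj := hD.hJ j hj
  have l1 := hD.hF _ (hS.2 _ ho1)
  have l2 := hD.hF _ (hS.2 _ ho2)
  have h4 := hD.nonneg lj l1
  by_cases h : o1 = o2
  · rw [← h]
    linarith
  · have m1 := hD.hF _ (hwF _ ho1)
    have m2 := hD.hF _ (hwF _ ho2)
    have h5 := hw o1 ho1 o2 ho2 (Ne.symm h)
    have h6 := hw o2 ho2 o1 ho1 h
    have h7 := hD.tri j lj o1 l1 _ m1
    have h8 := hD.tri j lj _ m2 o2 l2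
    have h9 := hD.tri o1 l1 j lj o2 l2
    rw [hD.symm _ m2 o2 l2] at h8
    rw [hD.symm o2 l2 o1 l1] at h6
    rw [hD.symm o1 l1 j lj] at h9
    linarith

/-- A cheap cluster of a stable solution has a close facility in `T`. -/
theorem rd_cheap {D : Mx} {J F S T : List ℕ} (hD : Ok D J F) (hS : Sol F S) (hT : Sol F T)
    {b : ℚ} {o : ℕ} (ho : o ∈ S) (hst : S.erase o ≠ [] → cost D J S + b < cost D J (S.erase o))
    (hm : (J.map fun j => if amin (dd D j) S = o then dS D S j + dS D T j else 0).sum ≤ b / 10) :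
    ∃ x ∈ T, ∀ o' ∈ S, o' ≠ o → 10 * dd D o x < dd D o o' := by
  by_cases hE : S.erase o = []
  · obtain ⟨x, hx⟩ := List.exists_mem_of_ne_nil T hT.1
    refine ⟨x, hx, fun o' ho' h => ?_⟩
    have := (List.mem_erase_of_ne h).2 ho'
    rw [hE] at this
    exact absurd this List.not_mem_nil
  have hEF : ∀ x ∈ S.erase o, x ∈ F := fun x hx => hS.2 x (List.mem_of_mem_erase hx)
  have lo := hD.hF _ (hS.2 _ ho)
  by_contra hc
  have h1 : ∀ j ∈ J, dS D (S.erase o) j ≤ dS D S j
      + 10 * if amin (dd D j) S = o then dS D S j + dS D T j else 0 := by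
    intro j hj
    have lj := hD.hJ j hj
    by_cases h : amin (dd D j) S = o
    · rw [if_pos h]
      have h2 := hD.dS_tri hE hEF lo lj
      have h3 := dS_eq_amin D hS.1 j
      rw [h] at h3
      obtain ⟨x, hx, e⟩ := dS_mem D hT.1 j
      by_contra h4
      refine hc ⟨x, hx, fun o' ho' h' => ?_⟩
      have h5 := dS_le D ((List.mem_erase_of_ne h').2 ho') o
      have h6 := hD.tri o lo j lj x (hD.hF _ (hT.2 _ hx))
      rw [hD.symm o lo j lj] at h6
      linarith
    · rw [if_neg h, mul_zero, add_zero, dS_eq_amin D hS.1 j]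
      exact dS_le D ((List.mem_erase_of_ne h).2 (amin_mem _ hS.1)) j
  have h2 := List.sum_le_sum h1
  rw [List.sum_map_add, List.sum_map_mul_left] at h2
  have h3 := hst hE
  unfold cost at h3
  linarith

/-- Guessing from a stable solution. -/
theorem rd_guess {D : Mx} {J F S T : List ℕ} (hD : Ok D J F) (hS : Sol F S) (hT : Sol F T)
    {b : ℚ} (hb : 0 < b) {c t : ℕ} (ht : 400000 * c < t)
    (hst : ∀ o ∈ S, S.erase o ≠ [] → cost D J S + b < cost D J (S.erase o))
    (hc : cost D J S + cost D J T ≤ 30001 * c * b) (hl : T.length ≤ S.length + 2 * c) :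
    ∃ W ∈ guess D J F T t, Sol F W ∧ W.length ≤ S.length ∧ cost D J W ≤ 3 / 2 * cost D J S := by
  have hnd : S.Nodup := by
    rw [List.nodup_iff_count_le_one]
    intro o
    by_contra h
    have h1 : o ∈ S.erase o := by
      rw [← List.count_pos_iff, List.count_erase_self]
      omega
    have h2 := cost_mono D J (O' := S.erase o) hS.1 fun x hx => by
      by_cases e : x = o
      · exact e ▸ h1
      · exact (List.mem_erase_of_ne e).2 hx
    have h3 := hst o (List.mem_of_mem_erase h1) (List.ne_nil_of_mem h1)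
    linarith
  obtain ⟨ms, hms⟩ : ∃ ms : ℕ → ℚ, ms = fun o =>
    (J.map fun j => if amin (dd D j) S = o then dS D S j + dS D T j else 0).sum := ⟨_, rfl⟩
  have hms0 : ∀ o, 0 ≤ ms o := fun o => by
    rw [hms]
    refine List.sum_nonneg fun x hx => ?_
    obtain ⟨j, hj, rfl⟩ := List.mem_map.1 hx
    split_ifs
    · exact add_nonneg (hD.dS_nonneg hS.1 hS.2 (hD.hJ j hj)) (hD.dS_nonneg hT.1 hT.2 (hD.hJ j hj))
    · exact le_rfl
  have hsum : ∑ o ∈ S.toFinset, ms o = cost D J S + cost D J T := by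
    rw [hms, ← rd_fiber J S.toFinset (fun j => amin (dd D j) S) (fun j _ => dS D S j + dS D T j)
      fun j _ => List.mem_toFinset.2 (amin_mem _ hS.1), List.sum_map_add]
    rfl
  obtain ⟨X, hX⟩ : ∃ X : Finset ℕ, X = S.toFinset.filter fun o => b / 10 < ms o := ⟨_, rfl⟩
  have hXS : X ⊆ S.toFinset := hX ▸ Finset.filter_subset _ _
  have hXc : X.card ≤ 300010 * c := by
    have h1 : X.card • (b / 10) ≤ ∑ o ∈ X, ms o :=
      Finset.card_nsmul_le_sum _ _ _ fun o ho => by
        rw [hX] at ho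
        exact (Finset.mem_filter.1 ho).2.le
    have h2 := Finset.sum_le_sum_of_subset_of_nonneg hXS fun o _ _ => hms0 o
    rw [nsmul_eq_mul] at h1
    have h3 : (X.card : ℚ) * b ≤ (300010 * c) * b := by linarith
    exact_mod_cast le_of_mul_le_mul_right h3 hb
  have hex : ∀ o ∈ S, ∃ x, x ∈ F ∧ (∀ o' ∈ S, o' ≠ o → 10 * dd D o x ≤ dd D o o') ∧
      (o ∉ X → x ∈ T ∧ ∀ o' ∈ S, o' ≠ o → 10 * dd D o x < dd D o o') := by
    intro o ho
    by_cases h : o ∈ X
    · have lo := hD.hF _ (hS.2 _ ho)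
      refine ⟨o, hS.2 _ ho, fun o' ho' _ => ?_, fun h' => absurd h h'⟩
      rw [hD.refl o lo, mul_zero]
      exact hD.nonneg lo (hD.hF _ (hS.2 _ ho'))
    · have h1 : ms o ≤ b / 10 := by
        by_contra h2
        exact h (hX ▸ Finset.mem_filter.2 ⟨List.mem_toFinset.2 ho, not_le.1 h2⟩)
      rw [hms] at h1
      obtain ⟨x, hx, h2⟩ := rd_cheap hD hS hT ho (hst o ho) h1
      exact ⟨x, hT.2 x hx, fun o' ho' h' => (h2 o' ho' h').le, fun _ => ⟨hx, h2⟩⟩
  choose! w hwF hw hwT using hex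
  have hinj : Set.InjOn w (S.toFinset \ X : Finset ℕ) := by
    intro o1 h1 o2 h2 e
    rw [Finset.mem_coe, Finset.mem_sdiff, List.mem_toFinset] at h1 h2
    by_contra h
    have l1 := hD.hF _ (hS.2 _ h1.1)
    have l2 := hD.hF _ (hS.2 _ h2.1)
    have m2 := hD.hF _ (hwF _ h2.1)
    have h3 := (hwT o1 h1.1 h1.2).2 o2 h2.1 (Ne.symm h)
    have h4 := (hwT o2 h2.1 h2.2).2 o1 h1.1 h
    have h5 := hD.tri o1 l1 _ m2 o2 l2
    have h6 := hD.nonneg l1 l2
    rw [hD.symm _ m2 o2 l2] at h5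
    rw [hD.symm o2 l2 o1 l1] at h4
    rw [e] at h3
    linarith
  have hR : (T.toFinset \ S.toFinset.image w).card < t := by
    have h1 : (S.toFinset \ X).image w ⊆ T.toFinset ∩ S.toFinset.image w := by
      intro x hx
      obtain ⟨o, ho, rfl⟩ := Finset.mem_image.1 hx
      rw [Finset.mem_sdiff] at ho
      exact Finset.mem_inter.2 ⟨List.mem_toFinset.2 (hwT o (List.mem_toFinset.1 ho.1) ho.2).1,
        Finset.mem_image_of_mem _ ho.1⟩
    have h2 := Finset.card_le_card h1
    rw [Finset.card_image_of_injOn hinj, Finset.card_sdiff_of_subset hXS,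
      List.toFinset_card_of_nodup hnd] at h2
    have h3 := Finset.card_sdiff_add_card_inter T.toFinset (S.toFinset.image w)
    have h4 := T.toFinset_card_le
    omega
  obtain ⟨o0, ho0⟩ := List.exists_mem_of_ne_nil S hS.1
  obtain ⟨R, hR1, hR2⟩ := rd_pad (A := T.toFinset \ S.toFinset.image w)
    (fun x hx => hT.2 x (List.mem_toFinset.1 (Finset.mem_sdiff.1 hx).1)) (hwF o0 ho0) hR
  obtain ⟨V, hV1, hV2⟩ := rd_pad (A := X.image w) (t := t)
    (fun x hx => by
      obtain ⟨o, ho, rfl⟩ := Finset.mem_image.1 hx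
      exact hwF o (List.mem_toFinset.1 (hXS ho))) (hwF o0 ho0)
    (by have := Finset.card_image_le (s := X) (f := w); omega)
  have hW : ∀ x, x ∈ ((T.filter fun i => decide (i ∉ R)) ++ V).dedup ↔ ∃ o ∈ S, w o = x := by
    intro x
    rw [List.mem_dedup, List.mem_append, List.mem_filter, decide_eq_true_eq, hR2, hV2]
    constructor
    · rintro (⟨h1, h2⟩ | h1 | h1)
      · by_contra h
        refine h2 (Or.inl (Finset.mem_sdiff.2 ⟨List.mem_toFinset.2 h1, fun h3 => h ?_⟩))
        obtain ⟨o, ho, e⟩ := Finset.mem_image.1 h3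
        exact ⟨o, List.mem_toFinset.1 ho, e⟩
      · obtain ⟨o, ho, e⟩ := Finset.mem_image.1 h1
        exact ⟨o, List.mem_toFinset.1 (hXS ho), e⟩
      · exact ⟨o0, ho0, h1.symm⟩
    · rintro ⟨o, ho, rfl⟩
      by_cases h : o ∈ X
      · exact Or.inr (Or.inl (Finset.mem_image_of_mem _ h))
      · by_cases h' : w o = w o0
        · exact Or.inr (Or.inr h')
        · refine Or.inl ⟨(hwT o ho h).1, ?_⟩
          rintro (h1 | h1)
          · exact (Finset.mem_sdiff.1 h1).2 (Finset.mem_image_of_mem _ (List.mem_toFinset.2 ho))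
          · exact h' h1
  refine ⟨_, List.mem_flatMap.2 ⟨R, hR1, List.mem_map.2 ⟨V, hV1, rfl⟩⟩, ⟨?_, ?_⟩, ?_,
    rd_lloyd hD hS hwF hw hW⟩
  · exact List.ne_nil_of_mem (List.mem_map_of_mem ((hW _).2 ⟨o0, ho0, rfl⟩))
  · intro i hi
    obtain ⟨x, _, rfl⟩ := List.mem_map.1 hi
    exact amin_mem _ hD.neF
  · rw [lloyd, List.length_map, ← List.toFinset_card_of_nodup (List.nodup_dedup _)]
    refine le_trans (Finset.card_le_card (t := S.toFinset.image w) fun x hx => ?_)
      (Finset.card_image_le.trans S.toFinset_card_le)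
    obtain ⟨o, ho, e⟩ := (hW x).1 (List.mem_toFinset.1 hx)
    exact Finset.mem_image.2 ⟨o, List.mem_toFinset.2 ho, e⟩

theorem rd_main {c t : ℕ} (hc : 1 ≤ c) (ht : 400000 * c < t) (D : Mx) (J F S T : List ℕ) (k : ℕ)
    (r : ℚ) (hD : Ok D J F) (hr : 0 < r) (hS : Sol F S) (hk : S.length ≤ k) (hT : Sol F T)
    (hTl : T.length ≤ k + c) (hTc : cost D J T ≤ 2 * (cost D J S + r)) :
    (∃ S₁, Sol F S₁ ∧ S₁.length + c ≤ k ∧ cost D J S₁ ≤ cost D J S + (cost D J S + r) / 10000) ∨
    ∃ W ∈ guess D J F T t, Sol F W ∧ W.length ≤ k ∧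
      cost D J W ≤ 3 / 2 * (cost D J S + (cost D J S + r) / 10000) := by
  have hP := hD.cost_nonneg hS.1 hS.2
  by_cases h0 : S.length + c ≤ k
  · exact Or.inl ⟨S, hS, h0, by linarith⟩
  have hc0 : (0 : ℚ) < c := by exact_mod_cast hc
  obtain ⟨b, hb, hcb⟩ : ∃ b : ℚ, 0 < b ∧ c * b = (cost D J S + r) / 10000 :=
    ⟨(cost D J S + r) / 10000 / c, by positivity, mul_div_cancel₀ _ hc0.ne'⟩
  obtain ⟨S', ⟨h1, h2, h3, h4⟩, hmin⟩ := (InvImage.wf List.length Nat.lt_wfRel.wf).has_min
    {S' : List ℕ | Sol F S' ∧ S'.length ≤ k ∧ k ≤ S'.length + c ∧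
      cost D J S' ≤ cost D J S + ((k : ℚ) - S'.length) * b}
    ⟨S, hS, hk, by omega, le_add_of_nonneg_right
      (mul_nonneg (sub_nonneg.2 (by exact_mod_cast hk)) hb.le)⟩
  have h5 : cost D J S' ≤ cost D J S + (cost D J S + r) / 10000 := by
    have h6 : (k : ℚ) ≤ S'.length + c := by exact_mod_cast h3
    have h7 := mul_le_mul_of_nonneg_right (sub_le_iff_le_add'.2 h6) hb.le
    linarith
  by_cases h6 : S'.length + c ≤ k
  · exact Or.inl ⟨S', h1, h6, h5⟩
  obtain ⟨W, hW, h7, h8, h9⟩ := rd_guess hD h1 hT hb ht (fun o ho hE => by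
    by_contra h
    have e := List.length_erase_add_one ho
    have e' : ((S'.erase o).length : ℚ) + 1 = S'.length := by exact_mod_cast e
    refine hmin (S'.erase o) ⟨⟨hE, fun x hx => h1.2 x (List.mem_of_mem_erase hx)⟩, by omega,
      by omega, ?_⟩ (show (S'.erase o).length < S'.length by omega)
    rw [← e'] at h4
    linarith) (by linarith) (by omega)
  exact Or.inr ⟨W, hW, h7, h8.trans h2, by linarith⟩

theorem reduce_stmt : ReduceStmt :=
  rd_main (by unfold cc; norm_num) (by unfold cc tt; norm_num)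

end Vale.Agent.P334
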