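import Vale.Agent.P334.Chk

/-! Soundness of the checker. -/

namespace Vale.Agent.P334

/-- Truncated subtraction. -/
def ts (a b : ℚ) : ℚ := max (a - b) 0

/-- Linear functions. -/
def Ln (f : (ℕ → ℚ) → ℚ) : Prop :=
  ∀ (a b : ℚ) (u v : ℕ → ℚ), f (fun i => a * u i + b * v i) = a * f u + b * f v

/-- Sublinear functions. -/
def Cv (f : (ℕ → ℚ) → ℚ) : Prop :=
  ∀ (a b : ℚ) (u v : ℕ → ℚ), 0 ≤ a → 0 ≤ b → f (fun i => a * u i + b * v i) ≤ a * f u + b * f v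

section
variable {f g : (ℕ → ℚ) → ℚ}

theorem Ln.co (i : ℕ) : Ln fun u => u i := fun _ _ _ _ => rfl

theorem Ln.zero : Ln fun _ => ((0 : ℕ) : ℚ) := fun _ _ _ _ => by simp

theorem Ln.add (hf : Ln f) (hg : Ln g) : Ln fun u => f u + g u := fun a b u v => by
  beta_reduce; rw [hf, hg]; ring

theorem Ln.sub (hf : Ln f) (hg : Ln g) : Ln fun u => f u - g u := fun a b u v => by
  beta_reduce; rw [hf, hg]; ring

theorem Ln.cm (c : ℚ) (hf : Ln f) : Ln fun u => c * f u := fun a b u v => by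
  beta_reduce; rw [hf]; ring

theorem Ln.mc (c : ℚ) (hf : Ln f) : Ln fun u => f u * c := fun a b u v => by
  beta_reduce; rw [hf]; ring

theorem Ln.cnd (b : Bool) (hf : Ln f) (hg : Ln g) : Ln fun u => cnd b (f u) (g u) := by
  cases b
  · exact hg
  · exact hf

theorem Ln.cv (hf : Ln f) : Cv f := fun a b u v _ _ => (hf a b u v).le

theorem Cv.add (hf : Cv f) (hg : Cv g) : Cv fun u => f u + g u := fun a b u v ha hb => by
  have := hf a b u v ha hb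
  have := hg a b u v ha hb
  beta_reduce; linarith

theorem Cv.sub (hf : Cv f) (hg : Ln g) : Cv fun u => f u - g u := fun a b u v ha hb => by
  have := hf a b u v ha hb
  have := hg a b u v
  beta_reduce; linarith

theorem Cv.cm {c : ℚ} (hf : Cv f) (hc : 0 ≤ c) : Cv fun u => c * f u := fun a b u v ha hb => by
  have := mul_le_mul_of_nonneg_left (hf a b u v ha hb) hc
  beta_reduce; linarith

theorem Cv.ts (hf : Cv f) (hg : Ln g) : Cv fun u => ts (f u) (g u) := fun a b u v ha hb => by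
  have h1 := hf.sub hg a b u v ha hb
  have h2 := mul_le_mul_of_nonneg_left (le_max_left (f u - g u) 0) ha
  have h3 := mul_le_mul_of_nonneg_left (le_max_left (f v - g v) 0) hb
  have h4 := mul_nonneg ha (le_max_right (f u - g u) 0)
  have h5 := mul_nonneg hb (le_max_right (f v - g v) 0)
  exact max_le (h1.trans (add_le_add h2 h3)) (add_nonneg h4 h5)

theorem Cv.cnd (b : Bool) (hf : Cv f) (hg : Cv g) : Cv fun u => cnd b (f u) (g u) := by
  cases b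
  · exact hg
  · exact hf

end

/-- The parameters of a vector. -/
def toC (K : ℕ → ℚ) : Ctl ℚ :=
  ⟨K 0, K 1, K 2, K 3, K 4, K 5, K 6, K 7, K 8, K 9, K 10, K 11, K 12, K 13, K 14, K 15, K 16, K
  17, K 18, K 19, K 20, K 21, K 22, K 23, K 24, K 25, K 26, K 27, K 28, K 29, K 30, K 31, K 32, K
  33, K 34, K 35, K 36, K 37, K 38, K 39, K 40, K 41, K 42⟩

/-- The list of parameters. -/
def Ctl.lst (c : Ctl ℕ) : List ℕ :=
  [c.S, c.m, c.m2, c.m3, c.c, c.mc, c.m2c, c.cm1, c.pm, c.pp, c.bA, c.bA2, c.bB, c.bB2, c.eA,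
  c.eA2, c.eA3, c.eB, c.eB3, c.a1, c.a12, c.a2p, c.a2n, c.b1, c.b12, c.b2p, c.b2n, c.mq, c.om,
  c.eE, c.eN, c.xm, c.x1, c.x2, c.x3, c.x4, c.B0, c.B1, c.B2, c.B3, c.B4, c.B5, c.B6]

/-- The vector of parameters. -/
def vec (c : Ctl ℕ) (i : ℕ) : ℚ := (c.lst.getD i 0 : ℕ)

/-- The vector of a point. -/
def pv (a d l t s e : ℚ) : ℕ → ℚ
  | 0 => a
  | 1 => d
  | 2 => l
  | 3 => t
  | 4 => s
  | _ + 5 => e

/-- The quantities of a generator. -/
noncomputable def geoQ (L : Lf) (p : ℕ → ℚ) : Geo ℚ :=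
  geo HMul.hMul ts Nat.cast L (p 0) (p 1) (p 2) (p 3) (p 4)

/-- The quantities of a generator and parameters. -/
noncomputable def bsQ (L : Lf) (K p : ℕ → ℚ) : Bs ℚ :=
  bs HAdd.hAdd HMul.hMul ts Nat.cast (toC K) L (geoQ L p)

/-- The quantities of a point. -/
noncomputable def ptQ (L : Lf) (g : Sg) (p : ℕ → ℚ) : Pt ℚ :=
  pt HAdd.hAdd HMul.hMul ts Nat.cast g (geoQ L p) (p 5)

/-- The function that has to be nonpositive. -/
noncomputable def Phi (L : Lf) (g : Sg) (K p : ℕ → ℚ) : ℚ :=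
  pos HAdd.hAdd HMul.hMul ts Nat.cast (toC K) (bsQ L K p) g (geoQ L p) (ptQ L g p) -
    neg HAdd.hAdd HMul.hMul Nat.cast (toC K) (bsQ L K p) g (geoQ L p) (ptQ L g p)

/-- The bound for the multiplier. -/
def Mu (g : Sg) (K : ℕ → ℚ) : ℚ := g.y1 * K 39 + g.y2 * K 41 - K 0

/-- The condition for near points. -/
def Nr (K p : ℕ → ℚ) : ℚ :=
  K 0 * p 5 + K 30 * (60 * p 0) - (K 5 * (60 * p 0) + K 28 * (60 * p 3))

theorem cv_phi_K (L : Lf) (g : Sg) (p : ℕ → ℚ) : Cv fun K => Phi L g K p := by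
  simp only [Phi, pos, neg, bsQ, bs, toC]
  repeat' with_reducible first
    | apply Cv.add | apply Cv.sub | apply Cv.ts | apply Cv.cnd | apply Ln.cv
    | exact Ln.co _ | exact Ln.zero | apply Ln.add | apply Ln.cnd | apply Ln.cm | apply Ln.mc

theorem cv_phi_p (L : Lf) (g : Sg) {K : ℕ → ℚ} (hK : ∀ i, 0 ≤ K i) : Cv fun p => Phi L g K p := by
  simp only [Phi, pos, neg, bsQ, bs, toC, geoQ, geo, ptQ, pt]
  repeat' with_reducible first
    | exact hK _ | exact Nat.cast_nonneg _ | apply mul_nonneg | apply add_nonneg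
    | apply Cv.add | apply Cv.sub | apply Cv.ts | apply Cv.cnd | apply Cv.cm | apply Ln.cv
    | exact Ln.co _ | exact Ln.zero | apply Ln.add | apply Ln.cnd | apply Ln.cm

theorem ln_mu (g : Sg) : Ln (Mu g) := fun a b u v => by unfold Mu; ring

theorem ln_nr_K (p : ℕ → ℚ) : Ln fun K => Nr K p := fun a b u v => by unfold Nr; ring

theorem ln_nr_p (K : ℕ → ℚ) : Ln (Nr K) := fun a b u v => by unfold Nr; ring

/-- The three conditions. -/
def OK (L : Lf) (g : Sg) (K p : ℕ → ℚ) : Prop :=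
  Phi L g K p ≤ 0 ∧ Mu g K ≤ 0 ∧ (g.gE = false → Nr K p ≤ 0)

theorem cast_ad (a b : ℕ) : ((Nat.add a b : ℕ) : ℚ) = a + b := Nat.cast_add a b

theorem cast_mu (a b : ℕ) : ((Nat.mul a b : ℕ) : ℚ) = a * b := Nat.cast_mul a b

theorem cast_sb (a b : ℕ) : ((Nat.sub a b : ℕ) : ℚ) = ts a b := by
  unfold ts
  rcases le_total a b with h | h
  · rw [show Nat.sub a b = 0 from Nat.sub_eq_zero_of_le h, max_eq_right]
    · rfl
    · exact sub_nonpos.2 (by exact_mod_cast h)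
  · rw [max_eq_left (sub_nonneg.2 (by exact_mod_cast h))]
    exact Nat.cast_sub h

theorem cast_cnd (b : Bool) (x y : ℕ) : ((cnd b x y : ℕ) : ℚ) = cnd b (x : ℚ) y := by
  cases b <;> rfl

theorem an_iff {a b : Bool} : an a b = true ↔ a = true ∧ b = true := by
  cases a <;> cases b <;> simp [an]

theorem ble_cast {a b : ℕ} (h : Nat.ble a b = true) : (a : ℚ) - b ≤ 0 :=
  sub_nonpos.2 (by exact_mod_cast Nat.le_of_ble_eq_true h)

theorem ev_ok {L : Lf} {g : Sg} {r : Ray} {e : ℕ} {c : Ctl ℕ}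
    (h : ev g (geoR L r) (pt Nat.add Nat.mul Nat.sub (fun x => x) g (geoR L r) e)
      (c, bs Nat.add Nat.mul Nat.sub (fun x => x) c L (geoR L r)) = true) :
    OK L g (vec c) (pv r.A r.d r.l r.t r.s e) := by
  obtain ⟨h1, h2⟩ := an_iff.1 h
  obtain ⟨h2, h3⟩ := an_iff.1 h2
  refine ⟨?_, ?_, fun h4 => ?_⟩
  · have := ble_cast h1
    simp only [pos, neg, bs, pt, geoR, geo, cast_ad, cast_mu, cast_sb, cast_cnd] at this
    exact this
  · have := ble_cast h2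
    simp only [mul1, cast_ad, cast_mu] at this
    exact this
  · rw [h4] at h3
    have := ble_cast h3
    simp only [bs, pt, geoR, geo, cast_ad, cast_mu] at this
    exact this

theorem vec_nonneg (c : Ctl ℕ) (i : ℕ) : 0 ≤ vec c i := Nat.cast_nonneg _

theorem pv_comb (x y a d l t s e a' d' l' t' s' e' : ℚ) :
    (fun i => x * pv a d l t s e i + y * pv a' d' l' t' s' e' i) =
      pv (x * a + y * a') (x * d + y * d') (x * l + y * l') (x * t + y * t') (x * s + y * s')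
        (x * e + y * e') := by
  funext i
  rcases i with _ | _ | _ | _ | _ | i <;> rfl

theorem OK.comb {L : Lf} {g : Sg} {K : ℕ → ℚ} (hK : ∀ i, 0 ≤ K i) {x y a d l t s e a' d' l' t' s'
    e' : ℚ} (hx : 0 ≤ x) (hy : 0 ≤ y) (h : OK L g K (pv a d l t s e))
    (h' : OK L g K (pv a' d' l' t' s' e')) :
    OK L g K (pv (x * a + y * a') (x * d + y * d') (x * l + y * l') (x * t + y * t')
      (x * s + y * s') (x * e + y * e')) := by
  rw [← pv_comb]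
  refine ⟨(cv_phi_p L g hK x y _ _ hx hy).trans ?_, h.2.1, fun h1 => ?_⟩
  · exact add_nonpos (mul_nonpos_of_nonneg_of_nonpos hx h.1)
      (mul_nonpos_of_nonneg_of_nonpos hy h'.1)
  · rw [ln_nr_p K]
    exact add_nonpos (mul_nonpos_of_nonneg_of_nonpos hx (h.2.2 h1))
      (mul_nonpos_of_nonneg_of_nonpos hy (h'.2.2 h1))

theorem allL_map {β γ : Type} (f : β → γ) (p : γ → Bool) (l : List β)
    (h : allL p (mapL f l) = true) : ∀ a ∈ l, p (f a) = true := by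
  induction l with
  | nil => simp
  | cons b l ih =>
    obtain ⟨h1, h2⟩ := an_iff.1 h
    intro a ha
    rcases List.mem_cons.1 ha with rfl | ha
    · exact h1
    · exact ih h2 a ha

theorem evA_ok {C : List (Ctl ℕ)} {L : Lf} {g : Sg} {r : Ray} {e : ℕ}
    (h : evA (prs C L (geoR L r)) (geoR L r) g e = true) :
    ∀ c ∈ C, OK L g (vec c) (pv r.A r.d r.l r.t r.s e) := fun c hc =>
  ev_ok (allL_map _ _ C h c hc)

/-- A combination of four numbers. -/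
def c4 (v0 v1 v2 v3 : ℚ) (a b c d : ℕ) : ℚ := v0 * a + (v1 * b + (v2 * c + v3 * d))

theorem evA_four {C : List (Ctl ℕ)} {L : Lf} {g : Sg} {r0 r1 r2 r3 : Ray} {e0 e1 e2 e3 : ℕ}
    {v0 v1 v2 v3 : ℚ} (p0 : 0 ≤ v0) (p1 : 0 ≤ v1) (p2 : 0 ≤ v2) (p3 : 0 ≤ v3)
    (h0 : evA (prs C L (geoR L r0)) (geoR L r0) g e0 = true)
    (h1 : evA (prs C L (geoR L r1)) (geoR L r1) g e1 = true)
    (h2 : evA (prs C L (geoR L r2)) (geoR L r2) g e2 = true)
    (h3 : evA (prs C L (geoR L r3)) (geoR L r3) g e3 = true) :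
    ∀ c ∈ C, OK L g (vec c) (pv (c4 v0 v1 v2 v3 r0.A r1.A r2.A r3.A)
      (c4 v0 v1 v2 v3 r0.d r1.d r2.d r3.d) (c4 v0 v1 v2 v3 r0.l r1.l r2.l r3.l)
      (c4 v0 v1 v2 v3 r0.t r1.t r2.t r3.t) (c4 v0 v1 v2 v3 r0.s r1.s r2.s r3.s)
      (c4 v0 v1 v2 v3 e0 e1 e2 e3)) := fun c hc => by
  have hK := vec_nonneg c
  have := OK.comb hK p0 zero_le_one (evA_ok h0 c hc) (OK.comb hK p1 zero_le_one (evA_ok h1 c hc)
    (OK.comb hK p2 p3 (evA_ok h2 c hc) (evA_ok h3 c hc)))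
  simpa only [one_mul, c4] using this

theorem sgs_ok {C : List (Ctl ℕ)} {L : Lf} {r0 r1 r2 r3 : Ray} {v0 v1 v2 v3 : ℚ} (p0 : 0 ≤ v0)
    (p1 : 0 ≤ v1) (p2 : 0 ≤ v2) (p3 : 0 ≤ v3) (l : List ℕ) {e0 e1 e2 e3 : ℕ}
    (h0 : sgs (prs C L (geoR L r0)) (geoR L r0) r0 l e0 = true)
    (h1 : sgs (prs C L (geoR L r1)) (geoR L r1) r1 l e1 = true)
    (h2 : sgs (prs C L (geoR L r2)) (geoR L r2) r2 l e2 = true)
    (h3 : sgs (prs C L (geoR L r3)) (geoR L r3) r3 l e3 = true)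
    (h : axG C L l (geoR L ⟨0, 0, 0, 0, 0⟩) = true) {e : ℚ}
    (he : c4 v0 v1 v2 v3 e0 e1 e2 e3 ≤ e) :
    ∃ g, ∀ c ∈ C, OK L g (vec c) (pv (c4 v0 v1 v2 v3 r0.A r1.A r2.A r3.A)
      (c4 v0 v1 v2 v3 r0.d r1.d r2.d r3.d) (c4 v0 v1 v2 v3 r0.l r1.l r2.l r3.l)
      (c4 v0 v1 v2 v3 r0.t r1.t r2.t r3.t) (c4 v0 v1 v2 v3 r0.s r1.s r2.s r3.s) e) := by
  induction l generalizing e0 e1 e2 e3 with
  | nil => exact absurd h0 Bool.false_ne_true
  | cons n l ih =>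
    obtain ⟨a0, b0⟩ := an_iff.1 h0
    obtain ⟨a1, b1⟩ := an_iff.1 h1
    obtain ⟨a2, b2⟩ := an_iff.1 h2
    obtain ⟨a3, b3⟩ := an_iff.1 h3
    have lo := evA_four p0 p1 p2 p3 a0 a1 a2 a3
    have h' : cnd (decS n).inf (evA (prs C L (geoR L ⟨0, 0, 0, 0, 0⟩)) (geoR L ⟨0, 0, 0, 0, 0⟩)
      (decS n) 1) (axG C L l (geoR L ⟨0, 0, 0, 0, 0⟩)) = true := h
    generalize decS n = g at *
    cases hi : g.inf with
    | true =>
      rw [hi] at h'
      refine ⟨g, fun c hc => ?_⟩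
      have := OK.comb (vec_nonneg c) zero_le_one (sub_nonneg.2 he) (lo c hc) (evA_ok h' c hc)
      simpa using this
    | false =>
      rw [hi] at h' b0 b1 b2 b3
      obtain ⟨a0', b0⟩ := an_iff.1 b0
      obtain ⟨a1', b1⟩ := an_iff.1 b1
      obtain ⟨a2', b2⟩ := an_iff.1 b2
      obtain ⟨a3', b3⟩ := an_iff.1 b3
      have up := evA_four p0 p1 p2 p3 a0' a1' a2' a3'
      rcases le_or_gt (c4 v0 v1 v2 v3 (fv g r0) (fv g r1) (fv g r2) (fv g r3)) e with h4 | h4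
      · exact ih b0 b1 b2 b3 h' h4
      · refine ⟨g, fun c hc => ?_⟩
        generalize c4 v0 v1 v2 v3 (fv g r0) (fv g r1) (fv g r2) (fv g r3) = y at *
        generalize c4 v0 v1 v2 v3 e0 e1 e2 e3 = x at *
        have h5 : 0 < y - x := by linarith
        have := OK.comb (vec_nonneg c) (div_nonneg (sub_nonneg.2 h4.le) h5.le)
          (div_nonneg (sub_nonneg.2 he) h5.le) (lo c hc) (up c hc)
        have e1 : ∀ z, (y - e) / (y - x) * z + (e - x) / (y - x) * z = z := fun z => by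
          field_simp; ring
        have e2 : (y - e) / (y - x) * x + (e - x) / (y - x) * y = e := by field_simp; ring
        rwa [e1, e1, e1, e1, e1, e2] at this

/-- The conclusion at a point of the base. -/
def Gd (C : List (Ctl ℕ)) (a d l t s : ℚ) : Prop :=
  ∃ L, ∀ e, 0 ≤ e → ∃ g, ∀ c ∈ C, OK L g (vec c) (pv a d l t s e)

/-- The conclusion on a cone. -/
def ConeOK (C : List (Ctl ℕ)) (r0 r1 r2 r3 : Ray) : Prop :=
  ∀ v0 v1 v2 v3 : ℚ, 0 ≤ v0 → 0 ≤ v1 → 0 ≤ v2 → 0 ≤ v3 →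
    Gd C (c4 v0 v1 v2 v3 r0.A r1.A r2.A r3.A) (c4 v0 v1 v2 v3 r0.d r1.d r2.d r3.d)
      (c4 v0 v1 v2 v3 r0.l r1.l r2.l r3.l) (c4 v0 v1 v2 v3 r0.t r1.t r2.t r3.t)
      (c4 v0 v1 v2 v3 r0.s r1.s r2.s r3.s)

variable {C : List (Ctl ℕ)} {r0 r1 r2 r3 : Ray}

theorem ConeOK.leaf {L : Lf} {l : List ℕ} (h : leafOK C L l r0 r1 r2 r3 = true) :
    ConeOK C r0 r1 r2 r3 := fun v0 v1 v2 v3 p0 p1 p2 p3 => ⟨L, fun e he => by
  obtain ⟨h1, h2⟩ := an_iff.1 h
  obtain ⟨h1, h3⟩ := an_iff.1 h1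
  exact sgs_ok p0 p1 p2 p3 l (an_iff.1 h1).1 (an_iff.1 h1).2 (an_iff.1 h3).1 (an_iff.1 h3).2 h2
    (by simpa [c4] using he)⟩

theorem ConeOK.rot (h : ConeOK C r1 r2 r3 r0) : ConeOK C r0 r1 r2 r3 := by
  intro v0 v1 v2 v3 p0 p1 p2 p3
  have e : ∀ a b c d, c4 v0 v1 v2 v3 a b c d = c4 v1 v2 v3 v0 b c d a := fun a b c d => by
    unfold c4; ring
  simp only [e]
  exact h _ _ _ _ p1 p2 p3 p0

theorem ConeOK.swp (h : ConeOK C r0 r2 r1 r3) : ConeOK C r0 r1 r2 r3 := by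
  intro v0 v1 v2 v3 p0 p1 p2 p3
  have e : ∀ a b c d, c4 v0 v1 v2 v3 a b c d = c4 v0 v2 v1 v3 a c b d := fun a b c d => by
    unfold c4; ring
  simp only [e]
  exact h _ _ _ _ p0 p2 p1 p3

theorem ConeOK.split (a b : ℕ) {x : Ray} (hx : cmb (Nat.succ a) (Nat.succ b) r0 r1 = x)
    (h : ConeOK C x r1 r2 r3) (h' : ConeOK C r0 x r2 r3) : ConeOK C r0 r1 r2 r3 := by
  intro v0 v1 v2 v3 p0 p1 p2 p3
  subst hx
  have ha : (0 : ℚ) < (Nat.succ a : ℕ) := by exact_mod_cast Nat.succ_pos a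
  have hb : (0 : ℚ) < (Nat.succ b : ℕ) := by exact_mod_cast Nat.succ_pos b
  generalize Nat.succ a = α at *
  generalize Nat.succ b = β at *
  rcases le_total (v0 / α) (v1 / β) with h1 | h1
  · have e : ∀ y z c d, c4 v0 v1 v2 v3 y z c d = c4 (v0 / α) (β * (v1 / β - v0 / α)) v2 v3
        (Nat.add (Nat.mul α y) (Nat.mul β z)) z c d := fun y z c d => by
      unfold c4; rw [cast_ad, cast_mu, cast_mu]; field_simp; ring
    simp only [e]
    exact h _ _ _ _ (div_nonneg p0 ha.le) (mul_nonneg hb.le (sub_nonneg.2 h1)) p2 p3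
  · have e : ∀ y z c d, c4 v0 v1 v2 v3 y z c d = c4 (α * (v0 / α - v1 / β)) (v1 / β) v2 v3
        y (Nat.add (Nat.mul α y) (Nat.mul β z)) c d := fun y z c d => by
      unfold c4; rw [cast_ad, cast_mu, cast_mu]; field_simp; ring
    simp only [e]
    exact h' _ _ _ _ (mul_nonneg ha.le (sub_nonneg.2 h1)) (div_nonneg p1 hb.le) p2 p3

theorem chk_ok {T : Tr} (h : chk C T r0 r1 r2 r3 = true) : ConeOK C r0 r1 r2 r3 := by
  induction T generalizing r0 r1 r2 r3 with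
  | f n l => exact ConeOK.leaf h
  | n a b x y ih ih' => exact ConeOK.split a b rfl (ih (an_iff.1 h).1) (ih' (an_iff.1 h).2)
  | r x ih => exact (ih h).rot
  | s x ih => exact (ih h).swp

theorem gd_of_roots
    (h : ConeOK C ⟨1, 0, 0, 0, 0⟩ ⟨0, 1, 0, 0, 1⟩ ⟨0, 0, 1, 0, 1⟩ ⟨0, 1, 0, 1, 0⟩)
    (h' : ConeOK C ⟨1, 0, 0, 0, 0⟩ ⟨0, 0, 1, 0, 1⟩ ⟨0, 1, 0, 1, 0⟩ ⟨0, 0, 1, 1, 0⟩)
    {a d l t : ℚ} (ha : 0 ≤ a) (hd : 0 ≤ d) (hl : 0 ≤ l) (ht : 0 ≤ t) (hs : t ≤ d + l) :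
    Gd C a d l t (d + l - t) := by
  rcases le_total t d with h1 | h1
  · have := h a (d - t) l t ha (by linarith) hl ht
    convert this using 1 <;> simp [c4]; ring
  · have := h' a (d + l - t) d (t - d) ha (by linarith) hd (by linarith)
    convert this using 1 <;> simp [c4]

end Vale.Agent.P334
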