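import Vale.Agent.P334.Step1

/-! One step does not increase the potential. -/

namespace Vale.Agent.P334

open Finset

theorem psiR_eq (D : Mx) (y : List ℚ) (M : ℕ) (s : St) (j : ℕ) (ρ : ℚ) :
    psiR D y M s j ρ = psiV (range D.length) (xs D y M s j ρ) (dd D j) (dS D s.2 j) := rfl

theorem psiV_congr {s : Finset ℕ} {x x' d : ℕ → ℚ} (h : ∀ i ∈ s, x i = x' i) (t : ℚ) :
    psiV s x d t = psiV s x' d t := by
  unfold psiV
  rw [sum_congr rfl h, sum_congr rfl fun i hi => congrArg (· * d i) (h i hi)]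

theorem psiC_mem (D : Mx) (y : List ℚ) (M : ℕ) (s : St) (j : ℕ) :
    ∃ ρ, psiC D y M s j = psiR D y M s j ρ := by
  obtain ⟨ρ, -, e⟩ := List.mem_map.1 (lmin_mem
    (l := (-1 :: (List.range D.length).map (dd D j)).map (psiR D y M s j)) (by simp))
  exact ⟨ρ, e.symm⟩

theorem psiC_le {D : Mx} {J F : List ℕ} (h : Ok D J F) (y : List ℚ) (M : ℕ) (s : St) {j : ℕ}
    (hj : j < D.length) (ρ : ℚ) : psiC D y M s j ≤ psiR D y M s j ρ := by
  have key : ∀ ρ' ∈ -1 :: (List.range D.length).map (dd D j),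
      (∀ i < D.length, dd D j i ≤ ρ' ↔ dd D j i ≤ ρ) → psiC D y M s j ≤ psiR D y M s j ρ := by
    intro ρ' h1 h2
    refine (lmin_le (List.mem_map_of_mem h1)).trans (le_of_eq ?_)
    rw [psiR_eq, psiR_eq]
    refine psiV_congr (fun i hi => ?_) _
    unfold xs
    simp only [h2 i (mem_range.1 hi)]
  by_cases h0 : ∃ i < D.length, dd D j i ≤ ρ
  · obtain ⟨i₀, h1, h2⟩ := h0
    obtain ⟨i, hi, hmax⟩ := ((range D.length).filter fun i => dd D j i ≤ ρ).exists_max_image
      (dd D j) ⟨i₀, by simp [h1, h2]⟩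
    simp only [mem_filter, mem_range] at hi hmax
    exact key (dd D j i) (List.mem_cons_of_mem _ (List.mem_map_of_mem (List.mem_range.2 hi.1)))
      fun l hl => ⟨fun h3 => h3.trans hi.2, fun h3 => hmax l ⟨hl, h3⟩⟩
  · refine key (-1) (by simp) fun l hl => ⟨fun h3 => ?_, fun h3 => absurd ⟨l, hl, h3⟩ h0⟩
    linarith [h.nonneg hj hl]

theorem psiV_drop {s : Finset ℕ} {x x' d : ℕ → ℚ} {t : ℚ} (h0 : ∀ i ∈ s, 0 ≤ x' i)
    (h1 : ∀ i ∈ s, x' i ≤ x i) (hm : ∑ i ∈ s, x i ≤ 1) (hd : ∀ i ∈ s, 0 ≤ d i) (ht : 0 ≤ t) :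
    psiV s x' d t ≤ psiV s x d t + ∑ i ∈ s, (x i - x' i) * (3 / 2 * (t - d i)) := by
  have a0 : 0 ≤ ∑ i ∈ s, x' i * d i := sum_nonneg fun i hi => mul_nonneg (h0 i hi) (hd i hi)
  have a1 : ∑ i ∈ s, x' i * d i ≤ ∑ i ∈ s, x i * d i :=
    sum_le_sum fun i hi => mul_le_mul_of_nonneg_right (h1 i hi) (hd i hi)
  have m0 : 0 ≤ ∑ i ∈ s, x' i := sum_nonneg h0
  have m1 : ∑ i ∈ s, x' i ≤ ∑ i ∈ s, x i := sum_le_sum h1
  have e : ∑ i ∈ s, (x i - x' i) * (3 / 2 * (t - d i)) =
      3 / 2 * (t * (∑ i ∈ s, x i - ∑ i ∈ s, x' i) - (∑ i ∈ s, x i * d i - ∑ i ∈ s, x' i * d i)) := by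
    simp only [mul_sub, mul_sum, ← sum_sub_distrib]
    exact sum_congr rfl fun i _ => by ring
  rw [e]
  unfold psiV psi
  generalize ∑ i ∈ s, x' i * d i = a' at *
  generalize ∑ i ∈ s, x i * d i = a at *
  generalize ∑ i ∈ s, x' i = m' at *
  generalize ∑ i ∈ s, x i = m at *
  nlinarith [mul_nonneg (sub_nonneg.2 m1) a0, mul_nonneg (m0.trans m1) (sub_nonneg.2 a1),
    mul_nonneg (mul_nonneg (sub_nonneg.2 m1) ht) (show 0 ≤ 2 - m - m' by linarith),
    mul_nonneg (sub_nonneg.2 m1) ht]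

variable {D : Mx} {J F : List ℕ} {r : ℚ} {y : List ℚ} {M : ℕ} {s : St}

/-- The factor of a share. -/
def xf (D : Mx) (y : List ℚ) (j : ℕ) (ρ : ℚ) (i : ℕ) : ℚ := if dd D j i ≤ ρ then xi D y j i else 0

theorem xs_eq (D : Mx) (y : List ℚ) (M : ℕ) (s : St) (j : ℕ) (ρ : ℚ) (i : ℕ) :
    xs D y M s j ρ i = xf D y j ρ i * yq M s i := by
  unfold xs xf; split_ifs <;> simp

theorem Ctx.xf0 (H : Ctx D J F r y M s) (j : ℕ) (ρ : ℚ) (i : ℕ) : 0 ≤ xf D y j ρ i := by
  unfold xf; split_ifs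
  · exact xi_nonneg H.y1 j i
  · exact le_rfl

theorem Ctx.xf_le (H : Ctx D J F r y M s) (j : ℕ) (ρ : ℚ) (i : ℕ) : xf D y j ρ i ≤ xi D y j i := by
  unfold xf; split_ifs
  · exact le_rfl
  · exact xi_nonneg H.y1 j i

theorem Ctx.xf1 (H : Ctx D J F r y M s) (j : ℕ) (ρ : ℚ) (i : ℕ) : xf D y j ρ i ≤ 1 :=
  (H.xf_le j ρ i).trans (xi_le_one H.y1 j i)

theorem Ctx.xs0 (H : Ctx D J F r y M s) (j : ℕ) (ρ : ℚ) (i : ℕ) : 0 ≤ xs D y M s j ρ i := by
  rw [xs_eq]; exact mul_nonneg (H.xf0 j ρ i) (yq_nonneg M s i)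

theorem Ctx.xs_le (H : Ctx D J F r y M s) (j : ℕ) (ρ : ℚ) (i : ℕ) :
    xs D y M s j ρ i ≤ yq M s i := by
  rw [xs_eq]; exact mul_le_of_le_one_left (yq_nonneg M s i) (H.xf1 j ρ i)

theorem Ctx.xs_sum (H : Ctx D J F r y M s) (j : ℕ) (ρ : ℚ) :
    ∑ i ∈ range D.length, xs D y M s j ρ i ≤ 1 := by
  rw [← sum_xi H.y1 j]
  refine sum_le_sum fun i _ => ?_
  rw [xs_eq]
  exact mul_le_mul (H.xf_le j ρ i) (H.yq_le i) (yq_nonneg M s i) (xi_nonneg H.y1 j i)

theorem Ctx.dS0 (H : Ctx D J F r y M s) {j : ℕ} (hj : j < D.length) : 0 ≤ dS D s.2 j :=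
  H.ok.dS_nonneg H.good.sol.1 H.good.sol.2 hj

/-- After an opening, the potential is bounded through any subfamily of the scaled shares. -/
theorem Ctx.psi_opn (H : Ctx D J F r y M s) {j l : ℕ} (hj : j < D.length) (hl : l < D.length)
    (ρ ρ' : ℚ) (P : ℕ → Prop) [DecidablePred P]
    (hP : ∀ i < D.length, dd D j i ≤ ρ' ↔ dd D j i ≤ ρ ∧ P i) :
    psiC D y M (opn D M s l) j - 6 * (D.length : ℚ) ^ 2 * r / M ≤
      psiV (range D.length) (fun i => if P i then
        xs D y M s j ρ i * (1 - qq D M s l * hk D M s i l) else 0) (dd D j)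
        (min (dS D s.2 j) (dd D j l)) := by
  have hM : (0 : ℚ) < M := by exact_mod_cast H.M0
  have hr := H.bdd.1
  have τ0 : 0 ≤ min (dS D s.2 j) (dd D j l) := le_min (H.dS0 hj) (H.ok.nonneg hj hl)
  have τ1 : min (dS D s.2 j) (dd D j l) ≤ dd D j l := min_le_right _ _
  have τ2 := τ1.trans (H.bdd.2 j hj l hl)
  have e0 : dS D (opn D M s l).2 j = min (dS D s.2 j) (dd D j l) := dS_cons D H.good.sol.1 l j
  have e1 : ∀ i ∈ range D.length, (if P i then
      xs D y M s j ρ i * (1 - qq D M s l * hk D M s i l) else 0) =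
      xf D y j ρ' i * (yq M s i * (1 - qq D M s l * hk D M s i l)) := by
    intro i hi
    have := hP i (mem_range.1 hi)
    rw [xs_eq]
    unfold xf
    by_cases h1 : P i <;> by_cases h2 : dd D j i ≤ ρ <;> simp [h1, h2, this, mul_assoc]
  have up : ∀ i, yq M (opn D M s l) i ≤ yq M s i * (1 - qq D M s l * hk D M s i l) := by
    intro i
    unfold yq
    rw [div_mul_eq_mul_div]
    exact div_le_div_of_nonneg_right (opn_up D M s l i) hM.le
  have low : ∀ i, i ≠ l →
      yq M s i * (1 - qq D M s l * hk D M s i l) - yq M (opn D M s l) i ≤ 1 / M := by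
    intro i hi
    unfold yq
    rw [div_mul_eq_mul_div, ← sub_div]
    exact div_le_div_of_nonneg_right (by linarith [opn_low D M s hi]) hM.le
  rw [psiV_congr e1, sub_le_iff_le_add]
  refine (psiC_le H.ok y M _ hj ρ').trans ?_
  rw [psiR_eq, e0, psiV_congr fun i _ => xs_eq D y M _ j ρ' i]
  refine (psiV_drop (fun i _ => mul_nonneg (H.xf0 j ρ' i) (yq_nonneg M _ i))
    (fun i _ => mul_le_mul_of_nonneg_left (up i) (H.xf0 j ρ' i))
    (le_trans (sum_le_sum fun i _ => ?_) (H.xs_sum j ρ'))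
    (fun i hi => H.ok.nonneg hj (mem_range.1 hi)) τ0).trans (add_le_add_right ?_ _)
  · rw [xs_eq]
    refine mul_le_mul_of_nonneg_left (mul_le_of_le_one_right (yq_nonneg M s i) ?_) (H.xf0 j ρ' i)
    linarith [mul_nonneg (qq_pos D M s l).le (hk_nonneg D M s i l)]
  · have e : 6 * (D.length : ℚ) ^ 2 * r / M = ∑ _i ∈ range D.length, 1 / M * (6 * D.length * r) := by
      rw [sum_const, card_range, nsmul_eq_mul]; ring
    rw [e]
    refine sum_le_sum fun i hi => ?_
    have hd := H.ok.nonneg hj (mem_range.1 hi)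
    have b0 : 0 ≤ (D.length : ℚ) * r := by positivity
    have b1 := mul_nonneg (H.xf0 j ρ' i) (sub_nonneg.2 (up i))
    rw [← mul_sub]
    by_cases hi' : i = l
    · subst hi'
      exact le_trans (mul_nonpos_of_nonneg_of_nonpos b1 (by linarith)) (by positivity)
    · have b2 := (mul_le_of_le_one_left (sub_nonneg.2 (up i)) (H.xf1 j ρ' i)).trans (low i hi')
      exact le_trans (mul_le_mul_of_nonneg_left (show _ ≤ 6 * D.length * r by linarith) b1)
        (mul_le_mul_of_nonneg_right b2 (by linarith))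

theorem Ctx.local (H : Ctx D J F r y M s) {j : ℕ} (hj : j < D.length) (ρ : ℚ) :
    Local (range D.length) (xs D y M s j ρ) (yq M s) (dd D j) (fun i => lam (kl D M s i))
      (uk D M s) (qq D M s) (omg D M s)
      (fun l => psiC D y M (opn D M s l) j - 6 * (D.length : ℚ) ^ 2 * r / M) (hk D M s)
      (dS D s.2 j) where
  x0 i _ := H.xs0 j ρ i
  xy i _ := H.xs_le j ρ i
  m1 := H.xs_sum j ρ
  d0 i hi := H.ok.nonneg hj (mem_range.1 hi)
  t0 := H.dS0 hj
  lm0 i hi := H.lam0 (mem_range.1 hi)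
  h0 i _ l _ := hk_nonneg D M s i l
  h1 i _ l _ := hk_le_one D M s i l
  u0 i _ := uk_nonneg D M s i
  tot i _ := kl_tot D M s i
  k1 i hi l hl h := by
    have h1 := H.ok.tri j hj i (mem_range.1 hi) l (mem_range.1 hl)
    have h2 := H.ok.nonneg (mem_range.1 hi) (mem_range.1 hl)
    by_contra hc
    unfold hk at h
    rw [bet_of_gt (by linarith), bet_of_gt (by linarith)] at h
    norm_num at h
  k2 i hi l hl h := by
    have h1 := H.ok.tri j hj i (mem_range.1 hi) l (mem_range.1 hl)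
    have h2 := bet_le_one (kl_mass D M s i) (dd D i l)
    by_contra hc
    unfold hk at h
    rw [bet_of_gt (e := 11 / 10 * dd D i l) (by linarith)] at h
    linarith
  k3 i hi l hl h := by
    have h1 := H.ok.tri i (mem_range.1 hi) j hj l (mem_range.1 hl)
    have h2 := bet_nonneg (kl_mass D M s i) (11 / 10 * dd D i l)
    rw [H.ok.symm i (mem_range.1 hi) j hj] at h1
    by_contra hc
    unfold hk at h
    rw [bet_of_lt (e := dd D i l) (by linarith)] at h
    linarith
  k4 i hi l hl h := by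
    have h1 := H.ok.tri i (mem_range.1 hi) j hj l (mem_range.1 hl)
    have h2 := H.ok.nonneg (mem_range.1 hi) (mem_range.1 hl)
    rw [H.ok.symm i (mem_range.1 hi) j hj] at h1
    by_contra hc
    unfold hk at h
    rw [bet_of_lt (by linarith), bet_of_lt (by linarith)] at h
    norm_num at h
  k5 i hi := by
    have h1 := H.ok.dS_tri H.good.sol.1 H.good.sol.2 hj (mem_range.1 hi)
    have h2 := lam_kl_le D M s i
    rw [H.ok.symm i (mem_range.1 hi) j hj] at h1
    linarith
  k6 i hi h := by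
    have h1 := H.ok.dS_tri H.good.sol.1 H.good.sol.2 (mem_range.1 hi) hj
    have h2 := le_lam_of_bet_pos h
    linarith
  q0 l _ := qq_pos D M s l
  q1 l _ := qq_le_one D M s l
  om0 l _ := by
    have h1 : ∑ i ∈ range D.length, xs D y M s j ρ i * hk D M s i l ≤ inn D M s l :=
      sum_le_sum fun i _ => mul_le_mul_of_nonneg_right (H.xs_le j ρ i) (hk_nonneg D M s i l)
    have h2 : ∑ i ∈ range D.length, xs D y M s j ρ i * hk D M s i l ≤ 1 :=
      le_trans (sum_le_sum fun i _ => mul_le_of_le_one_right (H.xs0 j ρ i) (hk_le_one D M s i l))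
        (H.xs_sum j ρ)
    unfold omg jj
    rcases qq_cases D M s l with ⟨h3, -⟩ | ⟨h3, -⟩ <;> rw [h3] <;> linarith
  om1 l _ := by
    have := le_jj D M s l
    unfold omg; linarith
  vb l hl _ := by
    simpa using H.psi_opn hj (mem_range.1 hl) ρ ρ (fun _ => True) (by simp)
  va l hl _ := H.psi_opn hj (mem_range.1 hl) ρ (min ρ (min (dS D s.2 j) (dd D j l) / 2))
    (fun i => 2 * dd D j i ≤ min (dS D s.2 j) (dd D j l)) fun i _ => by
      rw [le_min_iff, le_div_iff₀' (by norm_num)]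

theorem Ctx.psi_dec (H : Ctx D J F r y M s) {j l : ℕ} (hj : j < D.length) (hl : l < D.length)
    (ρ : ℚ) : (s.1.getD l 0 : ℚ) * (psiC D y M (dec s l) j - psiR D y M s j ρ) ≤
      xs D y M s j ρ l * dcy (∑ i ∈ range D.length, xs D y M s j ρ i)
        (∑ i ∈ range D.length, xs D y M s j ρ i * dd D j i) (dS D s.2 j) (dd D j l) +
      s.1.getD l 0 * (D.length * r / M ^ 2) := by
  have hM : (0 : ℚ) < M := by exact_mod_cast H.M0
  rcases Nat.eq_zero_or_pos (s.1.getD l 0) with h0 | h0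
  · rw [xs_eq]; unfold yq; rw [h0]; simp
  have e0 : ∀ i, xs D y M (dec s l) j ρ i =
      xs D y M s j ρ i - if i = l then xf D y j ρ l / M else 0 := by
    intro i
    rw [xs_eq, xs_eq]
    unfold yq
    rw [dec_getD]
    split_ifs with h
    · subst h
      rw [Nat.cast_sub h0]; push_cast; ring
    · ring
  have e1 : ∑ i ∈ range D.length, xs D y M (dec s l) j ρ i =
      ∑ i ∈ range D.length, xs D y M s j ρ i - xf D y j ρ l / M := by
    simp [e0, hl]
  have e2 : ∑ i ∈ range D.length, xs D y M (dec s l) j ρ i * dd D j i =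
      ∑ i ∈ range D.length, xs D y M s j ρ i * dd D j i - xf D y j ρ l / M * dd D j l := by
    simp [e0, hl, sub_mul]
  have e3 : xs D y M s j ρ l = s.1.getD l 0 * (xf D y j ρ l / M) := by
    rw [xs_eq]; unfold yq; ring
  rw [e3, mul_assoc, ← mul_add]
  refine mul_le_mul_of_nonneg_left ?_ (by positivity)
  have h1 := psiC_le H.ok y M (dec s l) hj ρ
  unfold psiR at h1 ⊢
  rw [e1, e2, show (dec s l).2 = s.2 from rfl] at h1
  have d0 := H.ok.nonneg hj hl
  have d1 := H.bdd.2 j hj l hl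
  have t0 := H.dS0 hj
  have c0 : 0 ≤ xf D y j ρ l / M := div_nonneg (H.xf0 j ρ l) hM.le
  have c1 : xf D y j ρ l / M ≤ 1 / M := div_le_div_of_nonneg_right (H.xf1 j ρ l) hM.le
  have c2 : (xf D y j ρ l / M) ^ 2 * dd D j l ≤ (1 / M) ^ 2 * (3 * D.length * r) :=
    mul_le_mul (pow_le_pow_left₀ c0 c1 2) d1 d0 (by positivity)
  have c3 : (1 / (M : ℚ)) ^ 2 * (3 * D.length * r) = 3 * (D.length * r / M ^ 2) := by ring
  have c4 : 0 ≤ (D.length : ℚ) * r / M ^ 2 := by have := H.bdd.1; positivity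
  rw [c3] at c2
  unfold psi at h1 ⊢
  unfold dcy
  nlinarith [mul_nonneg (sq_nonneg (xf D y j ρ l / M)) t0]

/-- The rate of an opening. -/
def rt (D : Mx) (M : ℕ) (s : St) (l : ℕ) : ℚ := omg D M s l * yq M s l / qq D M s l

/-- The rate of a decay. -/
def rd (D : Mx) (M : ℕ) (s : St) (l : ℕ) : ℚ := uk D M s l * s.1.getD l 0

theorem rt_nonneg (D : Mx) (M : ℕ) (s : St) (l : ℕ) : 0 ≤ rt D M s l :=
  div_nonneg (mul_nonneg (omg_pos D M s l).le (yq_nonneg M s l)) (qq_pos D M s l).le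

theorem rd_nonneg (D : Mx) (M : ℕ) (s : St) (l : ℕ) : 0 ≤ rd D M s l :=
  mul_nonneg (uk_nonneg D M s l) (by positivity)

theorem Ctx.avg_client (hc : ClientStmt) (H : Ctx D J F r y M s) {j : ℕ} (hj : j < D.length) :
    ∑ l ∈ range D.length, (rt D M s l * (psiC D y M (opn D M s l) j - psiC D y M s j) +
      rd D M s l * (psiC D y M (dec s l) j - psiC D y M s j)) ≤
    ∑ l ∈ range D.length, (rt D M s l * (6 * (D.length : ℚ) ^ 2 * r / M) +
      rd D M s l * (D.length * r / M ^ 2)) := by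
  obtain ⟨ρ, e⟩ := psiC_mem D y M s j
  have h1 := hc _ _ _ _ _ _ _ _ _ _ _ (H.local hj ρ)
  rw [← psiR_eq, ← sum_add_distrib] at h1
  rw [e, ← sub_nonpos, ← sum_sub_distrib]
  refine le_trans (sum_le_sum fun l hl => ?_) h1
  have h2 := mul_le_mul_of_nonneg_left (H.psi_dec hj (mem_range.1 hl) ρ) (uk_nonneg D M s l)
  unfold rt rd
  linarith

theorem Ctx.avg_clients (hc : ClientStmt) (H : Ctx D J F r y M s) (L : List ℕ)
    (hL : ∀ j ∈ L, j < D.length) :
    ∑ l ∈ range D.length,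
      (rt D M s l * ((L.map (psiC D y M (opn D M s l))).sum - (L.map (psiC D y M s)).sum) +
      rd D M s l * ((L.map (psiC D y M (dec s l))).sum - (L.map (psiC D y M s)).sum)) ≤
    L.length * ∑ l ∈ range D.length, (rt D M s l * (6 * (D.length : ℚ) ^ 2 * r / M) +
      rd D M s l * (D.length * r / M ^ 2)) := by
  induction L with
  | nil => simp
  | cons j L ih =>
    have h1 := add_le_add (H.avg_client hc (hL j (by simp))) (ih fun i hi => hL i (by simp [hi]))
    rw [← sum_add_distrib] at h1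
    refine le_trans (le_of_eq (sum_congr rfl fun l _ => ?_)) (h1.trans (le_of_eq ?_))
    · simp only [List.map_cons, List.sum_cons]; ring
    · push_cast [List.length_cons]; ring

theorem Ctx.avg_led {U : List ℕ} (H : Ctx D J F r y U.length s) (K : List ℕ)
    (hK : s.1.sum ≤ K.length) :
    ∑ l ∈ range D.length, (rt D U.length s l * (led U K (opn D U.length s l) - led U K s) +
      rd D U.length s l * (led U K (dec s l) - led U K s)) ≤ 0 := by
  have hM : (0 : ℚ) < U.length := by exact_mod_cast H.M0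
  have h0 := led_nonneg0 U K s H.M0
  have e : ∑ l ∈ range D.length, (yq U.length s l * (1 - inn D U.length s l) -
      uk D U.length s l * yq U.length s l) = 0 := by
    have e1 : ∑ l ∈ range D.length, yq U.length s l * inn D U.length s l =
        ∑ i ∈ range D.length, yq U.length s i * (1 - uk D U.length s i) := by
      unfold inn
      simp only [mul_sum]
      rw [sum_comm]
      refine sum_congr rfl fun i _ => ?_
      rw [← kl_tot D U.length s i, add_sub_cancel_right, mul_sum]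
      exact sum_congr rfl fun l _ => by ring
    simp only [mul_sub, sum_sub_distrib, mul_one] at e1 ⊢
    rw [e1, sum_congr rfl fun i _ => mul_comm (uk D U.length s i) _]
    ring
  rw [← mul_zero (led U K s / (2 * 10 ^ 11)), ← e, mul_sum]
  refine sum_le_sum fun l _ => ?_
  rcases Nat.eq_zero_or_pos (s.1.getD l 0) with h1 | h1
  · unfold rt rd yq; rw [h1]; simp
  have h2 := mul_le_mul_of_nonneg_left (H.led_opn K h1 hK) (rt_nonneg D U.length s l)
  have h3 := mul_le_mul_of_nonneg_left (omg_jj D U.length s l)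
    (mul_nonneg h0 (yq_nonneg U.length s l))
  have e1 : rd D U.length s l * (led U K (dec s l) - led U K s) =
      -(led U K s / (2 * 10 ^ 11) * (uk D U.length s l * yq U.length s l)) := by
    rw [led_dec U K h1 hK]; unfold rd yq; field_simp; ring
  have e2 : led U K s * yq U.length s l * (omg D U.length s l / qq D U.length s l *
      (jj D U.length s l + jj D U.length s l ^ 2 / (2 * 10 ^ 11))) = rt D U.length s l *
      led U K s * (jj D U.length s l + jj D U.length s l ^ 2 / (2 * 10 ^ 11)) := by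
    unfold rt; ring
  rw [e1]
  rw [e2] at h3
  linarith

theorem Ctx.avg_phi (hc : ClientStmt) {U : List ℕ} (H : Ctx D J F r y U.length s) (K : List ℕ)
    {μ e : ℚ} (hμ : 0 ≤ μ) (he : 6 * (D.length : ℚ) ^ 3 * r ≤ e * (U.length : ℚ) ^ 2)
    (hK : s.1.sum ≤ K.length) :
    ∑ l ∈ range D.length,
      (rt D U.length s l * (phi D J y U K μ e (opn D U.length s l) - phi D J y U K μ e s) +
      rd D U.length s l * (phi D J y U K μ e (dec s l) - phi D J y U K μ e s)) ≤ 0 := by
  have hM : (0 : ℚ) < U.length := by exact_mod_cast H.M0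
  have hr := H.bdd.1
  have hn : (1 : ℚ) ≤ D.length := by exact_mod_cast H.ok.pos_len
  have hJ : (J.length : ℚ) ≤ D.length := by exact_mod_cast H.ok.lenJ
  have e0 : 0 ≤ e := by
    by_contra h
    have : e * (U.length : ℚ) ^ 2 < 0 := mul_neg_of_neg_of_pos (by linarith) (by positivity)
    have : 0 < 6 * (D.length : ℚ) ^ 3 * r := by positivity
    linarith
  have b1 : J.length * (6 * (D.length : ℚ) ^ 2 * r / U.length) ≤ e * U.length := by
    rw [← mul_div_assoc, div_le_iff₀ hM]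
    nlinarith [mul_le_mul_of_nonneg_right hJ (show 0 ≤ 6 * (D.length : ℚ) ^ 2 * r by positivity)]
  have b2 : J.length * (D.length * r / (U.length : ℚ) ^ 2) ≤ e := by
    rw [← mul_div_assoc, div_le_iff₀ (by positivity)]
    have c1 := mul_le_mul_of_nonneg_right hJ (show 0 ≤ (D.length : ℚ) * r by positivity)
    have c2 := mul_le_mul_of_nonneg_right hn (show 0 ≤ (D.length : ℚ) ^ 2 * r by positivity)
    have c3 : 0 ≤ (D.length : ℚ) ^ 3 * r := by positivity
    nlinarith
  have h1 := H.avg_clients hc J H.ok.hJ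
  have h2 := mul_le_mul_of_nonneg_left (H.avg_led K hK) hμ
  rw [mul_sum, ← sub_nonpos, ← sum_sub_distrib] at h1
  rw [mul_sum, mul_zero] at h2
  have h3 := add_nonpos h1 h2
  rw [← sum_add_distrib] at h3
  refine le_trans (sum_le_sum fun l _ => ?_) h3
  rcases Nat.eq_zero_or_pos (s.1.getD l 0) with h4 | h4
  · unfold rt rd yq; rw [h4]; simp
  have c1 : (res U.length (opn D U.length s l) : ℚ) + U.length ≤ res U.length s := by
    exact_mod_cast res_opn D U.length h4
  have c2 : (res U.length (dec s l) : ℚ) + 1 ≤ res U.length s := by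
    exact_mod_cast res_dec U.length h4
  have c3 := mul_le_mul_of_nonneg_left (add_le_add b1 (mul_le_mul_of_nonneg_left c1 e0))
    (rt_nonneg D U.length s l)
  have c4 := mul_le_mul_of_nonneg_left (add_le_add b2 (mul_le_mul_of_nonneg_left c2 e0))
    (rd_nonneg D U.length s l)
  unfold phi
  linarith

theorem mem_moves {M : ℕ} {s s' : St} : s' ∈ moves D M s ↔
    ∃ l < D.length, 0 < s.1.getD l 0 ∧ (s' = opn D M s l ∨ s' = dec s l) := by
  simp [moves, and_assoc]

theorem step_stmt (hc : ClientStmt) : StepStmt := by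
  intro D J F r y U K μ e s ok bdd y0 yF y1 M0 hμ he good hK
  have H : Ctx D J F r y U.length s := ⟨ok, bdd, y0, yF, y1, M0, good⟩
  unfold step
  split_ifs with h
  · refine ⟨good, ?_, le_rfl⟩
    have : s.1.sum = 0 := by
      rw [sum_eq_range]
      refine sum_eq_zero fun l hl => ?_
      by_contra h1
      have : dec s l ∈ moves D U.length s :=
        mem_moves.2 ⟨l, good.len ▸ mem_range.1 hl, by omega, Or.inr rfl⟩
      rw [h] at this
      simp at this
    omega
  · obtain ⟨l, hl, h1, h2⟩ := mem_moves.1 (amin_mem (phi D J y U K μ e) h)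
    refine ⟨?_, ?_, ?_⟩
    · rcases h2 with h2 | h2 <;> rw [h2]
      · exact H.good_opn h1
      · exact H.good_dec l
    · rcases h2 with h2 | h2 <;> rw [h2]
      · have := sum_opn D U.length h1; omega
      · have := sum_dec h1; omega
    · by_contra h3
      have pos : ∀ s' ∈ moves D U.length s, 0 < phi D J y U K μ e s' - phi D J y U K μ e s :=
        fun s' hs' => by linarith [amin_le (phi D J y U K μ e) hs']
      refine absurd (H.avg_phi hc K hμ he hK) (not_le.2 (sum_pos' (fun i hi => ?_)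
        ⟨l, mem_range.2 hl, ?_⟩))
      · rcases Nat.eq_zero_or_pos (s.1.getD i 0) with h4 | h4
        · unfold rt rd yq; rw [h4]; simp
        · exact add_nonneg (mul_nonneg (rt_nonneg _ _ _ _)
            (pos _ (mem_moves.2 ⟨i, mem_range.1 hi, h4, Or.inl rfl⟩)).le)
            (mul_nonneg (rd_nonneg _ _ _ _)
            (pos _ (mem_moves.2 ⟨i, mem_range.1 hi, h4, Or.inr rfl⟩)).le)
      · refine add_pos_of_pos_of_nonneg (mul_pos (div_pos (mul_pos (omg_pos _ _ _ _) ?_)
          (qq_pos _ _ _ _)) (pos _ (mem_moves.2 ⟨l, hl, h1, Or.inl rfl⟩)))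
          (mul_nonneg (rd_nonneg _ _ _ _) (pos _ (mem_moves.2 ⟨l, hl, h1, Or.inr rfl⟩)).le)
        exact div_pos (by exact_mod_cast h1) (by exact_mod_cast M0)

end Vale.Agent.P334
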