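import Vale.Agent.P334.Stmts

/-! The kernel of a state and the effect of the moves on the masses. -/

namespace Vale.Agent.P334

open Finset

/-- The standing hypotheses of a step. -/
structure Ctx (D : Mx) (J F : List ℕ) (r : ℚ) (y : List ℚ) (M : ℕ) (s : St) : Prop where
  ok : Ok D J F
  bdd : Bdd D r
  y0 : ∀ i, 0 ≤ y.getD i 0
  yF : ∀ i, i ∉ F → y.getD i 0 = 0
  y1 : 1 ≤ ∑ i ∈ range D.length, y.getD i 0
  M0 : 0 < M
  good : Good D F y M s

theorem yq_nonneg (M : ℕ) (s : St) (i : ℕ) : 0 ≤ yq M s i := by unfold yq; positivity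

theorem kl_sum (D : Mx) (M : ℕ) (s : St) (i : ℕ) (f : ℚ × ℚ → ℚ) :
    ((kl D M s i).map f).sum = ∑ l ∈ range D.length, f (dd D i l, yq M s l / 2) +
      ∑ l ∈ range D.length, f (11 / 10 * dd D i l, yq M s l / 2) +
      f (2000 / 2001 * dS D s.2 i, 1) := by
  simp only [kl, List.map_append, List.sum_append, List.map_map, sum_map_range]
  simp

theorem kl_mass (D : Mx) (M : ℕ) (s : St) (i : ℕ) : 1 ≤ ((kl D M s i).map Prod.snd).sum := by
  rw [kl_sum]
  have : 0 ≤ ∑ l ∈ range D.length, yq M s l / 2 :=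
    sum_nonneg fun l _ => by have := yq_nonneg M s l; linarith
  simp only
  linarith

theorem kl_tot (D : Mx) (M : ℕ) (s : St) (i : ℕ) :
    ∑ l ∈ range D.length, yq M s l * hk D M s i l + uk D M s i = 1 := by
  have h := sum_bet (kl_mass D M s i)
  rw [kl_sum] at h
  rw [← h, ← sum_add_distrib]
  simp only [one_mul]
  congr 1
  exact sum_congr rfl fun l _ => by unfold hk; ring

theorem hk_nonneg (D : Mx) (M : ℕ) (s : St) (i l : ℕ) : 0 ≤ hk D M s i l := by
  have h1 := bet_nonneg (kl_mass D M s i) (dd D i l)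
  have h2 := bet_nonneg (kl_mass D M s i) (11 / 10 * dd D i l)
  unfold hk; linarith

theorem hk_le_one (D : Mx) (M : ℕ) (s : St) (i l : ℕ) : hk D M s i l ≤ 1 := by
  have h1 := bet_le_one (kl_mass D M s i) (dd D i l)
  have h2 := bet_le_one (kl_mass D M s i) (11 / 10 * dd D i l)
  unfold hk; linarith

theorem uk_nonneg (D : Mx) (M : ℕ) (s : St) (i : ℕ) : 0 ≤ uk D M s i :=
  bet_nonneg (kl_mass D M s i) _

theorem lam_kl_le (D : Mx) (M : ℕ) (s : St) (i : ℕ) :
    lam (kl D M s i) ≤ 2000 / 2001 * dS D s.2 i := by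
  refine lam_le ?_
  rw [mle_eq, kl_sum]
  have h : ∀ (l : ℕ) (p : Prop) [Decidable p], 0 ≤ if p then yq M s l / 2 else 0 := by
    intro l p _
    have := yq_nonneg M s l
    split_ifs <;> linarith
  have h1 := sum_nonneg (s := range D.length) fun l _ =>
    h l (dd D i l ≤ 2000 / 2001 * dS D s.2 i)
  have h2 := sum_nonneg (s := range D.length) fun l _ =>
    h l (11 / 10 * dd D i l ≤ 2000 / 2001 * dS D s.2 i)
  simp only [le_refl, if_true]
  linarith

theorem inn_nonneg (D : Mx) (M : ℕ) (s : St) (l : ℕ) : 0 ≤ inn D M s l :=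
  sum_nonneg fun i _ => mul_nonneg (yq_nonneg M s i) (hk_nonneg D M s i l)

theorem qq_pos (D : Mx) (M : ℕ) (s : St) (l : ℕ) : 0 < qq D M s l := by
  unfold qq
  split_ifs with h
  · norm_num
  · exact div_pos (by norm_num) (by linarith)

theorem qq_le_one (D : Mx) (M : ℕ) (s : St) (l : ℕ) : qq D M s l ≤ 1 := by
  unfold qq
  split_ifs with h
  · exact le_rfl
  · exact (div_le_one (by linarith)).2 (by linarith)

theorem qq_cases (D : Mx) (M : ℕ) (s : St) (l : ℕ) :
    (qq D M s l = 1 ∧ inn D M s l ≤ 10 ^ 6) ∨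
      (qq D M s l * inn D M s l = 10 ^ 6 ∧ 10 ^ 6 < inn D M s l) := by
  unfold qq
  split_ifs with h
  · exact Or.inl ⟨rfl, h⟩
  · exact Or.inr ⟨div_mul_cancel₀ _ (by linarith), by linarith⟩

theorem qh_nonneg (D : Mx) (M : ℕ) (s : St) (i l : ℕ) : 0 ≤ 1 - qq D M s l * hk D M s i l := by
  have := mul_le_mul (qq_le_one D M s l) (hk_le_one D M s i l) (hk_nonneg D M s i l) zero_le_one
  linarith

/-- The imbalance of an opening. -/
def jj (D : Mx) (M : ℕ) (s : St) (l : ℕ) : ℚ := 1 - qq D M s l * inn D M s l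

/-- The bias of the rate of an opening. -/
def omg (D : Mx) (M : ℕ) (s : St) (l : ℕ) : ℚ := 1 - jj D M s l / 10 ^ 11

theorem jj_le (D : Mx) (M : ℕ) (s : St) (l : ℕ) : jj D M s l ≤ 1 := by
  have := mul_nonneg (qq_pos D M s l).le (inn_nonneg D M s l)
  unfold jj; linarith

theorem le_jj (D : Mx) (M : ℕ) (s : St) (l : ℕ) : 1 - 10 ^ 6 ≤ jj D M s l := by
  unfold jj
  rcases qq_cases D M s l with ⟨h1, h2⟩ | ⟨h1, -⟩
  · rw [h1]; linarith
  · linarith

theorem omg_pos (D : Mx) (M : ℕ) (s : St) (l : ℕ) : 0 < omg D M s l := by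
  have := jj_le D M s l
  unfold omg; linarith

theorem omg_jj (D : Mx) (M : ℕ) (s : St) (l : ℕ) :
    omg D M s l / qq D M s l * (jj D M s l + jj D M s l ^ 2 / (2 * 10 ^ 11)) ≤ 1 - inn D M s l := by
  have h0 := qq_pos D M s l
  rw [div_mul_eq_mul_div, div_le_iff₀ h0]
  unfold omg
  have h1 := le_jj D M s l
  rcases qq_cases D M s l with ⟨h2, h3⟩ | ⟨h2, h3⟩
  · have e : jj D M s l = 1 - inn D M s l := by unfold jj; rw [h2, one_mul]
    rw [h2, ← e]
    generalize jj D M s l = J at *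
    nlinarith [mul_nonneg (sq_nonneg J) (show 0 ≤ 1 + J / 10 ^ 11 by linarith)]
  · have e : jj D M s l = 1 - 10 ^ 6 := by unfold jj; rw [h2]
    rw [e]
    nlinarith

variable {D : Mx} {J F : List ℕ} {r : ℚ} {y : List ℚ} {M : ℕ} {s : St}

theorem Ctx.lam0 (H : Ctx D J F r y M s) {i : ℕ} (hi : i < D.length) : 0 ≤ lam (kl D M s i) := by
  obtain ⟨p, hp, e⟩ := lam_mem (kl_mass D M s i)
  rw [← e]
  simp only [kl, List.mem_append, List.mem_map, List.mem_range, List.mem_singleton] at hp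
  rcases hp with (⟨l, hl, rfl⟩ | ⟨l, hl, rfl⟩) | rfl
  · exact H.ok.nonneg hi hl
  · have := H.ok.nonneg hi hl
    simp only; linarith
  · have := H.ok.dS_nonneg H.good.sol.1 H.good.sol.2 hi
    simp only; linarith

theorem Ctx.yq_le (H : Ctx D J F r y M s) (i : ℕ) : yq M s i ≤ y.getD i 0 := by
  have h : (0 : ℚ) < M := by exact_mod_cast H.M0
  unfold yq
  rw [div_le_iff₀ h, mul_comm]
  exact H.good.le i

theorem Ctx.mem_F (H : Ctx D J F r y M s) {l : ℕ} (hl : 0 < s.1.getD l 0) : l ∈ F := by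
  by_contra h
  have h1 := H.good.le l
  rw [H.yF l h, mul_zero] at h1
  have h2 : (0 : ℚ) < s.1.getD l 0 := by exact_mod_cast hl
  linarith

theorem opn_getD (D : Mx) (M : ℕ) (s : St) (l i : ℕ) : (opn D M s l).1.getD i 0 =
    if i = l then 0 else
      min (s.1.getD i 0) ⌊(s.1.getD i 0 : ℚ) * (1 - qq D M s l * hk D M s i l)⌋₊ := by
  unfold opn
  rw [getD_map_range]
  split_ifs with h1 h2 h3
  · rfl
  · rfl
  · rfl
  · rw [List.getD_eq_default _ _ (by omega)]; simp

theorem dec_getD (s : St) (l i : ℕ) :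
    (dec s l).1.getD i 0 = if i = l then s.1.getD i 0 - 1 else s.1.getD i 0 := by
  unfold dec
  rw [getD_map_range]
  split_ifs with h1 h2 h3
  · rfl
  · rfl
  · rw [List.getD_eq_default _ _ (by omega)]
  · rw [List.getD_eq_default _ _ (by omega)]

theorem opn_le (D : Mx) (M : ℕ) (s : St) (l i : ℕ) : (opn D M s l).1.getD i 0 ≤ s.1.getD i 0 := by
  rw [opn_getD]; split_ifs
  · exact Nat.zero_le _
  · exact min_le_left _ _

theorem dec_le (s : St) (l i : ℕ) : (dec s l).1.getD i 0 ≤ s.1.getD i 0 := by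
  rw [dec_getD]; split_ifs <;> omega

theorem opn_up (D : Mx) (M : ℕ) (s : St) (l i : ℕ) :
    ((opn D M s l).1.getD i 0 : ℚ) ≤ s.1.getD i 0 * (1 - qq D M s l * hk D M s i l) := by
  have h0 : (0 : ℚ) ≤ s.1.getD i 0 * (1 - qq D M s l * hk D M s i l) :=
    mul_nonneg (by positivity) (qh_nonneg D M s i l)
  rw [opn_getD]; split_ifs
  · simpa using h0
  · exact le_trans (by exact_mod_cast min_le_right _ _) (Nat.floor_le h0)

theorem opn_low (D : Mx) (M : ℕ) (s : St) {l i : ℕ} (h : i ≠ l) :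
    s.1.getD i 0 * (1 - qq D M s l * hk D M s i l) - 1 ≤ ((opn D M s l).1.getD i 0 : ℚ) := by
  rw [opn_getD, if_neg h, Nat.cast_min]
  have h0 := Nat.lt_floor_add_one ((s.1.getD i 0 : ℚ) * (1 - qq D M s l * hk D M s i l))
  refine le_min ?_ (by linarith)
  have h1 : (0 : ℚ) ≤ s.1.getD i 0 * (qq D M s l * hk D M s i l) :=
    mul_nonneg (by positivity) (mul_nonneg (qq_pos D M s l).le (hk_nonneg D M s i l))
  linarith

theorem Ctx.good_opn (H : Ctx D J F r y M s) {l : ℕ} (hl : 0 < s.1.getD l 0) :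
    Good D F y M (opn D M s l) where
  len := by simp [opn, H.good.len]
  le i := le_trans (by exact_mod_cast opn_le D M s l i) (H.good.le i)
  sol := ⟨by simp [opn], fun i hi => by
    rcases List.mem_cons.1 hi with rfl | hi
    · exact H.mem_F hl
    · exact H.good.sol.2 i hi⟩

theorem Ctx.good_dec (H : Ctx D J F r y M s) (l : ℕ) : Good D F y M (dec s l) where
  len := by simp [dec, H.good.len]
  le i := le_trans (by exact_mod_cast dec_le s l i) (H.good.le i)
  sol := H.good.sol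

theorem sum_eq_range (L : List ℕ) : L.sum = ∑ i ∈ range L.length, L.getD i 0 := by
  induction L with
  | nil => simp
  | cons a L ih => rw [List.length_cons, sum_range_succ', List.sum_cons, ih]; simp [add_comm]

theorem count_eq_range (L : List ℕ) : (L.filter fun a => decide (0 < a)).length =
    ∑ i ∈ range L.length, if 0 < L.getD i 0 then 1 else 0 := by
  induction L with
  | nil => simp
  | cons a L ih =>
    rw [List.length_cons, sum_range_succ', List.filter_cons]
    simp only [List.getD_cons_succ, List.getD_cons_zero, ← ih]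
    by_cases h : 0 < a <;> simp [h]

theorem sum_lt_of {n l : ℕ} {f g : ℕ → ℕ} (hl : l < n) (h : ∀ i, f i ≤ g i) (h' : f l < g l) :
    ∑ i ∈ range n, f i + 1 ≤ ∑ i ∈ range n, g i :=
  sum_lt_sum (fun i _ => h i) ⟨l, mem_range.2 hl, h'⟩

theorem lt_of_pos {s : St} {l : ℕ} (hl : 0 < s.1.getD l 0) : l < s.1.length := by
  by_contra h
  rw [List.getD_eq_default _ _ (by omega)] at hl
  omega

theorem len_opn (D : Mx) (M : ℕ) (s : St) (l : ℕ) : (opn D M s l).1.length = s.1.length := by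
  simp [opn]

theorem len_dec (s : St) (l : ℕ) : (dec s l).1.length = s.1.length := by simp [dec]

theorem sum_opn (D : Mx) (M : ℕ) {s : St} {l : ℕ} (hl : 0 < s.1.getD l 0) :
    (opn D M s l).1.sum + 1 ≤ s.1.sum := by
  rw [sum_eq_range, sum_eq_range s.1, len_opn]
  exact sum_lt_of (lt_of_pos hl) (opn_le D M s l) (by rw [opn_getD, if_pos rfl]; exact hl)

theorem sum_dec {s : St} {l : ℕ} (hl : 0 < s.1.getD l 0) : (dec s l).1.sum + 1 = s.1.sum := by
  rw [sum_eq_range, sum_eq_range s.1, len_dec,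
    ← add_sum_erase _ _ (mem_range.2 (lt_of_pos hl)),
    ← add_sum_erase _ _ (mem_range.2 (lt_of_pos hl)), dec_getD, if_pos rfl,
    sum_congr rfl fun i hi => (dec_getD s l i).trans (if_neg (ne_of_mem_erase hi))]
  omega

theorem res_opn (D : Mx) (M : ℕ) {s : St} {l : ℕ} (hl : 0 < s.1.getD l 0) :
    res M (opn D M s l) + M ≤ res M s := by
  have h1 := sum_opn D M hl
  have h2 : ((opn D M s l).1.filter fun a => decide (0 < a)).length + 1 ≤
      (s.1.filter fun a => decide (0 < a)).length := by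
    rw [count_eq_range, count_eq_range s.1, len_opn]
    refine sum_lt_of (lt_of_pos hl) (fun i => ?_) (by rw [opn_getD, if_pos rfl, if_pos hl]; simp)
    have := opn_le D M s l i
    split_ifs <;> omega
  have h3 := Nat.mul_le_mul_left M h2
  unfold res
  rw [mul_add] at h3
  omega

theorem res_dec (M : ℕ) {s : St} {l : ℕ} (hl : 0 < s.1.getD l 0) :
    res M (dec s l) + 1 ≤ res M s := by
  have h1 := sum_dec hl
  have h2 : ((dec s l).1.filter fun a => decide (0 < a)).length ≤
      (s.1.filter fun a => decide (0 < a)).length := by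
    rw [count_eq_range, count_eq_range s.1, len_dec]
    refine sum_le_sum fun i _ => ?_
    have := dec_le s l i
    split_ifs <;> omega
  have h3 := Nat.mul_le_mul_left M h2
  unfold res
  omega

theorem Ctx.drop_opn (H : Ctx D J F r y M s) (l : ℕ) :
    ((opn D M s l).1.sum : ℚ) + M * (qq D M s l * inn D M s l) ≤ s.1.sum := by
  have hM : (M : ℚ) ≠ 0 := by exact_mod_cast H.M0.ne'
  rw [sum_eq_range, sum_eq_range s.1, len_opn, H.good.len, inn, mul_sum, mul_sum]
  push_cast
  rw [← sum_add_distrib]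
  refine sum_le_sum fun i _ => ?_
  have h1 := opn_up D M s l i
  have e : (M : ℚ) * (qq D M s l * (yq M s i * hk D M s i l)) =
      s.1.getD i 0 * (qq D M s l * hk D M s i l) := by unfold yq; field_simp
  rw [e]; linarith

theorem led_nonneg0 (U K : List ℕ) (s : St) (hU : 0 < U.length) : 0 ≤ led U K s := by
  have h : (1 : ℚ) ≤ U.length := by exact_mod_cast hU
  have h1 : 1 / (2 * 10 ^ 11 * (U.length : ℚ)) ≤ 1 := by
    rw [div_le_one (by positivity)]; linarith
  unfold led
  exact mul_nonneg (by positivity) (pow_nonneg (by linarith) _)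

theorem led_dec (U K : List ℕ) {s : St} {l : ℕ} (hl : 0 < s.1.getD l 0)
    (hK : s.1.sum ≤ K.length) :
    led U K (dec s l) = led U K s * (1 - 1 / (2 * 10 ^ 11 * (U.length : ℚ))) := by
  have h1 := sum_dec hl
  unfold led
  rw [List.length_drop, List.length_drop,
    show K.length - (dec s l).1.sum = K.length - s.1.sum + 1 by omega,
    pow_succ _ (K.length - s.1.sum), ← mul_assoc]
  rfl

theorem pow_exp_le {M t : ℕ} {J : ℚ} (hM : 0 < M) (h1 : 1 - 10 ^ 6 ≤ J) (h2 : J ≤ 1)
    (ht : M * (1 - J) ≤ t) :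
    (1 + 1 / (2 * 10 ^ 11 * (M : ℚ))) ^ M * (1 - 1 / (2 * 10 ^ 11 * (M : ℚ))) ^ t ≤
      1 + (J + J ^ 2 / (2 * 10 ^ 11)) / (2 * 10 ^ 11) := by
  have hM' : (1 : ℝ) ≤ M := by exact_mod_cast hM
  have h1' : (1 - 10 ^ 6 : ℝ) ≤ J := by exact_mod_cast h1
  have h2' : (J : ℝ) ≤ 1 := by exact_mod_cast h2
  have ht' : (M : ℝ) * (1 - J) ≤ t := by exact_mod_cast ht
  rw [← Rat.cast_le (K := ℝ)]
  push_cast
  set c : ℝ := 1 / (2 * 10 ^ 11 * (M : ℝ)) with hc
  have c0 : 0 < c := by positivity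
  have c1 : c ≤ 1 := by rw [hc, div_le_one (by positivity)]; linarith
  have cM : (M : ℝ) * c = 1 / (2 * 10 ^ 11) := by rw [hc]; field_simp
  have a1 : (1 + c) ^ M ≤ Real.exp (M * c) := by
    rw [Real.exp_nat_mul]
    exact pow_le_pow_left₀ (by linarith) (by linarith [Real.add_one_le_exp c]) _
  have a2 : (1 - c) ^ t ≤ Real.exp (t * -c) := by
    rw [Real.exp_nat_mul]
    exact pow_le_pow_left₀ (by linarith) (by linarith [Real.add_one_le_exp (-c)]) _
  have a3 : Real.exp (M * c) * Real.exp (t * -c) ≤ Real.exp (J / (2 * 10 ^ 11)) := by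
    rw [← Real.exp_add, Real.exp_le_exp]
    have := mul_le_mul_of_nonneg_right ht' c0.le
    have e : (M : ℝ) * (1 - J) * c = (1 - J) / (2 * 10 ^ 11) := by
      rw [mul_right_comm, cM]; ring
    rw [cM]; linarith
  have a4 := Real.abs_exp_sub_one_sub_id_le (x := (J : ℝ) / (2 * 10 ^ 11))
    (abs_le.2 ⟨by linarith, by linarith⟩)
  have a5 := mul_le_mul a1 a2 (pow_nonneg (by linarith) _) (Real.exp_pos _).le
  have a6 := (abs_le.1 a4).2
  have e : ((J : ℝ) + J ^ 2 / (2 * 10 ^ 11)) / (2 * 10 ^ 11) =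
      J / (2 * 10 ^ 11) + (J / (2 * 10 ^ 11)) ^ 2 := by ring
  rw [e]; linarith

theorem Ctx.led_opn {U : List ℕ} (H : Ctx D J F r y U.length s) (K : List ℕ) {l : ℕ}
    (hl : 0 < s.1.getD l 0) (hK : s.1.sum ≤ K.length) :
    led U K (opn D U.length s l) ≤ led U K s * (1 + (jj D U.length s l +
      jj D U.length s l ^ 2 / (2 * 10 ^ 11)) / (2 * 10 ^ 11)) := by
  have h1 := sum_opn D U.length hl
  have h2 := H.drop_opn l
  have h3 := pow_exp_le (t := s.1.sum - (opn D U.length s l).1.sum) H.M0 (le_jj D U.length s l)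
    (jj_le D U.length s l) (by rw [Nat.cast_sub (by omega)]; unfold jj; linarith)
  refine le_trans (le_of_eq ?_) (mul_le_mul_of_nonneg_left h3 (led_nonneg0 U K s H.M0))
  unfold led
  rw [List.length_drop, List.length_drop,
    show K.length - (opn D U.length s l).1.sum =
      K.length - s.1.sum + (s.1.sum - (opn D U.length s l).1.sum) by omega,
    pow_add _ (K.length - s.1.sum),
    show (opn D U.length s l).2.length = s.2.length + 1 from rfl, pow_succ _ s.2.length]
  ring

end Vale.Agent.P334
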