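import Vale.Agent.P334.Step
import Vale.Agent.P334.Stmts2

/-! The layered kernel of a state and the effect of the moves on the masses. -/

namespace Vale.Agent.P334.Step2Aux

open Finset

variable {E : ℕ}

theorem E_ge (hE : 10000 ≤ E) : (10000 : ℚ) ≤ E := by exact_mod_cast hE

theorem sum_flat (n : ℕ) (g : ℕ → List (ℚ × ℚ)) (f : ℚ × ℚ → ℚ) :
    (((List.range n).flatMap g).map f).sum = ∑ t ∈ range n, ((g t).map f).sum := by
  induction n with
  | zero => simp
  | succ n ih => rw [List.range_succ, List.flatMap_append, List.map_append, List.sum_append, ih,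
      sum_range_succ]; simp

theorem kl_sum (D : Mx) (M : ℕ) (s : St) (i : ℕ) (f : ℚ × ℚ → ℚ) :
    ((kl2 E D M s i).map f).sum =
      ∑ t ∈ range E, ∑ l ∈ range D.length, f (lay E t * dd D i l, yq M s l / E) +
      f (E / (E + 1) * dS D s.2 i, 1) := by
  simp only [kl2, List.map_append, List.sum_append, sum_flat, List.map_map, sum_map_range]
  simp

theorem kl_mass (D : Mx) (M : ℕ) (s : St) (i : ℕ) : 1 ≤ ((kl2 E D M s i).map Prod.snd).sum := by
  rw [kl_sum]
  have : 0 ≤ ∑ t ∈ range E, ∑ l ∈ range D.length, yq M s l / E :=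
    sum_nonneg fun _ _ => sum_nonneg fun l _ => div_nonneg (yq_nonneg M s l) (by positivity)
  simp only
  linarith

theorem hk_eq (D : Mx) (M : ℕ) (s : St) (i l : ℕ) :
    hk2 E D M s i l = (∑ t ∈ range E, bet (kl2 E D M s i) (lay E t * dd D i l)) / E := by
  rw [hk2, sum_map_range]

theorem kl_tot (D : Mx) (M : ℕ) (s : St) (i : ℕ) :
    ∑ l ∈ range D.length, yq M s l * hk2 E D M s i l + uk2 E D M s i = 1 := by
  have h := sum_bet (kl_mass (E := E) D M s i)
  rw [kl_sum, sum_comm] at h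
  rw [← h]
  simp only [one_mul]
  congr 1
  refine sum_congr rfl fun l _ => ?_
  rw [hk_eq, ← mul_sum]; ring

theorem hk_nonneg (D : Mx) (M : ℕ) (s : St) (i l : ℕ) : 0 ≤ hk2 E D M s i l := by
  rw [hk_eq]
  exact div_nonneg (sum_nonneg fun _ _ => bet_nonneg (kl_mass D M s i) _) (by positivity)

theorem hk_le_one (D : Mx) (M : ℕ) (s : St) (i l : ℕ) : hk2 E D M s i l ≤ 1 := by
  rw [hk_eq]
  refine div_le_one_of_le₀ ?_ (by positivity)
  simpa using sum_le_sum (s := range E) fun t _ =>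
    bet_le_one (kl_mass (E := E) D M s i) (lay E t * dd D i l)

theorem uk_nonneg (D : Mx) (M : ℕ) (s : St) (i : ℕ) : 0 ≤ uk2 E D M s i :=
  bet_nonneg (kl_mass D M s i) _

theorem lam_kl_le (D : Mx) (M : ℕ) (s : St) (i : ℕ) :
    lam (kl2 E D M s i) ≤ E / (E + 1) * dS D s.2 i := by
  refine lam_le ?_
  rw [mle_eq, kl_sum]
  have h1 : 0 ≤ ∑ t ∈ range E, ∑ l ∈ range D.length,
      if lay E t * dd D i l ≤ E / (E + 1) * dS D s.2 i then yq M s l / E else 0 :=
    sum_nonneg fun _ _ => sum_nonneg fun l _ => by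
      split_ifs
      · exact div_nonneg (yq_nonneg M s l) (by positivity)
      · exact le_rfl
  simp only [le_refl, if_true]
  linarith

theorem ex_up {f : ℕ → ℚ} {n : ℕ} (h0 : ∀ t, 0 ≤ f t) (h1 : ∀ t, f t ≤ 1)
    (h : 0 < ∑ t ∈ range n, f t) : ∃ t < n, 0 < f t ∧ ∑ t ∈ range n, f t ≤ t + 1 := by
  induction n with
  | zero => simp at h
  | succ n ih =>
    rcases (h0 n).eq_or_lt with h2 | h2
    · rw [sum_range_succ, ← h2, add_zero] at h ⊢
      obtain ⟨t, a, b, c⟩ := ih h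
      exact ⟨t, by omega, b, c⟩
    · refine ⟨n, by omega, h2, ?_⟩
      simpa using sum_le_sum (s := range (n + 1)) fun t _ => h1 t

theorem ex_low {f : ℕ → ℚ} {n : ℕ} (h0 : ∀ t, 0 ≤ f t) (h1 : ∀ t, f t ≤ 1)
    (h : ∑ t ∈ range n, f t < n) : ∃ t < n, f t < 1 ∧ (t : ℚ) ≤ ∑ t ∈ range n, f t := by
  induction n with
  | zero => simp at h
  | succ n ih =>
    rw [sum_range_succ] at h ⊢
    push_cast at h
    rcases lt_or_ge (∑ t ∈ range n, f t) n with h2 | h2
    · obtain ⟨t, a, b, c⟩ := ih h2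
      exact ⟨t, by omega, b, by linarith [h0 n]⟩
    · exact ⟨n, by omega, by linarith, by linarith [h0 n]⟩

theorem den_pos {t : ℕ} (ht : t < E) : (0 : ℚ) < 1 - 5 * ((t : ℚ) + 1) / (13 * E) := by
  have h1 : (t : ℚ) + 1 ≤ E := by exact_mod_cast ht
  have h2 : (0 : ℚ) ≤ t := by positivity
  rw [sub_pos, div_lt_one (by linarith)]
  linarith

theorem lay_pos {t : ℕ} (ht : t < E) : 0 < lay E t := one_div_pos.2 (den_pos ht)

theorem hk_up (D : Mx) (M : ℕ) (s : St) (i l : ℕ) (h0 : 0 ≤ lam (kl2 E D M s i))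
    (h : 0 < hk2 E D M s i l) :
    13 * dd D i l ≤ 13 * lam (kl2 E D M s i) - 5 * hk2 E D M s i l * lam (kl2 E D M s i) := by
  rw [hk_eq] at h ⊢
  obtain ⟨t, h1, h2, h3⟩ := ex_up (n := E)
    (fun t => bet_nonneg (kl_mass (E := E) D M s i) (lay E t * dd D i l))
    (fun t => bet_le_one (kl_mass D M s i) _)
    (lt_of_not_ge fun h' => absurd h (not_lt.2 (div_nonpos_of_nonpos_of_nonneg h' (by positivity))))
  have h4 := le_lam_of_bet_pos h2
  have hE : (0 : ℚ) < E := by exact_mod_cast Nat.zero_lt_of_lt h1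
  rw [lay, one_div, inv_mul_le_iff₀ (den_pos h1)] at h4
  have h5 := mul_le_mul_of_nonneg_right (div_le_div_of_nonneg_right h3 hE.le) h0
  have e : 5 * ((t : ℚ) + 1) / (13 * E) = 5 / 13 * ((t + 1) / E) := by field_simp
  rw [e] at h4
  linarith

theorem hk_low (hE : 10000 ≤ E) (D : Mx) (M : ℕ) (s : St) (i l : ℕ) (h0 : 0 ≤ lam (kl2 E D M s i))
    (h : hk2 E D M s i l < 1) :
    13 * lam (kl2 E D M s i) - 5 * (hk2 E D M s i l + 1 / E) * lam (kl2 E D M s i) ≤
      13 * dd D i l := by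
  have hE' : (0 : ℚ) < E := by linarith [E_ge hE]
  rw [hk_eq] at h ⊢
  obtain ⟨t, h1, h2, h3⟩ := ex_low (fun t => bet_nonneg (kl_mass D M s i) (lay E t * dd D i l))
    (fun t => bet_le_one (kl_mass D M s i) _) ((div_lt_one hE').1 h)
  have h4 := lam_le_of_bet_lt h2
  rw [lay, one_div, le_inv_mul_iff₀ (den_pos h1)] at h4
  have h5 := mul_le_mul_of_nonneg_right (div_le_div_of_nonneg_right h3 hE'.le) h0
  have e : 5 * ((t : ℚ) + 1) / (13 * E) = 5 / 13 * (t / E + 1 / E) := by field_simp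
  rw [e] at h4
  linarith

theorem inn_nonneg (D : Mx) (M : ℕ) (s : St) (l : ℕ) : 0 ≤ inn2 E D M s l :=
  sum_nonneg fun i _ => mul_nonneg (yq_nonneg M s i) (hk_nonneg D M s i l)

theorem A_ge (hE : 10000 ≤ E) : (1000 : ℚ) ≤ 10 * (E : ℚ) ^ 2 := by nlinarith [E_ge hE]

theorem qq_pos (hE : 10000 ≤ E) (D : Mx) (M : ℕ) (s : St) (l : ℕ) : 0 < qq2 E D M s l := by
  have := A_ge hE
  unfold qq2
  split_ifs with h
  · norm_num
  · exact div_pos (by linarith) (by linarith)

theorem qq_le_one (hE : 10000 ≤ E) (D : Mx) (M : ℕ) (s : St) (l : ℕ) : qq2 E D M s l ≤ 1 := by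
  have := A_ge hE
  unfold qq2
  split_ifs with h
  · exact le_rfl
  · exact (div_le_one (by linarith)).2 (by linarith)

theorem qq_cases (hE : 10000 ≤ E) (D : Mx) (M : ℕ) (s : St) (l : ℕ) :
    (qq2 E D M s l = 1 ∧ inn2 E D M s l ≤ 10 * (E : ℚ) ^ 2) ∨
      qq2 E D M s l * inn2 E D M s l = 10 * (E : ℚ) ^ 2 := by
  have := A_ge hE
  unfold qq2
  split_ifs with h
  · exact Or.inl ⟨rfl, h⟩
  · exact Or.inr (div_mul_cancel₀ _ (by linarith))

theorem qh_nonneg (hE : 10000 ≤ E) (D : Mx) (M : ℕ) (s : St) (i l : ℕ) :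
    0 ≤ 1 - qq2 E D M s l * hk2 E D M s i l := by
  have := mul_le_mul (qq_le_one hE D M s l) (hk_le_one (E := E) D M s i l) (hk_nonneg D M s i l)
    zero_le_one
  linarith

/-- The imbalance of an opening. -/
def jj (E : ℕ) (D : Mx) (M : ℕ) (s : St) (l : ℕ) : ℚ := 1 - qq2 E D M s l * inn2 E D M s l

/-- The bias of the rate of an opening. -/
def omg (E : ℕ) (D : Mx) (M : ℕ) (s : St) (l : ℕ) : ℚ := 1 - jj E D M s l / (10 * (E : ℚ) ^ 4)

theorem jj_le (hE : 10000 ≤ E) (D : Mx) (M : ℕ) (s : St) (l : ℕ) : jj E D M s l ≤ 1 := by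
  have := mul_nonneg (qq_pos hE D M s l).le (inn_nonneg (E := E) D M s l)
  unfold jj; linarith

theorem le_jj (hE : 10000 ≤ E) (D : Mx) (M : ℕ) (s : St) (l : ℕ) :
    1 - 10 * (E : ℚ) ^ 2 ≤ jj E D M s l := by
  unfold jj
  rcases qq_cases hE D M s l with ⟨h1, h2⟩ | h1
  · rw [h1]; linarith
  · linarith

theorem B_ge (hE : 10000 ≤ E) : 100 * (E : ℚ) ^ 2 ≤ (E : ℚ) ^ 4 := by
  have := A_ge hE
  nlinarith

theorem omg_pos (hE : 10000 ≤ E) (D : Mx) (M : ℕ) (s : St) (l : ℕ) : 0 < omg E D M s l := by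
  have h1 := jj_le hE D M s l
  have h2 := A_ge hE
  have h3 := B_ge hE
  unfold omg
  rw [sub_pos, div_lt_one (by linarith)]
  linarith

theorem omg_jj (hE : 10000 ≤ E) (D : Mx) (M : ℕ) (s : St) (l : ℕ) :
    omg E D M s l / qq2 E D M s l * (jj E D M s l + jj E D M s l ^ 2 / (20 * (E : ℚ) ^ 4)) ≤
      1 - inn2 E D M s l := by
  have h0 := qq_pos hE D M s l
  have a2 := A_ge hE
  have a3 := B_ge hE
  have h1 := le_jj hE D M s l
  rw [div_mul_eq_mul_div, div_le_iff₀ h0]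
  unfold omg
  obtain ⟨w, hw⟩ : ∃ w : ℚ, w = jj E D M s l / (10 * (E : ℚ) ^ 4) := ⟨_, rfl⟩
  have w1 : w * (10 * (E : ℚ) ^ 4) = jj E D M s l := by rw [hw]; field_simp
  have w2 : -(1 / 2) ≤ w := by rw [hw, le_div_iff₀ (by linarith)]; linarith
  have w3 : jj E D M s l ^ 2 / (20 * (E : ℚ) ^ 4) = w * jj E D M s l / 2 := by
    rw [hw]; field_simp; ring
  have w4 : 0 ≤ w * jj E D M s l := by
    rw [← w1, ← mul_assoc]; exact mul_nonneg (mul_self_nonneg w) (by linarith)
  rw [← hw, w3]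
  have key : (1 - w) * (jj E D M s l + w * jj E D M s l / 2) ≤
      jj E D M s l - w * jj E D M s l / 4 := by nlinarith
  refine key.trans ?_
  rcases qq_cases hE D M s l with ⟨h2, -⟩ | h2
  · have e : jj E D M s l = 1 - inn2 E D M s l := by unfold jj; rw [h2, one_mul]
    rw [h2, ← e]
    linarith
  · have e : jj E D M s l = 1 - 10 * (E : ℚ) ^ 2 := by unfold jj; rw [h2]
    have w5 : 4 ≤ w * jj E D M s l := by
      rw [hw, div_mul_eq_mul_div, le_div_iff₀ (by linarith), e]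
      nlinarith
    nlinarith

variable {D : Mx} {J F : List ℕ} {r : ℚ} {y : List ℚ} {M : ℕ} {s : St}

theorem lam0 (H : Ctx D J F r y M s) {i : ℕ} (hi : i < D.length) : 0 ≤ lam (kl2 E D M s i) := by
  obtain ⟨p, hp, e⟩ := lam_mem (kl_mass (E := E) D M s i)
  rw [← e]
  simp only [kl2, List.mem_append, List.mem_flatMap, List.mem_map, List.mem_range,
    List.mem_singleton] at hp
  rcases hp with ⟨t, ht, l, hl, rfl⟩ | rfl
  · exact mul_nonneg (lay_pos ht).le (H.ok.nonneg hi hl)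
  · exact mul_nonneg (by positivity) (H.dS0 hi)

theorem opn_getD (D : Mx) (M : ℕ) (s : St) (l i : ℕ) : (opn2 E D M s l).1.getD i 0 =
    if i = l then 0 else
      min (s.1.getD i 0) ⌊(s.1.getD i 0 : ℚ) * (1 - qq2 E D M s l * hk2 E D M s i l)⌋₊ := by
  unfold opn2
  rw [getD_map_range]
  split_ifs with h1 h2 h3
  · rfl
  · rfl
  · rfl
  · rw [List.getD_eq_default _ _ (by omega)]; simp

theorem opn_le (D : Mx) (M : ℕ) (s : St) (l i : ℕ) :
    (opn2 E D M s l).1.getD i 0 ≤ s.1.getD i 0 := by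
  rw [opn_getD]; split_ifs
  · exact Nat.zero_le _
  · exact min_le_left _ _

theorem opn_up (hE : 10000 ≤ E) (D : Mx) (M : ℕ) (s : St) (l i : ℕ) :
    ((opn2 E D M s l).1.getD i 0 : ℚ) ≤ s.1.getD i 0 * (1 - qq2 E D M s l * hk2 E D M s i l) := by
  have h0 : (0 : ℚ) ≤ s.1.getD i 0 * (1 - qq2 E D M s l * hk2 E D M s i l) :=
    mul_nonneg (by positivity) (qh_nonneg hE D M s i l)
  rw [opn_getD]; split_ifs
  · simpa using h0
  · exact le_trans (by exact_mod_cast min_le_right _ _) (Nat.floor_le h0)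

theorem opn_low (hE : 10000 ≤ E) (D : Mx) (M : ℕ) (s : St) {l i : ℕ} (h : i ≠ l) :
    s.1.getD i 0 * (1 - qq2 E D M s l * hk2 E D M s i l) - 1 ≤
      ((opn2 E D M s l).1.getD i 0 : ℚ) := by
  rw [opn_getD, if_neg h, Nat.cast_min]
  have h0 := Nat.lt_floor_add_one ((s.1.getD i 0 : ℚ) * (1 - qq2 E D M s l * hk2 E D M s i l))
  refine le_min ?_ (by linarith)
  have h1 : (0 : ℚ) ≤ s.1.getD i 0 * (qq2 E D M s l * hk2 E D M s i l) :=
    mul_nonneg (by positivity) (mul_nonneg (qq_pos hE D M s l).le (hk_nonneg D M s i l))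
  linarith

theorem good_opn (H : Ctx D J F r y M s) {l : ℕ} (hl : 0 < s.1.getD l 0) :
    Good D F y M (opn2 E D M s l) where
  len := by simp [opn2, H.good.len]
  le i := le_trans (by exact_mod_cast opn_le D M s l i) (H.good.le i)
  sol := ⟨by simp [opn2], fun i hi => by
    rcases List.mem_cons.1 hi with rfl | hi
    · exact H.mem_F hl
    · exact H.good.sol.2 i hi⟩

theorem len_opn (D : Mx) (M : ℕ) (s : St) (l : ℕ) : (opn2 E D M s l).1.length = s.1.length := by
  simp [opn2]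

theorem sum_opn (D : Mx) (M : ℕ) {s : St} {l : ℕ} (hl : 0 < s.1.getD l 0) :
    (opn2 E D M s l).1.sum + 1 ≤ s.1.sum := by
  rw [sum_eq_range, sum_eq_range s.1, len_opn]
  exact sum_lt_of (lt_of_pos hl) (opn_le D M s l) (by rw [opn_getD, if_pos rfl]; exact hl)

theorem res_opn (D : Mx) (M : ℕ) {s : St} {l : ℕ} (hl : 0 < s.1.getD l 0) :
    res M (opn2 E D M s l) + M ≤ res M s := by
  have h1 := sum_opn (E := E) D M hl
  have h2 : ((opn2 E D M s l).1.filter fun a => decide (0 < a)).length + 1 ≤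
      (s.1.filter fun a => decide (0 < a)).length := by
    rw [count_eq_range, count_eq_range s.1, len_opn]
    refine sum_lt_of (lt_of_pos hl) (fun i => ?_) (by rw [opn_getD, if_pos rfl, if_pos hl]; simp)
    have := opn_le (E := E) D M s l i
    split_ifs <;> omega
  have h3 := Nat.mul_le_mul_left M h2
  unfold res
  rw [mul_add] at h3
  omega

theorem drop_opn (hE : 10000 ≤ E) (H : Ctx D J F r y M s) (l : ℕ) :
    ((opn2 E D M s l).1.sum : ℚ) + M * (qq2 E D M s l * inn2 E D M s l) ≤ s.1.sum := by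
  have hM : (M : ℚ) ≠ 0 := by exact_mod_cast H.M0.ne'
  rw [sum_eq_range, sum_eq_range s.1, len_opn, H.good.len, inn2, mul_sum, mul_sum]
  push_cast
  rw [← sum_add_distrib]
  refine sum_le_sum fun i _ => ?_
  have h1 := opn_up hE D M s l i
  have e : (M : ℚ) * (qq2 E D M s l * (yq M s i * hk2 E D M s i l)) =
      s.1.getD i 0 * (qq2 E D M s l * hk2 E D M s i l) := by unfold yq; field_simp
  rw [e]; linarith

theorem led_nonneg (hE : 10000 ≤ E) (U K : List ℕ) (s : St) (hU : 0 < U.length) :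
    0 ≤ led2 E U K s := by
  have h : (1 : ℚ) ≤ U.length := by exact_mod_cast hU
  have a2 := A_ge hE
  have a3 := B_ge hE
  have h1 : 1 / (20 * (E : ℚ) ^ 4 * (U.length : ℚ)) ≤ 1 := by
    refine div_le_one_of_le₀ ?_ (by positivity)
    nlinarith
  unfold led2
  exact mul_nonneg (by positivity) (pow_nonneg (by linarith) _)

theorem led_dec (U K : List ℕ) {s : St} {l : ℕ} (hl : 0 < s.1.getD l 0)
    (hK : s.1.sum ≤ K.length) :
    led2 E U K (dec s l) = led2 E U K s * (1 - 1 / (20 * (E : ℚ) ^ 4 * (U.length : ℚ))) := by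
  have h1 := sum_dec hl
  unfold led2
  rw [List.length_drop, List.length_drop,
    show K.length - (dec s l).1.sum = K.length - s.1.sum + 1 by omega,
    pow_succ _ (K.length - s.1.sum), ← mul_assoc]
  rfl

theorem pow_exp_le {M t : ℕ} {J W : ℚ} (hM : 0 < M) (hW : 1 ≤ W) (h1 : -W ≤ J) (h2 : J ≤ 1)
    (ht : M * (1 - J) ≤ t) :
    (1 + 1 / (W * (M : ℚ))) ^ M * (1 - 1 / (W * (M : ℚ))) ^ t ≤ 1 + (J + J ^ 2 / W) / W := by
  have hM' : (1 : ℝ) ≤ M := by exact_mod_cast hM
  have hW' : (1 : ℝ) ≤ W := by exact_mod_cast hW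
  have h1' : (-W : ℝ) ≤ J := by exact_mod_cast h1
  have h2' : (J : ℝ) ≤ 1 := by exact_mod_cast h2
  have ht' : (M : ℝ) * (1 - J) ≤ t := by exact_mod_cast ht
  rw [← Rat.cast_le (K := ℝ)]
  push_cast
  set c : ℝ := 1 / ((W : ℝ) * (M : ℝ)) with hc
  have c0 : 0 < c := by positivity
  have c1 : c ≤ 1 := by rw [hc, div_le_one (by positivity)]; nlinarith
  have cM : (M : ℝ) * c = 1 / W := by rw [hc]; field_simp
  have a1 : (1 + c) ^ M ≤ Real.exp (M * c) := by
    rw [Real.exp_nat_mul]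
    exact pow_le_pow_left₀ (by linarith) (by linarith [Real.add_one_le_exp c]) _
  have a2 : (1 - c) ^ t ≤ Real.exp (t * -c) := by
    rw [Real.exp_nat_mul]
    exact pow_le_pow_left₀ (by linarith) (by linarith [Real.add_one_le_exp (-c)]) _
  have a3 : Real.exp (M * c) * Real.exp (t * -c) ≤ Real.exp (J / W) := by
    rw [← Real.exp_add, Real.exp_le_exp]
    have := mul_le_mul_of_nonneg_right ht' c0.le
    have e : (M : ℝ) * (1 - J) * c = 1 / W - J / W := by
      rw [mul_right_comm, cM]; ring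
    rw [cM]; linarith
  have a4 := Real.abs_exp_sub_one_sub_id_le (x := (J : ℝ) / W)
    (abs_le.2 ⟨by rw [le_div_iff₀ (by linarith)]; linarith,
      by rw [div_le_one (by linarith)]; linarith⟩)
  have a5 := mul_le_mul a1 a2 (pow_nonneg (by linarith) _) (Real.exp_pos _).le
  have a6 := (abs_le.1 a4).2
  have e : ((J : ℝ) + J ^ 2 / W) / W = J / W + (J / W) ^ 2 := by ring
  rw [e]; linarith

theorem led_opn (hE : 10000 ≤ E) {U : List ℕ} (H : Ctx D J F r y U.length s) (K : List ℕ) {l : ℕ}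
    (hl : 0 < s.1.getD l 0) (hK : s.1.sum ≤ K.length) :
    led2 E U K (opn2 E D U.length s l) ≤ led2 E U K s * (1 + (jj E D U.length s l +
      jj E D U.length s l ^ 2 / (20 * (E : ℚ) ^ 4)) / (20 * (E : ℚ) ^ 4)) := by
  have h1 := sum_opn (E := E) D U.length hl
  have h2 := drop_opn hE H l
  have a2 := A_ge hE
  have a3 := B_ge hE
  have h3 := pow_exp_le (W := 20 * (E : ℚ) ^ 4) (t := s.1.sum - (opn2 E D U.length s l).1.sum) H.M0
    (by linarith) (by linarith [le_jj hE D U.length s l])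
    (jj_le hE D U.length s l) (by rw [Nat.cast_sub (by omega)]; unfold jj; linarith)
  refine le_trans (le_of_eq ?_) (mul_le_mul_of_nonneg_left h3 (led_nonneg hE U K s H.M0))
  unfold led2
  rw [List.length_drop, List.length_drop,
    show K.length - (opn2 E D U.length s l).1.sum =
      K.length - s.1.sum + (s.1.sum - (opn2 E D U.length s l).1.sum) by omega,
    pow_add _ (K.length - s.1.sum),
    show (opn2 E D U.length s l).2.length = s.2.length + 1 from rfl, pow_succ _ s.2.length]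
  ring

end Vale.Agent.P334.Step2Aux
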