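import Vale.Agent.P334.Stmts2

/-! The parts of the inequality for one client. -/

namespace Vale.Agent.P334

open Finset

/-- The second order weight of a point at distance `e`. -/
def kk2 (E : ℕ) (m t e : ℚ) : ℚ := bt m (cN E m) / m * e - nm t e / 22 + m / 10 * np t e

/-- The second order unit cost at distance `e`. -/
def hc2 (E : ℕ) (s : Finset ℕ) (x d : ℕ → ℚ) (t e : ℚ) : ℚ :=
  ((∑ i ∈ s, x i) * kk2 E (∑ i ∈ s, x i) t e + ∑ j ∈ s, x j * kk2 E (∑ i ∈ s, x i) t (d j)) / 2 +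
    (∑ i ∈ s, x i) / 10 * ∑ i ∈ s, x i * np t (d i)

/-- The unit cost at distance `e` when the fraction `g` is removed. -/
def un2 (E : ℕ) (s : Finset ℕ) (x d : ℕ → ℚ) (t e g : ℚ) : ℚ :=
  dcy2 E s x d t e + g * hc2 E s x d t e

/-- Removing the fractions `g`; the second order cost is nonnegative; the potential is monotone
in the open distance. -/
def KillStmt (E : ℕ) : Prop := ∀ (s : Finset ℕ) (x d : ℕ → ℚ) (t : ℚ), (∀ i ∈ s, 0 ≤ x i) →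
  ∑ i ∈ s, x i ≤ 1 → (∀ i ∈ s, 0 ≤ d i) → 0 ≤ t →
    (∀ g : ℕ → ℚ, (∀ i ∈ s, 0 ≤ g i) → (∀ i ∈ s, g i ≤ 1) →
      psiV2 E s (fun i => x i * (1 - g i)) d t ≤
        psiV2 E s x d t + ∑ i ∈ s, x i * g i * un2 E s x d t (d i) (g i)) ∧
    (∀ e, 0 ≤ e → 0 ≤ hc2 E s x d t e) ∧
    (∀ t', t ≤ t' → psiV2 E s x d t ≤ psiV2 E s x d t')

/-- The bound for the value after the opening of `l`. -/
def rb2 (E : ℕ) (s : Finset ℕ) (x d : ℕ → ℚ) (h : ℕ → ℕ → ℚ) (f : ℚ) (l : ℕ) : ℚ :=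
  d l - ∑ i ∈ s, x i * (1 - h i l) * max (d l - (22 * cN E (∑ i ∈ s, x i) + 3) / 23 * d i) 0 +
    100 / E * ∑ i ∈ s, x i * (1 - h i l) * d i +
    f * ∑ i ∈ s, x i * h i l * (((22 * cN E (∑ i ∈ s, x i) + 3) / 23 - cN E (∑ i ∈ s, x i) +
      3 * (∑ i ∈ s, x i) * (1 - ∑ i ∈ s, x i) / 10) * d i) +
    4 * (∑ i ∈ s, x i) / (E : ℚ) ^ 2 * d l

/-- The openings of the own share. -/
def InsideStmt (E : ℕ) : Prop := ∀ (s : Finset ℕ) (x y d lm u q om V : ℕ → ℚ) (h : ℕ → ℕ → ℚ)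
  (t : ℚ), Local2 E s x y d lm u q om V h t → ∀ l ∈ s, 0 < y l → ∃ f : ℚ, 0 ≤ f ∧ f ≤ 1 ∧
    (0 < f → (cN E (∑ i ∈ s, x i) - 3 * (∑ i ∈ s, x i) * (1 - ∑ i ∈ s, x i) / 10 -
      (∑ i ∈ s, x i) / 1000) * (∑ i ∈ s, x i * d i) + (1 - ∑ i ∈ s, x i) * t < d l) ∧
    (V l - psiV2 E s x d t) / q l ≤ rb2 E s x d h f l - psiV2 E s x d t

/-- The price of the events outside the own share. -/
def PriceStmt (E : ℕ) : Prop := ∀ (s : Finset ℕ) (x y d lm u q om V : ℕ → ℚ) (h : ℕ → ℕ → ℚ)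
  (t : ℚ), Local2 E s x y d lm u q om V h t → ∀ i ∈ s, ∃ τ g ε : ℚ, 0 ≤ τ ∧ τ ≤ t ∧
    τ ≤ d i + lm i ∧ 0 ≤ g ∧ g ≤ 1 ∧ 5 * g * lm i ≤ 13 * (d i + lm i - τ) ∧ 0 ≤ ε ∧
    ε ≤ (2 * τ + 2 * d i + 2 * ∑ j ∈ s, x j * d j) / (E : ℚ) ^ 2 ∧
    ε ≤ (2 * (t - τ) + 7 * d i + ∑ j ∈ s, x j * d j) / E ∧
    ∑ l ∈ s, (y l - x l) * h i l * (om l * un2 E s x d (min t (d l)) (d i) (h i l)) +
      u i * dcy2 E s x d t (d i) ≤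
      (1 - ∑ j ∈ s, x j + ∑ l ∈ s, x l * (1 - h i l)) * (un2 E s x d τ (d i) g + ε)

/-- The drift is bounded by the values of the own openings and the prices. -/
def SplitStmt (E : ℕ) : Prop := ∀ (s : Finset ℕ) (x y d lm u q om V : ℕ → ℚ) (h : ℕ → ℕ → ℚ)
  (t : ℚ), Local2 E s x y d lm u q om V h t → ∃ f τ g ε : ℕ → ℚ,
    (∀ l ∈ s, 0 ≤ f l ∧ f l ≤ 1 ∧
      (0 < f l → (cN E (∑ i ∈ s, x i) - 3 * (∑ i ∈ s, x i) * (1 - ∑ i ∈ s, x i) / 10 -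
      (∑ i ∈ s, x i) / 1000) * (∑ i ∈ s, x i * d i) + (1 - ∑ i ∈ s, x i) * t < d l)) ∧
    (∀ i ∈ s, 0 ≤ τ i ∧ τ i ≤ t ∧ τ i ≤ d i + lm i ∧ 0 ≤ g i ∧ g i ≤ 1 ∧
      5 * g i * lm i ≤ 13 * (d i + lm i - τ i) ∧ 0 ≤ ε i ∧
      ε i ≤ (2 * τ i + 2 * d i + 2 * ∑ j ∈ s, x j * d j) / (E : ℚ) ^ 2 ∧
      ε i ≤ (2 * (t - τ i) + 7 * d i + ∑ j ∈ s, x j * d j) / E) ∧
    ∑ l ∈ s, om l * y l / q l * (V l - psiV2 E s x d t) +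
      ∑ i ∈ s, u i * x i * dcy2 E s x d t (d i) ≤
      ∑ l ∈ s, x l * rb2 E s x d h (f l) l + 4 * (∑ j ∈ s, x j * d j) / (E : ℚ) ^ 2 -
      (∑ j ∈ s, x j) * psiV2 E s x d t +
      ∑ i ∈ s, x i * ((1 - ∑ j ∈ s, x j + ∑ l ∈ s, x l * (1 - h i l)) *
        (un2 E s x d (τ i) (d i) (g i) + ε i +
          (3 * ∑ j ∈ s, x j * d j + 2 * (1 - ∑ j ∈ s, x j) * t) / (E : ℚ) ^ 2))

end Vale.Agent.P334
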